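import Mathlib
import Crest.Prelude.Def_QueryComplexity

/-!
# S0554: definitions shared by all modules (guide id 554)

Part 1: quantum query procedures through Gram kernels.
Part 2: decision trees with arbitrary outputs.
Part 3: forrelation, hidden Gaussian model.
Part 4: the total function.
-/

set_option autoImplicit false

namespace Crest.Agent.QGap

open Matrix BigOperators Crest.MathPhysics.Query MeasureTheory ProbabilityTheory

/-- the sign of a bit: `false ↦ 1`, `true ↦ -1` -/
def sg (b : Bool) : ℝ := if b then -1 else 1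

/-! ## Part 1: kernels -/

/-- `KStep π q G G'`: the family of states with Gram matrix `G` (indexed by `Y`, the state `y`
belongs to the input `π y`) can be turned into a family with Gram matrix `G'` by `q` queries.
One query: `P + ∑ i, M i ↦ P + ∑ i, (sign kernel of bit i) ∘ M i`. -/
inductive KStep {I Y : Type} [Fintype I] (π : Y → I → Bool) :
    ℕ → Matrix Y Y ℝ → Matrix Y Y ℝ → Prop
  | refl (G : Matrix Y Y ℝ) (hG : G.PosSemidef) : KStep π 0 G G
  | step {q : ℕ} {G : Matrix Y Y ℝ} (P : Matrix Y Y ℝ) (M : I → Matrix Y Y ℝ)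
      (hP : P.PosSemidef) (hM : ∀ i, (M i).PosSemidef)
      (h : KStep π q G (P + ∑ i, M i)) :
      KStep π (q + 1) G
        (P + ∑ i, Matrix.of fun y y' => sg (π y i) * sg (π y' i) * M i y y')

/-- A quantum procedure on inputs `I → Bool` with `q` queries whose outcome (in the finite type
`Ω`) has distribution `D x` on input `x`. -/
def QProc (I : Type) [Fintype I] {Ω : Type} [Fintype Ω] (q : ℕ)
    (D : (I → Bool) → Ω → ℝ) : Prop :=
  ∃ G : Ω → Matrix (I → Bool) (I → Bool) ℝ, (∀ ω, (G ω).PosSemidef) ∧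
    KStep (fun x : I → Bool => x) q (Matrix.of fun _ _ => 1) (∑ ω, G ω) ∧
    ∀ x ω, G ω x x = D x ω

/-- a Bernoulli distribution on `Bool` -/
def bern (p : ℝ) (o : Bool) : ℝ := if o then p else 1 - p

/-! ## Part 2: decision trees -/

/-- decision trees over bits indexed by `I`, with outputs in `Ω` -/
inductive GTree (I Ω : Type) : Type where
  | leaf (ω : Ω) : GTree I Ω
  | node (i : I) (t : Bool → GTree I Ω) : GTree I Ω

namespace GTree
variable {I Ω Ω' : Type}

/-- output on input `x` -/
def eval (x : I → Bool) : GTree I Ω → Ω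
  | leaf ω => ω
  | node i t => (t (x i)).eval x

/-- depth -/
def depth : GTree I Ω → ℕ
  | leaf _ => 0
  | node _ t => max (t false).depth (t true).depth + 1

/-- sequential composition -/
def bind : GTree I Ω → (Ω → GTree I Ω') → GTree I Ω'
  | leaf ω, f => f ω
  | node i t, f => node i fun b => (t b).bind f

/-- read one bit -/
def bit (i : I) : GTree I Bool := node i leaf

end GTree

/-! ## Part 3: Hadamard matrix, forrelation, hidden Gaussian model -/

/-- points of the cube; `card (Z n) = 2 ^ n` -/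
abbrev Z (n : ℕ) : Type := Fin n → Bool

/-- the character `(-1)^(y ⬝ z)` -/
def chi {n : ℕ} (y z : Z n) : ℝ := ∏ t, if y t && z t then -1 else 1

/-- normalised Hadamard matrix -/
noncomputable def H {n : ℕ} (y z : Z n) : ℝ := chi y z / Real.sqrt (2 ^ n)

/-- index of the bits of one plane: `k + 1` functions `Z n → Bool` -/
abbrev Pl (k n : ℕ) : Type := Fin (k + 1) × Z n

/-- product of the link weights of a chain `x 0, …, x k` -/
noncomputable def linkW {k n : ℕ} (x : Fin (k + 1) → Z n) : ℝ :=
  ∏ i : Fin k, H (x i.castSucc) (x i.succ)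

/-- `(k+1)`-fold forrelation of the plane `f`: `(1/N) ∑ over chains`. -/
noncomputable def Phi {k n : ℕ} (f : Pl k n → Bool) : ℝ :=
  (1 / (2 : ℝ) ^ n) * ∑ x : Fin (k + 1) → Z n, linkW x * ∏ i, sg (f (i, x i))

/-- the uniform weight on a cube -/
noncomputable def unif (I : Type) [Fintype I] : ℝ := (1 / 2 : ℝ) ^ Fintype.card I

section ext
variable {I : Type} [Fintype I] [DecidableEq I]

/-- weight of `f` under the product measure with biases `b` (a signed weight if `b` leaves
the cube); the sign `sg (f i)` has mean `b i`. -/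
noncomputable def mu (b : I → ℝ) (f : I → Bool) : ℝ := ∏ i, (1 + b i * sg (f i)) / 2

/-- multilinear extension of `g` at the point `b` -/
noncomputable def ext (g : (I → Bool) → ℝ) (b : I → ℝ) : ℝ := ∑ f, g f * mu b f

/-- derivative of the multilinear extension in the coordinates of `S` -/
noncomputable def dext (g : (I → Bool) → ℝ) (S : Finset I) (b : I → ℝ) : ℝ :=
  ∑ f, g f * ((∏ i ∈ S, sg (f i) / 2) * ∏ i ∈ Sᶜ, (1 + b i * sg (f i)) / 2)

end ext

/-- the set of the `k + 1` bits of a chain -/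
def chainSet {k n : ℕ} (x : Fin (k + 1) → Z n) : Finset (Pl k n) :=
  Finset.univ.image fun i => (i, x i)

/-- the chain sum of derivatives -/
noncomputable def Lam {k n : ℕ} (g : (Pl k n → Bool) → ℝ) (b : Pl k n → ℝ) : ℝ :=
  ∑ x : Fin (k + 1) → Z n, linkW x * dext g (chainSet x) b

/-- `H`-transform of one block of hidden variables -/
noncomputable def beta {k n : ℕ} (α : Fin k × Z n → ℝ) (i : Fin k) (y : Z n) : ℝ :=
  ∑ x, H x y * α (i, x)

/-- the bias vector: bit `(i, x)` has bias
`[i = 0 : 1 | i > 0 : ε β_{i-1}(x)] * [i < k : ε α_i(x) | i = k : 1]`, and the biases of the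
function with index `0` are multiplied by `lam`. -/
noncomputable def bvec {k n : ℕ} (ε lam : ℝ) (α : Fin k × Z n → ℝ) (p : Pl k n) : ℝ :=
  (if (p.1 : ℕ) = 0 then lam else 1) *
  ((if h : 0 < (p.1 : ℕ) then ε * beta α ⟨(p.1 : ℕ) - 1, by have := p.1.isLt; omega⟩ p.2 else 1) *
   (if h : (p.1 : ℕ) < k then ε * α (⟨(p.1 : ℕ), h⟩, p.2) else 1))

/-- independent standard Gaussians -/
noncomputable def gam (J : Type) [Fintype J] : Measure (J → ℝ) :=
  Measure.pi fun _ => gaussianReal 0 1

/-- mixed moments of one link -/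
noncomputable def mm {n : ℕ} (A B : Finset (Z n)) : ℝ :=
  ∫ α : Z n → ℝ, (∏ x ∈ A, α x) * (∏ y ∈ B, ∑ x, H x y * α x) ∂(gam (Z n))

/-- the good event for the hidden variables -/
def good {k n : ℕ} (ε : ℝ) (α : Fin k × Z n → ℝ) : Prop :=
  ∀ i x, |ε * α (i, x)| ≤ 1 / 2 ∧ |ε * beta α i x| ≤ 1 / 2

/-- growth factor -/
noncomputable def grow {k n : ℕ} (ε : ℝ) (α : Fin k × Z n → ℝ) : ℝ :=
  ∏ i : Fin k, ∏ x : Z n, max 1 |ε * α (i, x)| * max 1 |ε * beta α i x|

open Classical in
/-- the planted distribution on planes -/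
noncomputable def nu {k n : ℕ} (ε : ℝ) (f : Pl k n → Bool) : ℝ :=
  ∫ α : Fin k × Z n → ℝ, (if good ε α then mu (bvec ε 1 α) f else unif (Pl k n))
    ∂(gam (Fin k × Z n))

/-! ## Part 4: the total function -/

/-- content of a memory cell: killer rows of the columns, and the transform tables
`(plane ℓ, block i, layer r, point z)` -/
abbrev CellIx (n k L : ℕ) : Type := Z n ⊕ (Fin L × Fin (k + 1) × Fin (n + 1) × Z n)

/-- the input bits: planes of the columns, killer flags of the columns, memory words -/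
abbrev Ix (n k L w : ℕ) : Type :=
  (Z n × Fin L × Pl k n) ⊕ (Z n × Z n) ⊕ ((Fin L → Bool) × CellIx n k L × Fin w)

section F
variable {n k L w : ℕ}

/-- plane `ℓ` of column `c` -/
def plane (x : Ix n k L w → Bool) (c : Z n) (ℓ : Fin L) : Pl k n → Bool :=
  fun p => x (Sum.inl (c, ℓ, p))

/-- killer flag of column `c` in row `r` -/
def flag (x : Ix n k L w → Bool) (c r : Z n) : Bool := x (Sum.inr (Sum.inl (c, r)))

/-- memory word -/
def word (x : Ix n k L w → Bool) (a : Fin L → Bool) (u : CellIx n k L) : Fin w → Bool :=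
  fun t => x (Sum.inr (Sum.inr (a, u, t)))

/-- a coding of integers and of points by words -/
structure Codec (n k w : ℕ) where
  decI : (Fin w → Bool) → ℤ
  decZ : (Fin w → Bool) → Z n
  zero : decI (fun _ => false) = 0
  surjI : ∀ t : ℤ, |t| ≤ 2 ^ (n * (k + 2)) → ∃ v, decI v = t
  surjZ : Function.Surjective decZ

/-- sign as an integer -/
def sgZ (b : Bool) : ℤ := if b then -1 else 1

/-- table entry -/
def tab (C : Codec n k w) (x : Ix n k L w → Bool) (a : Fin L → Bool) (ℓ : Fin L)
    (i : Fin (k + 1)) (r : Fin (n + 1)) (z : Z n) : ℤ :=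
  C.decI (word x a (Sum.inr (ℓ, i, r, z)))

/-- claimed killer row of column `c` in cell `a` -/
def krow (C : Codec n k w) (x : Ix n k L w → Bool) (a : Fin L → Bool) (c : Z n) : Z n :=
  C.decZ (word x a (Sum.inl c))

/-- final condition on the table for an address bit -/
def finalOK (n k : ℕ) (θ₁ θ₀ : ℝ) (abit : Bool) (S : ℤ) : Prop :=
  if abit then θ₁ * (2 ^ n) ^ (k + 2) ≤ (S : ℝ) ^ 2 else (S : ℝ) ^ 2 ≤ θ₀ * (2 ^ n) ^ (k + 2)

/-- the constraints on `(b, a)`, indexed by `Kx` -/
inductive Kx (n k L : ℕ) : Type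
  | noflag (r : Z n) : Kx n k L
  | killer (c : Z n) : Kx n k L
  | base (ℓ : Fin L) (z : Z n) : Kx n k L
  | fly (ℓ : Fin L) (i : Fin (k + 1)) (r : Fin n) (z : Z n) : Kx n k L
  | link (ℓ : Fin L) (i : Fin k) (z : Z n) : Kx n k L
  | final (ℓ : Fin L) : Kx n k L

/-- constraint `κ` holds for column `b` and address `a` on input `x` -/
def chk (C : Codec n k w) (θ₁ θ₀ : ℝ) (x : Ix n k L w → Bool) (b : Z n) (a : Fin L → Bool) :
    Kx n k L → Prop
  | .noflag r => flag x b r = false
  | .killer c => c ≠ b → flag x c (krow C x a c) = true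
  | .base ℓ z => tab C x a ℓ 0 0 z = sgZ (plane x b ℓ (0, z))
  | .fly ℓ i r z => tab C x a ℓ i r.succ z =
      tab C x a ℓ i r.castSucc (Function.update z r false) +
        sgZ (z r) * tab C x a ℓ i r.castSucc (Function.update z r true)
  | .link ℓ i z => tab C x a ℓ i.succ 0 z =
      sgZ (plane x b ℓ (i.succ, z)) * tab C x a ℓ i.castSucc (Fin.last n) z
  | .final ℓ => finalOK n k θ₁ θ₀ (a ℓ) (tab C x a ℓ (Fin.last k) (Fin.last n) fun _ => false)

/-- `(b, a)` is a certificate for `x` -/
def Valid (C : Codec n k w) (θ₁ θ₀ : ℝ) (x : Ix n k L w → Bool) (b : Z n)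
    (a : Fin L → Bool) : Prop := ∀ κ, chk C θ₁ θ₀ x b a κ

open Classical in
/-- the total function -/
noncomputable def FF (C : Codec n k w) (θ₁ θ₀ : ℝ) (x : Ix n k L w → Bool) : Bool :=
  decide (∃ b a, Valid C θ₁ θ₀ x b a)

end F

end Crest.Agent.QGap
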