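import Crest.Agent.QGap.Defs

/-!
# S0554, module L1: Hadamard matrix and mixed Gaussian moments
-/

set_option autoImplicit false

namespace Crest.Agent.QGap

open Matrix BigOperators MeasureTheory ProbabilityTheory

section L1
variable {k n : ℕ}

/-! ### The Hadamard matrix -/

theorem chi_symm (x y : Z n) : chi x y = chi y x := by
  unfold chi
  exact Finset.prod_congr rfl fun t _ => by rw [Bool.and_comm]

theorem chi_mul_self (x y : Z n) : chi x y * chi x y = 1 := by
  unfold chi
  rw [← Finset.prod_mul_distrib]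
  exact Finset.prod_eq_one fun t _ => by split_ifs <;> norm_num

theorem chi_orth (x x' : Z n) :
    ∑ y, chi x y * chi x' y = if x = x' then (2 : ℝ) ^ n else 0 := by
  have h1 : ∀ y : Z n, chi x y * chi x' y
      = ∏ t, ((if x t && y t then (-1 : ℝ) else 1) * (if x' t && y t then -1 else 1)) := by
    intro y
    unfold chi
    rw [← Finset.prod_mul_distrib]
  rw [Finset.sum_congr rfl fun y _ => h1 y]
  have h2 := Finset.prod_univ_sum (fun _ : Fin n => (Finset.univ : Finset Bool))
    (fun t b => ((if x t && b then (-1 : ℝ) else 1) * (if x' t && b then -1 else 1)))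
  rw [Fintype.piFinset_univ] at h2
  rw [← h2]
  split_ifs with h
  · subst h
    rw [Finset.prod_congr rfl (g := fun _ => (2 : ℝ))]
    · simp
    · intro t _
      rw [Fintype.sum_bool]
      cases x t <;> norm_num
  · obtain ⟨t, ht⟩ := Function.ne_iff.1 h
    refine Finset.prod_eq_zero (Finset.mem_univ t) ?_
    rw [Fintype.sum_bool]
    cases hx : x t <;> cases hx' : x' t <;> simp_all

theorem H_symm (x y : Z n) : H x y = H y x := by
  unfold H
  rw [chi_symm]

theorem H_sq (x y : Z n) : H x y ^ 2 = 1 / 2 ^ n := by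
  unfold H
  rw [div_pow, Real.sq_sqrt (by positivity), sq, chi_mul_self]

theorem H_orth (x x' : Z n) : ∑ y, H x y * H x' y = if x = x' then 1 else 0 := by
  have h1 : ∀ y : Z n, H x y * H x' y = (chi x y * chi x' y) / 2 ^ n := by
    intro y
    unfold H
    rw [div_mul_div_comm, Real.mul_self_sqrt (by positivity)]
  rw [Finset.sum_congr rfl fun y _ => h1 y, ← Finset.sum_div, chi_orth]
  split_ifs
  · exact div_self (by positivity)
  · exact zero_div _

/-! ### One-dimensional moments -/

theorem integrable_pow_gauss (e : ℕ) : Integrable (fun x : ℝ => x ^ e) (gaussianReal 0 1) := by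
  have h := integrable_pow_of_mem_interior_integrableExpSet (X := id) (μ := gaussianReal 0 1)
    (by rw [integrableExpSet_id_gaussianReal]; simp) e
  simpa using h

theorem integrable_pow_pdf (e : ℕ) :
    Integrable (fun x : ℝ => gaussianPDFReal 0 1 x * x ^ e) volume := by
  have h := integrable_pow_gauss e
  rw [gaussianReal_of_var_ne_zero _ one_ne_zero,
    integrable_withDensity_iff_integrable_smul' (measurable_gaussianPDF _ _)
      (ae_of_all _ fun _ => gaussianPDF_lt_top)] at h
  simpa [toReal_gaussianPDF] using h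

theorem hasDerivAt_pdf (x : ℝ) :
    HasDerivAt (gaussianPDFReal 0 1) (-x * gaussianPDFReal 0 1 x) x := by
  have h : gaussianPDFReal 0 1 = fun x : ℝ => (Real.sqrt (2 * Real.pi))⁻¹ *
      Real.exp (-x ^ 2 / 2) := by
    funext y
    simp [gaussianPDFReal]
  rw [h]
  have h1 : HasDerivAt (fun x : ℝ => -x ^ 2 / 2) (-x) x := by
    have := ((hasDerivAt_pow 2 x).neg).div_const 2
    refine this.congr_deriv ?_
    norm_num
    ring
  exact ((h1.exp).const_mul _).congr_deriv (by ring)

theorem moment_rec (e : ℕ) :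
    ∫ x : ℝ, x * x ^ e ∂(gaussianReal 0 1)
      = e * ∫ x : ℝ, x ^ (e - 1) ∂(gaussianReal 0 1) := by
  rw [integral_gaussianReal_eq_integral_smul one_ne_zero,
    integral_gaussianReal_eq_integral_smul one_ne_zero]
  have hd : ∀ x : ℝ, HasDerivAt (fun x : ℝ => gaussianPDFReal 0 1 x * x ^ e)
      (e * (gaussianPDFReal 0 1 x * x ^ (e - 1)) - gaussianPDFReal 0 1 x * x ^ (e + 1)) x := by
    intro x
    exact ((hasDerivAt_pdf x).mul (hasDerivAt_pow e x)).congr_deriv (by ring)
  have h0 := integral_eq_zero_of_hasDerivAt_of_integrable hd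
    (((integrable_pow_pdf (e - 1)).const_mul _).sub (integrable_pow_pdf (e + 1)))
    (integrable_pow_pdf e)
  rw [integral_sub ((integrable_pow_pdf (e - 1)).const_mul _) (integrable_pow_pdf (e + 1)),
    integral_const_mul] at h0
  have h1 : ∀ x : ℝ, gaussianPDFReal 0 1 x • (x * x ^ e) = gaussianPDFReal 0 1 x * x ^ (e + 1) := by
    intro x
    rw [smul_eq_mul]
    ring
  simp_rw [h1, smul_eq_mul]
  linarith

/-! ### Polynomials -/

instance gam_isProbabilityMeasure {J : Type} [Fintype J] : IsProbabilityMeasure (gam J) := by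
  unfold gam; infer_instance

open MvPolynomial in
theorem integrable_poly {J : Type} [Fintype J] (p : MvPolynomial J ℝ) :
    Integrable (fun α : J → ℝ => eval α p) (gam J) := by
  induction p using MvPolynomial.induction_on' with
  | monomial m a =>
    simp only [eval_monomial]
    refine Integrable.const_mul ?_ a
    have h := Integrable.fintype_prod (μ := fun _ : J => gaussianReal 0 1)
      (f := fun (i : J) (t : ℝ) => t ^ m i) (fun i => integrable_pow_gauss (m i))
    refine h.congr (ae_of_all _ fun α => ?_)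
    simp only [Finsupp.prod]
    symm
    refine Finset.prod_subset (Finset.subset_univ _) fun i _ hi => ?_
    rw [Finsupp.notMem_support_iff.1 hi, pow_zero]
  | add p q hp hq =>
    simp only [map_add]
    exact hp.add hq

open MvPolynomial in
theorem integral_monomial' {J : Type} [Fintype J] (m : J →₀ ℕ) (a : ℝ) :
    ∫ α : J → ℝ, eval α (monomial m a) ∂(gam J)
      = a * ∏ i, ∫ t : ℝ, t ^ m i ∂(gaussianReal 0 1) := by
  simp only [eval_monomial]
  rw [integral_const_mul]
  congr 1
  have h := integral_fintype_prod_eq_prod (𝕜 := ℝ) (μ := fun _ : J => gaussianReal 0 1)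
    (f := fun (i : J) (t : ℝ) => t ^ m i)
  rw [← h]
  refine integral_congr_ae (ae_of_all _ fun α => ?_)
  simp only [Finsupp.prod]
  refine Finset.prod_subset (Finset.subset_univ _) fun i _ hi => ?_
  rw [Finsupp.notMem_support_iff.1 hi, pow_zero]

open MvPolynomial in
/-- Gaussian integration by parts -/
theorem ibp {J : Type} [Fintype J] [DecidableEq J] (x : J) (p : MvPolynomial J ℝ) :
    ∫ α : J → ℝ, eval α (X x * p) ∂(gam J) = ∫ α : J → ℝ, eval α (pderiv x p) ∂(gam J) := by
  induction p using MvPolynomial.induction_on' with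
  | monomial m a =>
    rw [pderiv_monomial, X, monomial_mul, one_mul, integral_monomial', integral_monomial',
      ← Finset.mul_prod_erase _ _ (Finset.mem_univ x), ← Finset.mul_prod_erase _ _ (Finset.mem_univ x)]
    have h1 : ∏ i ∈ Finset.univ.erase x, ∫ t : ℝ, t ^ ((Finsupp.single x 1 + m : J →₀ ℕ) i) ∂(gaussianReal 0 1)
        = ∏ i ∈ Finset.univ.erase x, ∫ t : ℝ, t ^ ((m - Finsupp.single x 1 : J →₀ ℕ) i) ∂(gaussianReal 0 1) := by
      refine Finset.prod_congr rfl fun i hi => ?_
      have hne : x ≠ i := (Finset.ne_of_mem_erase hi).symm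
      have e1 : (Finsupp.single x 1 + m : J →₀ ℕ) i = m i := by
        simp [Finsupp.single_apply, hne]
      have e2 : (m - Finsupp.single x 1 : J →₀ ℕ) i = m i := by
        simp [Finsupp.single_apply, hne]
      rw [e1, e2]
    rw [h1]
    have h2 : ∫ t : ℝ, t ^ ((Finsupp.single x 1 + m : J →₀ ℕ) x) ∂(gaussianReal 0 1)
        = m x * ∫ t : ℝ, t ^ ((m - Finsupp.single x 1 : J →₀ ℕ) x) ∂(gaussianReal 0 1) := by
      have e1 : (Finsupp.single x 1 + m : J →₀ ℕ) x = m x + 1 := by
        simp [add_comm]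
      have e2 : (m - Finsupp.single x 1 : J →₀ ℕ) x = m x - 1 := by
        simp
      rw [e1, e2, ← moment_rec]
      exact integral_congr_ae (ae_of_all _ fun t => by ring)
    rw [h2]
    ring
  | add p q hp hq =>
    simp only [mul_add, map_add]
    rw [integral_add (integrable_poly _) (integrable_poly _),
      integral_add (integrable_poly _) (integrable_poly _), hp, hq]

/-! ### Mixed moments -/

open MvPolynomial in
/-- the linear form `β y` -/
noncomputable def lf (y : Z n) : MvPolynomial (Z n) ℝ := ∑ x, C (H x y) * X x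

open MvPolynomial in
noncomputable def mP (A B : Finset (Z n)) : MvPolynomial (Z n) ℝ := (∏ x ∈ A, X x) * ∏ y ∈ B, lf y

open MvPolynomial in
theorem mm_eq (A B : Finset (Z n)) : mm A B = ∫ α : Z n → ℝ, eval α (mP A B) ∂(gam (Z n)) := by
  unfold mm mP lf
  refine integral_congr_ae (ae_of_all _ fun α => ?_)
  simp [map_mul, map_prod, map_sum]

open MvPolynomial in
theorem pderiv_lf (x y : Z n) : pderiv x (lf y) = C (H x y) := by
  unfold lf
  rw [map_sum, Finset.sum_eq_single x]
  · rw [pderiv_C_mul, pderiv_X_self, mul_one]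
  · intro b _ hb
    rw [pderiv_C_mul, pderiv_X_of_ne hb, mul_zero]
  · intro h
    exact absurd (Finset.mem_univ x) h

open MvPolynomial in
theorem pderiv_prod_X (A : Finset (Z n)) (x : Z n) (hx : x ∉ A) :
    pderiv x (∏ z ∈ A, (X z : MvPolynomial (Z n) ℝ)) = 0 := by
  induction A using Finset.induction_on with
  | empty => simp
  | insert a s ha ih =>
    rw [Finset.prod_insert ha, pderiv_mul, ih (fun h => hx (Finset.mem_insert_of_mem h)),
      pderiv_X_of_ne (fun h : a = x => hx (by rw [← h]; exact Finset.mem_insert_self _ _))]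
    simp

open MvPolynomial in
theorem pderiv_prod_lf (B : Finset (Z n)) (x : Z n) :
    pderiv x (∏ y ∈ B, lf y) = ∑ y ∈ B, C (H x y) * ∏ z ∈ B.erase y, lf z := by
  induction B using Finset.induction_on with
  | empty => simp
  | insert a s ha ih =>
    rw [Finset.prod_insert ha, pderiv_mul, ih, pderiv_lf, Finset.sum_insert ha,
      Finset.erase_insert ha, Finset.mul_sum]
    congr 1
    refine Finset.sum_congr rfl fun y hy => ?_
    have hne : a ≠ y := fun h => ha (h ▸ hy)
    rw [Finset.erase_insert_of_ne hne, Finset.prod_insert (fun h => ha (Finset.mem_of_mem_erase h))]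
    ring

open MvPolynomial in
theorem ibp_mP (A B : Finset (Z n)) (x : Z n) (hx : x ∉ A) :
    ∫ α : Z n → ℝ, eval α (X x * mP A B) ∂(gam (Z n)) = ∑ y ∈ B, H x y * mm A (B.erase y) := by
  rw [ibp]
  have h : pderiv x (mP A B) = ∑ y ∈ B, C (H x y) * mP A (B.erase y) := by
    unfold mP
    rw [pderiv_mul, pderiv_prod_X A x hx, pderiv_prod_lf, zero_mul, zero_add, Finset.mul_sum]
    exact Finset.sum_congr rfl fun y _ => by ring
  rw [h]
  simp only [map_sum, map_mul, eval_C]
  rw [integral_finsetSum _ fun y _ => (integrable_poly _).const_mul _]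
  refine Finset.sum_congr rfl fun y _ => ?_
  rw [integral_const_mul, mm_eq]

theorem mm_empty : mm (∅ : Finset (Z n)) ∅ = 1 := by
  unfold mm
  simp

theorem mm_rec (A B : Finset (Z n)) (x : Z n) (hx : x ∈ A) :
    mm A B = ∑ y ∈ B, H x y * mm (A.erase x) (B.erase y) := by
  rw [← ibp_mP (A.erase x) B x (Finset.notMem_erase x A), mm_eq]
  have h : mP A B = MvPolynomial.X x * mP (A.erase x) B := by
    unfold mP
    rw [← Finset.mul_prod_erase A _ hx, mul_assoc]
  rw [h]

open MvPolynomial in
theorem mm_left_empty (B : Finset (Z n)) (hB : B.Nonempty) : mm ∅ B = 0 := by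
  obtain ⟨y, hy⟩ := hB
  have h : mP ∅ B = ∑ x, C (H x y) * (X x * mP ∅ (B.erase y)) := by
    unfold mP
    rw [← Finset.mul_prod_erase B _ hy]
    simp only [Finset.prod_empty, one_mul]
    conv_lhs => rw [lf, Finset.sum_mul]
    exact Finset.sum_congr rfl fun x _ => by ring
  rw [mm_eq, h]
  simp only [map_sum, map_mul (eval _) (C _), eval_C]
  rw [integral_finsetSum _ fun x _ => (integrable_poly _).const_mul _]
  simp_rw [integral_const_mul]
  have h2 : ∀ x : Z n, ∫ α : Z n → ℝ, eval α (X x * mP ∅ (B.erase y)) ∂(gam (Z n))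
      = ∑ y' ∈ B.erase y, H x y' * mm ∅ ((B.erase y).erase y') := fun x =>
    ibp_mP ∅ (B.erase y) x (Finset.notMem_empty x)
  simp_rw [h2, Finset.mul_sum]
  rw [Finset.sum_comm]
  refine Finset.sum_eq_zero fun y' hy' => ?_
  have hne : y ≠ y' := (Finset.ne_of_mem_erase hy').symm
  have h3 := H_orth y y'
  rw [if_neg hne] at h3
  calc ∑ x, H x y * (H x y' * mm ∅ ((B.erase y).erase y'))
      = (∑ x, H y x * H y' x) * mm ∅ ((B.erase y).erase y') := by
        rw [Finset.sum_mul]
        exact Finset.sum_congr rfl fun x _ => by rw [H_symm x y, H_symm x y']; ring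
    _ = 0 := by rw [h3, zero_mul]

/-! ### Fubini over the links -/

/-- slices of a set of bits of a plane -/
def slice (S : Finset (Pl k n)) (i : Fin (k + 1)) : Finset (Z n) :=
  Finset.univ.filter fun z => (i, z) ∈ S

theorem gam_curry (I J : Type) [Fintype I] [Fintype J] :
    gam (I × J) = (Measure.pi fun _ : I => gam J).map (MeasurableEquiv.curry I J ℝ).symm := by
  unfold gam
  refine Measure.pi_eq fun s hs => ?_
  rw [MeasurableEquiv.map_apply]
  have h : (MeasurableEquiv.curry I J ℝ).symm ⁻¹' (Set.univ.pi s)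
      = Set.univ.pi (fun i => Set.univ.pi fun j => s (i, j)) := by
    ext f
    simp only [Set.mem_preimage, Set.mem_pi, Set.mem_univ, true_implies, Prod.forall]
    rfl
  rw [h, Measure.pi_pi]
  simp_rw [Measure.pi_pi]
  rw [Fintype.prod_prod_type]

theorem mp_curry (I J : Type) [Fintype I] [Fintype J] :
    MeasurePreserving (MeasurableEquiv.curry I J ℝ).symm (Measure.pi fun _ : I => gam J)
      (gam (I × J)) :=
  ⟨(MeasurableEquiv.curry I J ℝ).symm.measurable, (gam_curry I J).symm⟩

theorem integral_links {I J : Type} [Fintype I] [Fintype J] (g : I → (J → ℝ) → ℝ) :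
    ∫ α : I × J → ℝ, ∏ i, g i (fun j => α (i, j)) ∂(gam (I × J))
      = ∏ i, ∫ a, g i a ∂(gam J) := by
  rw [← (mp_curry I J).integral_comp' (fun α : I × J → ℝ => ∏ i, g i (fun j => α (i, j)))]
  exact integral_fintype_prod_eq_prod (𝕜 := ℝ) (μ := fun _ : I => gam J) (f := g)

theorem integrable_links {I J : Type} [Fintype I] [Fintype J] (g : I → (J → ℝ) → ℝ)
    (hg : ∀ i, Integrable (g i) (gam J)) :
    Integrable (fun α : I × J → ℝ => ∏ i, g i (fun j => α (i, j))) (gam (I × J)) := by
  rw [← (mp_curry I J).integrable_comp_emb (MeasurableEquiv.measurableEmbedding _)]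
  exact Integrable.fintype_prod (μ := fun _ : I => gam J) (f := g) hg

theorem prod_slices (S : Finset (Pl k n)) (F : Pl k n → ℝ) :
    ∏ p ∈ S, F p = ∏ i, ∏ z ∈ slice S i, F (i, z) := by
  have h1 : ∏ p ∈ S, F p = ∏ p : Pl k n, if p ∈ S then F p else 1 := by
    rw [Finset.prod_ite_mem, Finset.univ_inter]
  rw [h1, Fintype.prod_prod_type]
  refine Finset.prod_congr rfl fun i _ => ?_
  unfold slice
  rw [Finset.prod_filter]

/-- the factor of one link -/
noncomputable def linkF (ε : ℝ) (S : Finset (Pl k n)) (i : Fin k) (a : Z n → ℝ) : ℝ :=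
  ε ^ ((slice S i.castSucc).card + (slice S i.succ).card) *
    ((∏ x ∈ slice S i.castSucc, a x) * ∏ y ∈ slice S i.succ, ∑ x, H x y * a x)

theorem prod_bvec (ε lam : ℝ) (S : Finset (Pl k n)) (α : Fin k × Z n → ℝ) :
    ∏ p ∈ S, bvec ε lam α p
      = lam ^ (slice S 0).card * ∏ i : Fin k, linkF ε S i (fun j => α (i, j)) := by
  unfold bvec
  rw [Finset.prod_mul_distrib, Finset.prod_mul_distrib, prod_slices S (fun p => if (p.1 : ℕ) = 0
    then lam else 1), prod_slices S (fun p => if h : 0 < (p.1 : ℕ) then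
      ε * beta α ⟨(p.1 : ℕ) - 1, by have := p.1.isLt; omega⟩ p.2 else 1),
    prod_slices S (fun p => if h : (p.1 : ℕ) < k then ε * α (⟨(p.1 : ℕ), h⟩, p.2) else 1)]
  congr 1
  · rw [Fin.prod_univ_succ]
    simp
  · rw [Fin.prod_univ_succ, Fin.prod_univ_castSucc (fun i : Fin (k + 1) => ∏ z ∈ slice S i,
      if h : ((i, z).1 : ℕ) < k then ε * α (⟨((i, z).1 : ℕ), h⟩, (i, z).2) else 1)]
    have e0 : ∏ z ∈ slice S 0, (if h : 0 < (((0 : Fin (k + 1)), z).1 : ℕ) then
        ε * beta α ⟨(((0 : Fin (k + 1)), z).1 : ℕ) - 1, by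
          have := ((0 : Fin (k + 1)), z).1.isLt; omega⟩ z else 1) = 1 :=
      Finset.prod_eq_one fun z _ => by simp
    have e1 : ∏ z ∈ slice S (Fin.last k), (if h : ((Fin.last k, z).1 : ℕ) < k then
        ε * α (⟨((Fin.last k, z).1 : ℕ), h⟩, (Fin.last k, z).2) else 1) = 1 :=
      Finset.prod_eq_one fun z _ => by simp
    rw [e0, e1, one_mul, mul_one, ← Finset.prod_mul_distrib]
    refine Finset.prod_congr rfl fun i _ => ?_
    unfold linkF
    have e2 : ∏ z ∈ slice S i.succ, (if h : 0 < ((i.succ, z).1 : ℕ) then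
        ε * beta α ⟨((i.succ, z).1 : ℕ) - 1, by have := (i.succ, z).1.isLt; omega⟩ z else 1)
        = ε ^ (slice S i.succ).card * ∏ y ∈ slice S i.succ, ∑ x, H x y * α (i, x) := by
      rw [← Finset.prod_const, ← Finset.prod_mul_distrib]
      refine Finset.prod_congr rfl fun z _ => ?_
      rw [dif_pos (by simp)]
      rfl
    have e3 : ∏ z ∈ slice S i.castSucc, (if h : ((i.castSucc, z).1 : ℕ) < k then
        ε * α (⟨((i.castSucc, z).1 : ℕ), h⟩, (i.castSucc, z).2) else 1)
        = ε ^ (slice S i.castSucc).card * ∏ x ∈ slice S i.castSucc, α (i, x) := by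
      rw [← Finset.prod_const, ← Finset.prod_mul_distrib]
      refine Finset.prod_congr rfl fun z _ => ?_
      rw [dif_pos (by simp)]
      rfl
    rw [e2, e3, pow_add]
    ring

theorem integrable_mm (A B : Finset (Z n)) :
    Integrable (fun a : Z n → ℝ => (∏ x ∈ A, a x) * ∏ y ∈ B, ∑ x, H x y * a x) (gam (Z n)) := by
  refine (integrable_poly (mP A B)).congr (ae_of_all _ fun α => ?_)
  simp [mP, lf, map_mul, map_prod, map_sum]

theorem integrable_monomial (ε lam : ℝ) (S : Finset (Pl k n)) :
    Integrable (fun α : Fin k × Z n → ℝ => ∏ p ∈ S, bvec ε lam α p) (gam (Fin k × Z n)) := by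
  simp_rw [prod_bvec]
  exact (integrable_links (fun i => linkF ε S i) fun i =>
    (integrable_mm _ _).const_mul _).const_mul _

theorem integral_monomial (ε lam : ℝ) (S : Finset (Pl k n)) :
    ∫ α : Fin k × Z n → ℝ, ∏ p ∈ S, bvec ε lam α p ∂(gam (Fin k × Z n)) =
      lam ^ (slice S 0).card *
      ∏ i : Fin k, ε ^ ((slice S i.castSucc).card + (slice S i.succ).card) *
        mm (slice S i.castSucc) (slice S i.succ) := by
  simp_rw [prod_bvec]
  rw [integral_const_mul, integral_links (fun i => linkF ε S i)]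
  congr 1
  refine Finset.prod_congr rfl fun i _ => ?_
  unfold linkF
  rw [integral_const_mul]
  rfl

end L1

end Crest.Agent.QGap
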