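import Mathlib
import Crest.Agent.QGap.Defs
import Crest.Agent.QGap.Gauss

/-!
# S0554, module L2 = Tail.lean : integrability and tails of the growth factor
-/

set_option autoImplicit false

namespace Crest.Agent.QGap

open Matrix BigOperators Crest.MathPhysics.Query MeasureTheory ProbabilityTheory

namespace TailAux

/-! ### one dimension -/

theorem int_exp_quarter :
    Integrable (fun x : ℝ => Real.exp (x ^ 2 / 4)) (gaussianReal 0 1) ∧
      ∫ x, Real.exp (x ^ 2 / 4) ∂(gaussianReal 0 1) ≤ 3 / 2 := by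
  have hpdf : ∀ x : ℝ, gaussianPDFReal 0 1 x * Real.exp (x ^ 2 / 4) =
      (Real.sqrt (2 * Real.pi))⁻¹ * Real.exp (-(1 / 4) * x ^ 2) := by
    intro x
    simp only [gaussianPDFReal, NNReal.coe_one, mul_one, sub_zero]
    rw [mul_assoc, ← Real.exp_add]
    congr 2; ring
  constructor
  · rw [gaussianReal_of_var_ne_zero 0 one_ne_zero,
      integrable_withDensity_iff_integrable_smul' (measurable_gaussianPDF 0 1)
        (Filter.Eventually.of_forall fun x => gaussianPDF_lt_top)]
    simp only [toReal_gaussianPDF, smul_eq_mul, hpdf]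
    exact (integrable_exp_neg_mul_sq (by norm_num)).const_mul _
  · rw [integral_gaussianReal_eq_integral_smul one_ne_zero]
    simp only [smul_eq_mul, hpdf]
    rw [integral_const_mul, integral_gaussian]
    have h1 : Real.sqrt (Real.pi / (1 / 4)) = Real.sqrt 2 * Real.sqrt (2 * Real.pi) := by
      rw [← Real.sqrt_mul (by norm_num)]
      congr 1; ring
    rw [h1]
    have h2 : 0 < Real.sqrt (2 * Real.pi) := Real.sqrt_pos.mpr (by positivity)
    have h3 : Real.sqrt 2 ≤ 3 / 2 := by
      rw [Real.sqrt_le_left (by norm_num)]; norm_num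
    calc (Real.sqrt (2 * Real.pi))⁻¹ * (Real.sqrt 2 * Real.sqrt (2 * Real.pi)) = Real.sqrt 2 := by
          field_simp
      _ ≤ 3 / 2 := h3

/-- growth of one coordinate -/
noncomputable def u (ε x : ℝ) : ℝ := max 1 |ε * x| ^ 2

/-- growth of one coordinate on the tail -/
noncomputable def v (ε x : ℝ) : ℝ := if 1 / 2 < |ε * x| then u ε x else 0

theorem u_nonneg (ε x : ℝ) : 0 ≤ u ε x := by unfold u; positivity
theorem one_le_u (ε x : ℝ) : 1 ≤ u ε x := by
  unfold u
  have : (1 : ℝ) ≤ max 1 |ε * x| := le_max_left _ _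
  nlinarith

theorem v_nonneg (ε x : ℝ) : 0 ≤ v ε x := by
  unfold v; split_ifs
  · exact u_nonneg _ _
  · exact le_refl _

theorem v_le_u (ε x : ℝ) : v ε x ≤ u ε x := by
  unfold v; split_ifs
  · exact le_refl _
  · exact u_nonneg _ _

theorem u_le (ε x : ℝ) : u ε x ≤ 1 + ε ^ 2 * x ^ 2 := by
  unfold u
  rcases le_total 1 |ε * x| with h | h
  · rw [max_eq_right h, sq_abs, mul_pow]; linarith
  · rw [max_eq_left h]
    have : 0 ≤ ε ^ 2 * x ^ 2 := by positivity
    linarith

theorem u_le_one_add_v (ε x : ℝ) : u ε x ≤ 1 + v ε x := by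
  unfold v
  split_ifs with h
  · linarith
  · unfold u
    rw [max_eq_left (by linarith [not_lt.mp h])]
    norm_num

theorem measurable_u (ε : ℝ) : Measurable (u ε) := by
  unfold u; fun_prop

theorem measurable_v (ε : ℝ) : Measurable (v ε) := by
  unfold v
  refine Measurable.ite ?_ (measurable_u ε) measurable_const
  exact measurableSet_lt measurable_const (by fun_prop)

theorem integrable_u (ε : ℝ) : Integrable (u ε) (gaussianReal 0 1) := by
  have h2 : Integrable (fun x : ℝ => x ^ 2) (gaussianReal 0 1) :=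
    (memLp_id_gaussianReal (μ := 0) (v := 1) 2).integrable_sq
  have h3 : Integrable (fun x : ℝ => 1 + ε ^ 2 * x ^ 2) (gaussianReal 0 1) :=
    (integrable_const _).add (h2.const_mul _)
  refine h3.mono' (measurable_u ε).aestronglyMeasurable ?_
  refine Filter.Eventually.of_forall fun x => ?_
  rw [Real.norm_of_nonneg (u_nonneg _ _)]
  exact u_le ε x

theorem integrable_v (ε : ℝ) : Integrable (v ε) (gaussianReal 0 1) := by
  refine (integrable_u ε).mono' (measurable_v ε).aestronglyMeasurable ?_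
  refine Filter.Eventually.of_forall fun x => ?_
  rw [Real.norm_of_nonneg (v_nonneg _ _)]
  exact v_le_u ε x

/-- the one dimensional tail -/
theorem int_v_le {ε : ℝ} (hε : 0 < ε) (hε1 : ε ≤ 1) :
    ∫ x, v ε x ∂(gaussianReal 0 1) ≤ 12 * Real.exp (-(1 / (32 * ε ^ 2))) := by
  obtain ⟨hi, hb⟩ := int_exp_quarter
  have hpt : ∀ x : ℝ, v ε x ≤ 8 * Real.exp (-(1 / (32 * ε ^ 2))) * Real.exp (x ^ 2 / 4) := by
    intro x
    unfold v
    split_ifs with h
    · have h1 : u ε x ≤ 1 + x ^ 2 := by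
        refine (u_le ε x).trans ?_
        have : ε ^ 2 * x ^ 2 ≤ 1 * x ^ 2 :=
          mul_le_mul_of_nonneg_right (by nlinarith) (sq_nonneg x)
        linarith
      have h2 : 1 + x ^ 2 ≤ 8 * Real.exp (x ^ 2 / 8) := by
        have := Real.add_one_le_exp (x ^ 2 / 8)
        nlinarith [sq_nonneg x]
      have h3 : 1 ≤ Real.exp (x ^ 2 / 8 - 1 / (32 * ε ^ 2)) := by
        apply Real.one_le_exp
        have h4 : (1 / 2) ^ 2 < |ε * x| ^ 2 := pow_lt_pow_left₀ h (by norm_num) (by norm_num)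
        rw [sq_abs, mul_pow] at h4
        have h5 : 1 / (32 * ε ^ 2) ≤ x ^ 2 / 8 := by
          rw [div_le_div_iff₀ (by positivity) (by norm_num)]
          nlinarith
        linarith
      calc u ε x ≤ 8 * Real.exp (x ^ 2 / 8) * 1 := by linarith
        _ ≤ 8 * Real.exp (x ^ 2 / 8) * Real.exp (x ^ 2 / 8 - 1 / (32 * ε ^ 2)) :=
            mul_le_mul_of_nonneg_left h3 (by positivity)
        _ = 8 * Real.exp (-(1 / (32 * ε ^ 2))) * Real.exp (x ^ 2 / 4) := by
            rw [mul_assoc, mul_assoc, ← Real.exp_add, ← Real.exp_add]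
            congr 2; ring
    · positivity
  calc ∫ x, v ε x ∂(gaussianReal 0 1)
      ≤ ∫ x, 8 * Real.exp (-(1 / (32 * ε ^ 2))) * Real.exp (x ^ 2 / 4) ∂(gaussianReal 0 1) :=
        integral_mono (integrable_v ε) (hi.const_mul _) hpt
    _ = 8 * Real.exp (-(1 / (32 * ε ^ 2))) * ∫ x, Real.exp (x ^ 2 / 4) ∂(gaussianReal 0 1) :=
        integral_const_mul _ _
    _ ≤ 8 * Real.exp (-(1 / (32 * ε ^ 2))) * (3 / 2) :=
        mul_le_mul_of_nonneg_left hb (by positivity)
    _ = 12 * Real.exp (-(1 / (32 * ε ^ 2))) := by ring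

/-! ### invariance -/

theorem gam_invariant {J : Type} [Fintype J] (T : (J → ℝ) →ₗ[ℝ] (J → ℝ))
    (hT : ∀ α, T (T α) = α) (hn : ∀ α, ∑ j, (T α j) ^ 2 = ∑ j, (α j) ^ 2) :
    MeasurePreserving (fun α => T α) (gam J) (gam J) := by
  have hTm : Measurable fun α => T α := (LinearMap.continuous_of_finiteDimensional T).measurable
  refine ⟨hTm, ?_⟩
  let e : (J → ℝ) ≃ₗ[ℝ] (J → ℝ) :=
    LinearEquiv.ofInvolutive T hT
  let f : EuclideanSpace ℝ J ≃ₗᵢ[ℝ] EuclideanSpace ℝ J :=
    { toLinearEquiv := (WithLp.linearEquiv 2 ℝ (J → ℝ)).trans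
        (e.trans (WithLp.linearEquiv 2 ℝ (J → ℝ)).symm)
      norm_map' := by
        intro x
        rw [EuclideanSpace.norm_eq, EuclideanSpace.norm_eq]
        congr 1
        simp only [Real.norm_eq_abs, sq_abs]
        exact hn _ }
  have hpi : (gam J).map (WithLp.toLp 2) = stdGaussian (EuclideanSpace ℝ J) :=
    map_pi_eq_stdGaussian
  have hcomp : (fun α : J → ℝ => (WithLp.toLp 2 (T α) : EuclideanSpace ℝ J)) =
      (fun α => f (WithLp.toLp 2 α)) := rfl
  have h1 : ((gam J).map fun α => T α).map (WithLp.toLp 2) = (gam J).map (WithLp.toLp 2) := by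
    rw [Measure.map_map (by fun_prop) hTm]
    have h2 : (WithLp.toLp 2 ∘ fun α => T α : (J → ℝ) → EuclideanSpace ℝ J) =
        f ∘ (WithLp.toLp 2) := rfl
    rw [h2, ← Measure.map_map (by fun_prop) (by fun_prop), hpi, stdGaussian_map]
  have hinv : ∀ m : Measure (J → ℝ),
      Measure.map (WithLp.ofLp (p := 2)) (Measure.map (WithLp.toLp 2) m) = m := by
    intro m
    rw [Measure.map_map (by fun_prop) (by fun_prop)]
    exact Measure.map_id
  have h3 := congrArg (Measure.map (WithLp.ofLp (p := 2))) h1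
  rw [hinv, hinv] at h3
  exact h3

/-! ### the transform -/

variable {k n : ℕ}

/-- the blockwise transform as a linear map -/
noncomputable def TT (k n : ℕ) : (Fin k × Z n → ℝ) →ₗ[ℝ] (Fin k × Z n → ℝ) where
  toFun α := fun p => beta α p.1 p.2
  map_add' := by
    intro a b; funext p; simp [beta, mul_add, Finset.sum_add_distrib]
  map_smul' := by
    intro c a; funext p
    simp only [beta, Pi.smul_apply, smul_eq_mul, Finset.mul_sum, RingHom.id_apply]
    exact Finset.sum_congr rfl fun x _ => by ring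

theorem TT_apply (α : Fin k × Z n → ℝ) (p : Fin k × Z n) : TT k n α p = beta α p.1 p.2 := rfl

theorem TT_TT (α : Fin k × Z n → ℝ) : TT k n (TT k n α) = α := by
  funext p
  obtain ⟨i, y⟩ := p
  simp only [TT_apply, beta, Finset.mul_sum]
  rw [Finset.sum_comm]
  have h : ∀ x' : Z n, ∑ x, H x y * (H x' x * α (i, x')) = (if y = x' then 1 else 0) * α (i, x') := by
    intro x'
    rw [← H_orth y x', Finset.sum_mul]
    refine Finset.sum_congr rfl fun x _ => ?_
    rw [H_symm x y]; ring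
  simp only [h, ite_mul, one_mul, zero_mul, Finset.sum_ite_eq, Finset.mem_univ, if_true]

theorem TT_norm (α : Fin k × Z n → ℝ) : ∑ j, (TT k n α j) ^ 2 = ∑ j, (α j) ^ 2 := by
  rw [Fintype.sum_prod_type, Fintype.sum_prod_type]
  refine Finset.sum_congr rfl fun i _ => ?_
  simp only [TT_apply, beta]
  have h1 : ∀ y : Z n, (∑ x, H x y * α (i, x)) ^ 2 =
      ∑ x, ∑ x', α (i, x) * α (i, x') * (H x y * H x' y) := by
    intro y
    rw [sq, Finset.sum_mul_sum]
    refine Finset.sum_congr rfl fun x _ => Finset.sum_congr rfl fun x' _ => by ring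
  simp only [h1]
  rw [Finset.sum_comm]
  refine Finset.sum_congr rfl fun x _ => ?_
  rw [Finset.sum_comm]
  simp only [← Finset.mul_sum, H_orth, mul_ite, mul_one, mul_zero, Finset.sum_ite_eq,
    Finset.mem_univ, if_true]
  ring

theorem mp_TT : MeasurePreserving (fun α => TT k n α) (gam (Fin k × Z n)) (gam (Fin k × Z n)) :=
  gam_invariant (TT k n) TT_TT TT_norm

/-- square of the growth factor of the hidden variables -/
noncomputable def G2 (ε : ℝ) (α : Fin k × Z n → ℝ) : ℝ := ∏ j, u ε (α j)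

/-- the same on the tail event of coordinate `j` -/
noncomputable def F2 (ε : ℝ) (j : Fin k × Z n) (α : Fin k × Z n → ℝ) : ℝ :=
  ∏ j', (if j' = j then v ε (α j') else u ε (α j'))

theorem G2_nonneg (ε : ℝ) (α : Fin k × Z n → ℝ) : 0 ≤ G2 ε α :=
  Finset.prod_nonneg fun _ _ => u_nonneg _ _

theorem F2_nonneg (ε : ℝ) (j : Fin k × Z n) (α : Fin k × Z n → ℝ) : 0 ≤ F2 ε j α := by
  refine Finset.prod_nonneg fun _ _ => ?_
  split_ifs
  · exact v_nonneg _ _
  · exact u_nonneg _ _

theorem F2_eq {ε : ℝ} {j : Fin k × Z n} {α : Fin k × Z n → ℝ} (h : 1 / 2 < |ε * α j|) :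
    F2 ε j α = G2 ε α := by
  refine Finset.prod_congr rfl fun j' _ => ?_
  split_ifs with hj
  · subst hj; simp only [v, if_pos h]
  · rfl

theorem grow_le (ε Λ : ℝ) (hΛ : 0 < Λ) (α : Fin k × Z n → ℝ) :
    grow ε α ≤ Λ / 2 * G2 ε α + 1 / (2 * Λ) * G2 ε (TT k n α) := by
  set a := ∏ j : Fin k × Z n, max 1 |ε * α j| with ha
  set b := ∏ j : Fin k × Z n, max 1 |ε * TT k n α j| with hb
  have h1 : grow ε α = a * b := by
    rw [ha, hb, ← Finset.prod_mul_distrib, Fintype.prod_prod_type]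
    rfl
  have h2 : G2 ε α = a ^ 2 := by
    rw [ha, ← Finset.prod_pow]; rfl
  have h3 : G2 ε (TT k n α) = b ^ 2 := by
    rw [hb, ← Finset.prod_pow]; rfl
  rw [h1, h2, h3]
  have h4 : Λ / 2 * a ^ 2 + 1 / (2 * Λ) * b ^ 2 - a * b = (Λ * a - b) ^ 2 / (2 * Λ) := by
    field_simp; ring
  have h5 : 0 ≤ (Λ * a - b) ^ 2 / (2 * Λ) := by positivity
  linarith

theorem grow_nonneg (ε : ℝ) (α : Fin k × Z n → ℝ) : 0 ≤ grow ε α := by
  unfold grow
  refine Finset.prod_nonneg fun i _ => Finset.prod_nonneg fun x _ => ?_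
  positivity

theorem integrable_G2 (ε : ℝ) : Integrable (G2 ε : (Fin k × Z n → ℝ) → ℝ) (gam _) :=
  Integrable.fintype_prod (f := fun _ x => u ε x) fun _ => integrable_u ε

theorem integrable_F2 (ε : ℝ) (j : Fin k × Z n) : Integrable (F2 ε j) (gam _) := by
  have := Integrable.fintype_prod (𝕜 := ℝ) (μ := fun _ : Fin k × Z n => gaussianReal 0 1)
    (f := fun j' x => if j' = j then v ε x else u ε x) (fun j' => by
      by_cases h : j' = j
      · simp only [h, if_true]; exact integrable_v ε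
      · simp only [h, if_false]; exact integrable_u ε)
  exact this

theorem int_G2 (ε : ℝ) : ∫ α : Fin k × Z n → ℝ, G2 ε α ∂(gam _) =
    (∫ x, u ε x ∂(gaussianReal 0 1)) ^ (Fintype.card (Fin k × Z n)) :=
  integral_fintype_prod_eq_pow (μ := gaussianReal 0 1) (u ε)

theorem one_le_int_u (ε : ℝ) : 1 ≤ ∫ x, u ε x ∂(gaussianReal 0 1) := by
  have : ∫ _x : ℝ, (1 : ℝ) ∂(gaussianReal 0 1) = 1 := by simp
  rw [← this]
  exact integral_mono (integrable_const _) (integrable_u ε) (one_le_u ε)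

theorem int_u_le (ε : ℝ) : ∫ x, u ε x ∂(gaussianReal 0 1) ≤
    1 + ∫ x, v ε x ∂(gaussianReal 0 1) := by
  have h1 : ∫ x, (1 + v ε x) ∂(gaussianReal 0 1) = 1 + ∫ x, v ε x ∂(gaussianReal 0 1) := by
    rw [integral_add (integrable_const _) (integrable_v ε)]; simp
  rw [← h1]
  exact integral_mono (integrable_u ε) ((integrable_const _).add (integrable_v ε))
    (u_le_one_add_v ε)

theorem int_v_nonneg (ε : ℝ) : 0 ≤ ∫ x, v ε x ∂(gaussianReal 0 1) :=
  integral_nonneg (v_nonneg ε)

theorem int_F2_le (ε : ℝ) (j : Fin k × Z n) : ∫ α : Fin k × Z n → ℝ, F2 ε j α ∂(gam _) ≤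
    (∫ x, v ε x ∂(gaussianReal 0 1)) *
      (∫ x, u ε x ∂(gaussianReal 0 1)) ^ (Fintype.card (Fin k × Z n)) := by
  have h1 : ∫ α : Fin k × Z n → ℝ, F2 ε j α ∂(gam _) =
      ∏ j', ∫ x, (if j' = j then v ε x else u ε x) ∂(gaussianReal 0 1) :=
    integral_fintype_prod_eq_prod (μ := fun _ => gaussianReal 0 1)
      (fun (j' : Fin k × Z n) (x : ℝ) => if j' = j then v ε x else u ε x)
  rw [h1, ← Finset.mul_prod_erase Finset.univ _ (Finset.mem_univ j)]
  simp only [if_true]
  have h2 : ∏ j' ∈ Finset.univ.erase j,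
      ∫ x, (if j' = j then v ε x else u ε x) ∂(gaussianReal 0 1) =
      ∏ j' ∈ Finset.univ.erase j, ∫ x, u ε x ∂(gaussianReal 0 1) := by
    refine Finset.prod_congr rfl fun j' hj' => ?_
    simp only [Finset.ne_of_mem_erase hj', if_false]
  rw [h2, Finset.prod_const]
  refine mul_le_mul_of_nonneg_left ?_ (int_v_nonneg ε)
  refine pow_le_pow_right₀ (one_le_int_u ε) ?_
  exact Finset.card_le_univ _

end TailAux

open TailAux

theorem grow_integrable {k n : ℕ} (ε : ℝ) :
    Integrable (grow ε : (Fin k × Z n → ℝ) → ℝ) (gam (Fin k × Z n)) := by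
  have h1 := integrable_G2 (k := k) (n := n) ε
  have h2 : Integrable (fun α => G2 ε (TT k n α)) (gam (Fin k × Z n)) :=
    (mp_TT (k := k) (n := n)).integrable_comp_of_integrable h1
  refine ((h1.const_mul (1 / 2)).add (h2.const_mul (1 / (2 * 1)))).mono' ?_ ?_
  · have hT : Continuous fun α : Fin k × Z n → ℝ => TT k n α :=
      LinearMap.continuous_of_finiteDimensional _
    have hg : Continuous (grow ε : (Fin k × Z n → ℝ) → ℝ) := by
      unfold grow
      refine continuous_finsetProd _ fun i _ => continuous_finsetProd _ fun x _ => ?_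
      refine Continuous.mul (by fun_prop) ?_
      have : Continuous fun α : Fin k × Z n → ℝ => beta α i x :=
        (continuous_apply (i, x)).comp hT
      fun_prop
    exact hg.aestronglyMeasurable
  · refine Filter.Eventually.of_forall fun α => ?_
    rw [Real.norm_of_nonneg (grow_nonneg _ _)]
    exact grow_le ε 1 one_pos α

open Classical in
theorem tail (k s : ℕ) : ∃ C₀ : ℝ, 1 ≤ C₀ ∧ ∀ n : ℕ, 1 ≤ n → ∀ ε : ℝ, 0 < ε →
    ε ^ 2 * (C₀ * n) ≤ 1 →
    ∫ α : Fin k × Z n → ℝ, (if good ε α then 0 else grow ε α) ∂(gam (Fin k × Z n)) ≤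
      1 / ((2 : ℝ) ^ n) ^ s := by
  refine ⟨32 * (12 + (2 * k + 1) ^ 2 + 2 * k + 2 * (s + 1)), by
    have : (0 : ℝ) ≤ k := Nat.cast_nonneg _
    have : (0 : ℝ) ≤ s := Nat.cast_nonneg _
    nlinarith [sq_nonneg (2 * (k : ℝ) + 1)], ?_⟩
  intro n hn ε hε hsmall
  set c : ℝ := 12 + (2 * k + 1) ^ 2 + 2 * k + 2 * (s + 1) with hc
  have hk0 : (0 : ℝ) ≤ k := Nat.cast_nonneg _
  have hs0 : (0 : ℝ) ≤ s := Nat.cast_nonneg _
  have hn1 : (1 : ℝ) ≤ n := by exact_mod_cast hn
  have hc12 : 12 ≤ c := by rw [hc]; nlinarith [sq_nonneg (2 * (k : ℝ) + 1)]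
  have hε1 : ε ≤ 1 := by
    by_contra h
    push Not at h
    have h1 : 1 < ε ^ 2 := by nlinarith
    have h2 : 1 ≤ 32 * c * n := by nlinarith
    nlinarith
  set N : ℝ := (2 : ℝ) ^ n with hN
  have hN1 : 1 ≤ N := one_le_pow₀ (by norm_num)
  have hNpos : 0 < N := by linarith
  set Λ : ℝ := (2 * k + 1) * Real.exp k * N ^ (s + 1) with hΛ
  have hΛpos : 0 < Λ := by positivity
  set t : ℝ := ∫ x, v ε x ∂(gaussianReal 0 1) with ht
  set a : ℝ := ∫ x, u ε x ∂(gaussianReal 0 1) with ha
  have ht0 : 0 ≤ t := int_v_nonneg ε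
  have ha1 : 1 ≤ a := one_le_int_u ε
  have hat : a ≤ 1 + t := int_u_le ε
  -- the bound `Λ ^ 2 * t ≤ 1`
  have htΛ : Λ ^ 2 * t ≤ 1 := by
    have h1 : t ≤ 12 * Real.exp (-(c * n)) := by
      refine (int_v_le hε hε1).trans ?_
      have h2 : c * n ≤ 1 / (32 * ε ^ 2) := by
        rw [le_div_iff₀ (by positivity)]
        nlinarith
      have h3 : Real.exp (-(1 / (32 * ε ^ 2))) ≤ Real.exp (-(c * n)) :=
        Real.exp_le_exp.mpr (by linarith)
      linarith
    have h12 : (12 : ℝ) ≤ Real.exp 12 := by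
      have := Real.add_one_le_exp (12 : ℝ); linarith
    have hk2 : (2 * (k : ℝ) + 1) ^ 2 ≤ Real.exp ((2 * k + 1) ^ 2) := by
      have := Real.add_one_le_exp ((2 * (k : ℝ) + 1) ^ 2); linarith
    have hN2 : N ^ (2 * (s + 1)) ≤ Real.exp (2 * (s + 1) * n) := by
      have h2e : (2 : ℝ) ≤ Real.exp 1 := by
        have := Real.add_one_le_exp (1 : ℝ); linarith
      calc N ^ (2 * (s + 1)) ≤ (Real.exp 1 ^ n) ^ (2 * (s + 1)) := by
            refine pow_le_pow_left₀ hNpos.le ?_ _
            exact pow_le_pow_left₀ (by norm_num) h2e n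
        _ = Real.exp (2 * (s + 1) * n) := by
            rw [← pow_mul, ← Real.exp_nat_mul]
            congr 1
            push_cast; ring
    have hΛ2 : Λ ^ 2 = (2 * k + 1) ^ 2 * Real.exp (2 * k) * N ^ (2 * (s + 1)) := by
      rw [hΛ, mul_pow, mul_pow, ← pow_mul, mul_comm (s + 1) 2, ← Real.exp_nat_mul]
      push_cast; ring_nf
    have h4 : 12 * Λ ^ 2 ≤ Real.exp (c * n) := by
      have h5 : (12 : ℝ) * ((2 * k + 1) ^ 2 * Real.exp (2 * k) * N ^ (2 * (s + 1))) ≤
          Real.exp 12 * (Real.exp ((2 * k + 1) ^ 2) * Real.exp (2 * k) *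
            Real.exp (2 * (s + 1) * n)) := by gcongr
      rw [← Real.exp_add, ← Real.exp_add, ← Real.exp_add] at h5
      rw [hΛ2]
      refine h5.trans (Real.exp_le_exp.mpr ?_)
      have h6 : 12 + (2 * (k : ℝ) + 1) ^ 2 + 2 * k ≤ (12 + (2 * (k : ℝ) + 1) ^ 2 + 2 * k) * n := by
        have : 0 ≤ 12 + (2 * (k : ℝ) + 1) ^ 2 + 2 * k := by positivity
        nlinarith
      rw [hc]; nlinarith
    calc Λ ^ 2 * t ≤ Λ ^ 2 * (12 * Real.exp (-(c * n))) :=
          mul_le_mul_of_nonneg_left h1 (by positivity)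
      _ = 12 * Λ ^ 2 * Real.exp (-(c * n)) := by ring
      _ ≤ Real.exp (c * n) * Real.exp (-(c * n)) :=
          mul_le_mul_of_nonneg_right h4 (Real.exp_pos _).le
      _ = 1 := by rw [← Real.exp_add]; simp
  set M : ℕ := Fintype.card (Fin k × Z n) with hM
  have hMcard : (M : ℝ) = k * N := by
    rw [hM]; simp [hN]
  have haM : a ^ M ≤ Real.exp k := by
    have h1 : a ≤ Real.exp t := by
      have := Real.add_one_le_exp t; linarith
    have h2 : a ^ M ≤ Real.exp t ^ M := pow_le_pow_left₀ (by linarith) h1 M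
    rw [← Real.exp_nat_mul] at h2
    refine h2.trans (Real.exp_le_exp.mpr ?_)
    rw [hMcard]
    have h3 : N ≤ Λ ^ 2 := by
      have h4 : (1 : ℝ) ≤ (2 * k + 1) * Real.exp k := by
        have := Real.one_le_exp hk0
        nlinarith
      have h5 : N ≤ N ^ (s + 1) := by
        have := pow_le_pow_right₀ hN1 (show 1 ≤ s + 1 by omega)
        simpa using this
      have h6 : N ≤ Λ := by
        rw [hΛ]
        nlinarith
      nlinarith
    have h7 : N * t ≤ 1 := by
      have := mul_le_mul_of_nonneg_right h3 ht0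
      linarith
    nlinarith
  -- the pointwise bound
  have hpt : ∀ α : Fin k × Z n → ℝ, (if good ε α then 0 else grow ε α) ≤
      (∑ j, (Λ / 2 * F2 ε j α + 1 / (2 * Λ) * G2 ε (TT k n α))) +
      ∑ j, (Λ / 2 * F2 ε j (TT k n α) + 1 / (2 * Λ) * G2 ε α) := by
    intro α
    have hn1 : ∀ j, 0 ≤ Λ / 2 * F2 ε j α + 1 / (2 * Λ) * G2 ε (TT k n α) := fun j => by
      have := F2_nonneg ε j α
      have := G2_nonneg ε (TT k n α)
      positivity
    have hn2 : ∀ j, 0 ≤ Λ / 2 * F2 ε j (TT k n α) + 1 / (2 * Λ) * G2 ε α := fun j => by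
      have := F2_nonneg ε j (TT k n α)
      have := G2_nonneg ε α
      positivity
    split_ifs with hg
    · exact add_nonneg (Finset.sum_nonneg fun j _ => hn1 j) (Finset.sum_nonneg fun j _ => hn2 j)
    · unfold good at hg
      push Not at hg
      obtain ⟨i, x, hx⟩ := hg
      by_cases h1 : |ε * α (i, x)| ≤ 1 / 2
      · have h2 := hx h1
        have h3 : Λ / 2 * F2 ε (i, x) (TT k n α) + 1 / (2 * Λ) * G2 ε α ≤
            ∑ j, (Λ / 2 * F2 ε j (TT k n α) + 1 / (2 * Λ) * G2 ε α) :=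
          Finset.single_le_sum (fun j _ => hn2 j) (Finset.mem_univ (i, x))
        have h4 : F2 ε (i, x) (TT k n α) = G2 ε (TT k n α) := F2_eq h2
        have h5 := grow_le ε (1 / Λ) (by positivity) α
        have h6 : 1 / Λ / 2 = 1 / (2 * Λ) := by field_simp
        have h7 : 1 / (2 * (1 / Λ)) = Λ / 2 := by field_simp
        rw [h6, h7] at h5
        have h8 := Finset.sum_nonneg fun j (_ : j ∈ Finset.univ) => hn1 j
        rw [h4] at h3
        linarith
      · have h2 : 1 / 2 < |ε * α (i, x)| := not_le.mp h1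
        have h3 : Λ / 2 * F2 ε (i, x) α + 1 / (2 * Λ) * G2 ε (TT k n α) ≤
            ∑ j, (Λ / 2 * F2 ε j α + 1 / (2 * Λ) * G2 ε (TT k n α)) :=
          Finset.single_le_sum (fun j _ => hn1 j) (Finset.mem_univ (i, x))
        have h4 : F2 ε (i, x) α = G2 ε α := F2_eq h2
        have h5 := grow_le ε Λ hΛpos α
        have h8 := Finset.sum_nonneg fun j (_ : j ∈ Finset.univ) => hn2 j
        rw [h4] at h3
        linarith
  have hG := integrable_G2 (k := k) (n := n) ε
  have hF := integrable_F2 (k := k) (n := n) ε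
  have hmp := mp_TT (k := k) (n := n)
  have hGT : Integrable (fun α => G2 ε (TT k n α)) (gam (Fin k × Z n)) :=
    hmp.integrable_comp_of_integrable hG
  have hFT : ∀ j, Integrable (fun α => F2 ε j (TT k n α)) (gam (Fin k × Z n)) := fun j =>
    hmp.integrable_comp_of_integrable (hF j)
  have hTm : MeasurableEmbedding fun α => TT k n α := by
    refine (MeasurableEquiv.measurableEmbedding
      (MeasurableEquiv.ofInvolutive (fun α => TT k n α) TT_TT
        (LinearMap.continuous_of_finiteDimensional (TT k n)).measurable))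
  have hGTi : ∫ α, G2 ε (TT k n α) ∂(gam (Fin k × Z n)) = ∫ α, G2 ε α ∂(gam (Fin k × Z n)) :=
    hmp.integral_comp hTm _
  have hFTi : ∀ j, ∫ α, F2 ε j (TT k n α) ∂(gam (Fin k × Z n)) =
      ∫ α, F2 ε j α ∂(gam (Fin k × Z n)) := fun j => hmp.integral_comp hTm _
  have i1 : ∀ j, Integrable (fun α => Λ / 2 * F2 ε j α + 1 / (2 * Λ) * G2 ε (TT k n α))
      (gam (Fin k × Z n)) := fun j => ((hF j).const_mul _).add (hGT.const_mul _)
  have i2 : ∀ j, Integrable (fun α => Λ / 2 * F2 ε j (TT k n α) + 1 / (2 * Λ) * G2 ε α)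
      (gam (Fin k × Z n)) := fun j => ((hFT j).const_mul _).add (hG.const_mul _)
  calc ∫ α : Fin k × Z n → ℝ, (if good ε α then 0 else grow ε α) ∂(gam (Fin k × Z n))
      ≤ ∫ α, ((∑ j, (Λ / 2 * F2 ε j α + 1 / (2 * Λ) * G2 ε (TT k n α))) +
          ∑ j, (Λ / 2 * F2 ε j (TT k n α) + 1 / (2 * Λ) * G2 ε α)) ∂(gam (Fin k × Z n)) := by
        refine integral_mono_of_nonneg ?_ ?_ (Filter.Eventually.of_forall hpt)
        · refine Filter.Eventually.of_forall fun α => ?_
          show 0 ≤ (if good ε α then 0 else grow ε α)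
          split_ifs
          · exact le_refl _
          · exact grow_nonneg _ _
        · exact (integrable_finsetSum _ fun j _ => i1 j).add (integrable_finsetSum _ fun j _ => i2 j)
    _ = ∑ j : Fin k × Z n, (Λ * ∫ α, F2 ε j α ∂(gam (Fin k × Z n))
          + 1 / Λ * ∫ α, G2 ε α ∂(gam (Fin k × Z n))) := by
        rw [integral_add (integrable_finsetSum _ fun j _ => i1 j)
            (integrable_finsetSum _ fun j _ => i2 j),
          integral_finsetSum _ (fun j _ => i1 j), integral_finsetSum _ (fun j _ => i2 j),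
          ← Finset.sum_add_distrib]
        refine Finset.sum_congr rfl fun j _ => ?_
        rw [integral_add ((hF j).const_mul _) (hGT.const_mul _),
          integral_add ((hFT j).const_mul _) (hG.const_mul _), integral_const_mul,
          integral_const_mul, integral_const_mul, integral_const_mul, hGTi, hFTi]
        have : 1 / (2 * Λ) = 1 / Λ / 2 := by field_simp
        rw [this]; ring
    _ ≤ ∑ j : Fin k × Z n, (Λ * (t * a ^ M) + 1 / Λ * a ^ M) := by
        refine Finset.sum_le_sum fun j _ => ?_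
        have h1 := int_F2_le ε j
        have h2 := int_G2 (k := k) (n := n) ε
        rw [h2]
        have h3 := mul_le_mul_of_nonneg_left h1 hΛpos.le
        linarith
    _ = M * ((Λ ^ 2 * t + 1) * a ^ M / Λ) := by
        rw [Finset.sum_const, Finset.card_univ, nsmul_eq_mul]
        congr 1
        field_simp
    _ ≤ M * (2 * Real.exp k / Λ) := by
        refine mul_le_mul_of_nonneg_left ?_ (Nat.cast_nonneg _)
        refine div_le_div_of_nonneg_right ?_ hΛpos.le
        have h1 : (0 : ℝ) ≤ a ^ M := by positivity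
        have h2 : (0 : ℝ) ≤ Λ ^ 2 * t + 1 := by positivity
        nlinarith
    _ ≤ 1 / N ^ s := by
        rw [hMcard, hΛ]
        have he := Real.exp_pos (k : ℝ)
        have h1 : k * N * (2 * Real.exp k / ((2 * k + 1) * Real.exp k * N ^ (s + 1))) =
            (2 * k / (2 * k + 1)) * (1 / N ^ s) := by
          rw [pow_succ]; field_simp
        rw [h1]
        have h2 : 2 * (k : ℝ) / (2 * k + 1) ≤ 1 := by
          rw [div_le_one (by positivity)]; linarith
        have h3 : 0 ≤ 1 / N ^ s := by positivity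
        nlinarith

end Crest.Agent.QGap
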