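import Crest.Agent.QGap.Defs

/-! # S0554, module L4: tree martingale bound -/

set_option autoImplicit false
set_option linter.unusedSectionVars false

namespace Crest.Agent.QGap

open Matrix BigOperators Crest.MathPhysics.Query MeasureTheory ProbabilityTheory

namespace TM

/-! ## the one-step inequality -/

theorem pow_small (m : ℕ) (u : ℝ) (h1 : -1 ≤ u) (h2 : u ≤ 1) :
    (1 + u) ^ m ≤ 1 + m * u + 4 ^ m * u ^ 2 := by
  induction m with
  | zero => simp; positivity
  | succ m ih =>
    have h0 : 0 ≤ 1 + u := by linarith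
    have h3 : (1 + u) ^ (m + 1) ≤ (1 + u) * (1 + m * u + 4 ^ m * u ^ 2) := by
      rw [pow_succ']
      exact mul_le_mul_of_nonneg_left ih h0
    have h4 : (m : ℝ) ≤ 4 ^ m := by
      have : m < 4 ^ m := Nat.lt_pow_self (by norm_num)
      exact_mod_cast this.le
    have h5 : (0 : ℝ) < 4 ^ m := by positivity
    have h6 : (1 + u) * (1 + m * u + 4 ^ m * u ^ 2) ≤
        1 + ((m + 1 : ℕ) : ℝ) * u + 4 ^ (m + 1) * u ^ 2 := by
      push_cast
      rw [pow_succ (4 : ℝ) m]
      nlinarith [mul_nonneg (mul_nonneg h5.le (sq_nonneg u)) (by linarith : 0 ≤ 1 - u),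
        mul_nonneg (sub_nonneg.2 h4) (sq_nonneg u), mul_nonneg h5.le (sq_nonneg u)]
    exact h3.trans h6

theorem pow_all (m : ℕ) (u : ℝ) :
    (1 + u) ^ m ≤ 1 + m * u + 4 ^ m * (u ^ 2 + |u| ^ m) := by
  rcases le_or_gt |u| 1 with h | h
  · have h' := abs_le.1 h
    have := pow_small m u h'.1 h'.2
    have h5 : (0 : ℝ) ≤ 4 ^ m * |u| ^ m := by positivity
    linarith
  · have h1 : (1 + u) ^ m ≤ (2 * |u|) ^ m := by
      have : |1 + u| ≤ 2 * |u| := by
        calc |1 + u| ≤ |1| + |u| := abs_add_le _ _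
          _ ≤ 2 * |u| := by rw [abs_one]; linarith
      calc (1 + u) ^ m ≤ |(1 + u) ^ m| := le_abs_self _
        _ = |1 + u| ^ m := abs_pow _ _
        _ ≤ _ := pow_le_pow_left₀ (abs_nonneg _) this _
    have h2 : (2 * |u|) ^ m ≤ 4 ^ m * |u| ^ m := by
      rw [mul_pow]
      exact mul_le_mul_of_nonneg_right (pow_le_pow_left₀ (by norm_num) (by norm_num) _)
        (by positivity)
    have h4 : (m : ℝ) ≤ 4 ^ m := by
      have : m < 4 ^ m := Nat.lt_pow_self (by norm_num)
      exact_mod_cast this.le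
    have h6 : -(m * u) ≤ 4 ^ m * u ^ 2 := by
      have : -(m * u) ≤ m * |u| := by
        have := neg_abs_le u
        have hm : (0 : ℝ) ≤ m := by positivity
        nlinarith
      have h7 : |u| ≤ u ^ 2 := by
        rw [← sq_abs u]
        nlinarith
      calc -(m * u) ≤ m * |u| := this
        _ ≤ 4 ^ m * u ^ 2 := by
          apply mul_le_mul h4 h7 (abs_nonneg _) (by positivity)
    nlinarith

theorem pow_hom (s : ℕ) (hs : 1 ≤ s) (X Y : ℝ) :
    (X + Y) ^ (2 * s) ≤ X ^ (2 * s) + (2 * s : ℕ) * X ^ (2 * s - 1) * Y +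
      16 ^ s * (X ^ (2 * s - 2) * Y ^ 2 + Y ^ (2 * s)) := by
  have e16 : (4 : ℝ) ^ (2 * s) = 16 ^ s := by rw [pow_mul]; norm_num
  rcases eq_or_ne X 0 with h | h
  · subst h
    have h1 : (0 : ℝ) ^ (2 * s) = 0 := by
      apply zero_pow; omega
    have h2 : (0 : ℝ) ^ (2 * s - 1) = 0 := by
      apply zero_pow; omega
    rw [h1, h2, zero_add]
    have h3 : (0 : ℝ) ≤ 0 ^ (2 * s - 2) * Y ^ 2 := by positivity
    have h4 : (0 : ℝ) ≤ Y ^ (2 * s) := by rw [pow_mul]; positivity
    have h5 : (1 : ℝ) ≤ 16 ^ s := one_le_pow₀ (by norm_num)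
    nlinarith
  · have key := pow_all (2 * s) (Y / X)
    have hX : 0 < X ^ (2 * s) := by
      rw [pow_mul]
      positivity
    have := mul_le_mul_of_nonneg_left key hX.le
    have e1 : X ^ (2 * s) * (1 + Y / X) ^ (2 * s) = (X + Y) ^ (2 * s) := by
      rw [← mul_pow]
      congr 1
      field_simp
    have e2 : X ^ (2 * s) = X ^ (2 * s - 1) * X := by
      rw [← pow_succ]
      congr 1
      omega
    have e3 : X ^ (2 * s) = X ^ (2 * s - 2) * X ^ 2 := by
      rw [← pow_add]
      congr 1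
      omega
    have e4 : |Y / X| ^ (2 * s) = Y ^ (2 * s) / X ^ (2 * s) := by
      rw [abs_div, div_pow, pow_mul, sq_abs, pow_mul, sq_abs, ← pow_mul, ← pow_mul]
    rw [e1] at this
    refine this.trans (le_of_eq ?_)
    rw [mul_add, mul_add, mul_one]
    congr 1
    · congr 1
      rw [e2]
      field_simp
    · rw [e4, e16]
      have : X ^ (2 * s) * (16 ^ s * ((Y / X) ^ 2 + Y ^ (2 * s) / X ^ (2 * s))) =
          16 ^ s * ((X ^ (2 * s)) * (Y / X) ^ 2 + X ^ (2 * s) * (Y ^ (2 * s) / X ^ (2 * s))) := by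
        ring
      rw [this, mul_div_cancel₀ _ hX.ne']
      congr 2
      rw [e3]
      field_simp

/-- the constant of the one-step inequality -/
def cc (s : ℕ) : ℝ := 1 + 16 ^ s * (4 + 4 ^ s)

theorem one_le_cc (s : ℕ) : 1 ≤ cc s := by
  unfold cc
  have : (0 : ℝ) ≤ 16 ^ s * (4 + 4 ^ s) := by positivity
  linarith

theorem ab_ineq (s : ℕ) (hs : 1 ≤ s) (A B : ℝ) (hA : 0 ≤ A) (hB : 0 ≤ B) :
    A ^ s + 16 ^ s * (A ^ (s - 1) * (4 * B) + 4 ^ s * B ^ s) ≤ (A + cc s * B) ^ s := by
  obtain ⟨r, rfl⟩ : ∃ r, s = r + 1 := ⟨s - 1, by omega⟩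
  have hc : 1 ≤ cc (r + 1) := one_le_cc _
  simp only [Nat.add_sub_cancel]
  rcases le_total B A with h | h
  · have h1 : B ^ (r + 1) ≤ A ^ r * B := by
      rw [pow_succ]
      exact mul_le_mul_of_nonneg_right (pow_le_pow_left₀ hB h _) hB
    have h2 : A ^ r * (A + cc (r + 1) * B) ≤ (A + cc (r + 1) * B) ^ (r + 1) := by
      rw [pow_succ]
      apply mul_le_mul_of_nonneg_right
      · apply pow_le_pow_left₀ hA
        have : 0 ≤ cc (r + 1) * B := by positivity
        linarith
      · positivity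
    refine le_trans ?_ h2
    have h3 : (0 : ℝ) < 16 ^ (r + 1) := by positivity
    have h4 : (0 : ℝ) < 4 ^ (r + 1) := by positivity
    have h5 : (0 : ℝ) ≤ A ^ r * B := by positivity
    have h6 : 16 ^ (r + 1) * (A ^ r * (4 * B) + 4 ^ (r + 1) * B ^ (r + 1)) ≤
        cc (r + 1) * (A ^ r * B) := by
      unfold cc
      have : 4 ^ (r + 1) * B ^ (r + 1) ≤ 4 ^ (r + 1) * (A ^ r * B) :=
        mul_le_mul_of_nonneg_left h1 h4.le
      nlinarith [mul_le_mul_of_nonneg_left this h3.le]
    calc A ^ (r + 1) + 16 ^ (r + 1) * (A ^ r * (4 * B) + 4 ^ (r + 1) * B ^ (r + 1))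
        ≤ A ^ (r + 1) + cc (r + 1) * (A ^ r * B) := by linarith
      _ = _ := by ring
  · have h1 : A ^ (r + 1) ≤ B ^ (r + 1) := pow_le_pow_left₀ hA h _
    have h2 : A ^ r * B ≤ B ^ (r + 1) := by
      rw [pow_succ]
      exact mul_le_mul_of_nonneg_right (pow_le_pow_left₀ hA h _) hB
    have h3 : cc (r + 1) * B ^ (r + 1) ≤ (A + cc (r + 1) * B) ^ (r + 1) := by
      calc cc (r + 1) * B ^ (r + 1) ≤ cc (r + 1) ^ (r + 1) * B ^ (r + 1) := by
            apply mul_le_mul_of_nonneg_right _ (by positivity)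
            exact le_self_pow₀ hc (by omega)
        _ = (cc (r + 1) * B) ^ (r + 1) := by rw [mul_pow]
        _ ≤ _ := pow_le_pow_left₀ (by positivity) (by linarith) _
    refine le_trans ?_ h3
    unfold cc
    have h4 : (0 : ℝ) < 16 ^ (r + 1) := by positivity
    nlinarith [mul_le_mul_of_nonneg_left h2 h4.le]

/-- pointwise one-step inequality -/
theorem pw (s : ℕ) (hs : 1 ≤ s) (w₀ w₁ ξ₀ ξ₁ X D : ℝ) (h0 : 0 ≤ w₀) (h1 : 0 ≤ w₁)
    (hw : w₀ + w₁ = 1) (hm : w₀ * ξ₀ + w₁ * ξ₁ = 0) (hξ₀ : |ξ₀| ≤ 2) (hξ₁ : |ξ₁| ≤ 2) :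
    w₀ * (X + ξ₀ * D) ^ (2 * s) + w₁ * (X + ξ₁ * D) ^ (2 * s) ≤ (X ^ 2 + cc s * D ^ 2) ^ s := by
  refine le_trans ?_ (ab_ineq s hs (X ^ 2) (D ^ 2) (sq_nonneg _) (sq_nonneg _))
  have hb : ∀ ξ : ℝ, |ξ| ≤ 2 → (X + ξ * D) ^ (2 * s) ≤
      X ^ (2 * s) + (2 * s : ℕ) * X ^ (2 * s - 1) * (ξ * D) +
      16 ^ s * ((X ^ 2) ^ (s - 1) * (4 * D ^ 2) + 4 ^ s * (D ^ 2) ^ s) := by
    intro ξ hξ
    refine (pow_hom s hs X (ξ * D)).trans ?_
    have h4 : ξ ^ 2 ≤ 4 := by
      rw [← sq_abs]
      nlinarith [abs_nonneg ξ]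
    have h5 : (ξ * D) ^ 2 ≤ 4 * D ^ 2 := by
      rw [mul_pow]
      exact mul_le_mul_of_nonneg_right h4 (sq_nonneg _)
    have h6 : (ξ * D) ^ (2 * s) ≤ 4 ^ s * (D ^ 2) ^ s := by
      rw [pow_mul, ← mul_pow]
      exact pow_le_pow_left₀ (sq_nonneg _) h5 _
    have h7 : X ^ (2 * s - 2) = (X ^ 2) ^ (s - 1) := by
      rw [← pow_mul]
      congr 1
      omega
    have h8 : X ^ (2 * s - 2) * (ξ * D) ^ 2 ≤ (X ^ 2) ^ (s - 1) * (4 * D ^ 2) := by
      rw [h7]
      exact mul_le_mul_of_nonneg_left h5 (by positivity)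
    have h9 : (0 : ℝ) < 16 ^ s := by positivity
    nlinarith [mul_le_mul_of_nonneg_left (add_le_add h8 h6) h9.le]
  have a := mul_le_mul_of_nonneg_left (hb ξ₀ hξ₀) h0
  have b := mul_le_mul_of_nonneg_left (hb ξ₁ hξ₁) h1
  have e : (X ^ 2) ^ s = X ^ (2 * s) := by rw [pow_mul]
  rw [e]
  set Q := 16 ^ s * ((X ^ 2) ^ (s - 1) * (4 * D ^ 2) + 4 ^ s * (D ^ 2) ^ s)
  set R := ((2 * s : ℕ) : ℝ) * X ^ (2 * s - 1)
  have : w₀ * (X ^ (2 * s) + R * (ξ₀ * D) + Q) + w₁ * (X ^ (2 * s) + R * (ξ₁ * D) + Q) =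
      (w₀ + w₁) * (X ^ (2 * s) + Q) + R * D * (w₀ * ξ₀ + w₁ * ξ₁) := by ring
  rw [hw, hm] at this
  linarith

/-- convexity instead of Minkowski -/
theorem mink (s : ℕ) (a b A B : ℝ) (ha : 0 ≤ a) (hb : 0 ≤ b) (hA : 0 < A) (hB : 0 < B) :
    (a + b) ^ s ≤ (A + B) ^ s * (A / (A + B) * (a ^ s / A ^ s) + B / (A + B) * (b ^ s / B ^ s)) := by
  have hAB : 0 < A + B := by linarith
  have := (convexOn_pow (𝕜 := ℝ) s).2 (Set.mem_Ici.2 (div_nonneg ha hA.le))
    (Set.mem_Ici.2 (div_nonneg hb hB.le)) (div_nonneg hA.le hAB.le) (div_nonneg hB.le hAB.le)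
    (by field_simp)
  simp only [smul_eq_mul] at this
  have h2 := mul_le_mul_of_nonneg_left this (pow_nonneg hAB.le s)
  rw [← mul_pow] at h2
  have e : (A + B) * (A / (A + B) * (a / A) + B / (A + B) * (b / B)) = a + b := by
    field_simp
  rw [e, div_pow, div_pow] at h2
  exact h2

/-! ## the Markov operator of a tree -/

section op
variable {I : Type} [DecidableEq I]

/-- normalised bit value -/
noncomputable def xiv (b : I → ℝ) (p : I) (o : Bool) : ℝ := (sg o - b p) / (1 - b p ^ 2)

/-- weight of a bit value -/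
noncomputable def wt (b : I → ℝ) (p : I) (o : Bool) : ℝ := (1 + b p * sg o) / 2

/-- one step: read a bit (if it has not been read) -/
noncomputable def KK (b : I → ℝ) (Φ : (I → ℝ) → GTree I Bool → ℝ) :
    (I → ℝ) → GTree I Bool → ℝ
  | z, .leaf ω => Φ z (.leaf ω)
  | z, .node p s => if z p = 0 then
      wt b p false * Φ (Function.update z p (xiv b p false)) (s false) +
      wt b p true * Φ (Function.update z p (xiv b p true)) (s true)
      else Φ z (s (decide (z p < 0)))

theorem KK_add (b : I → ℝ) (Φ Ψ : (I → ℝ) → GTree I Bool → ℝ) :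
    KK b (Φ + Ψ) = KK b Φ + KK b Ψ := by
  funext z T
  cases T with
  | leaf ω => rfl
  | node p s =>
    simp only [KK, Pi.add_apply]
    split_ifs <;> ring

theorem KK_smul (b : I → ℝ) (c : ℝ) (Φ : (I → ℝ) → GTree I Bool → ℝ) :
    KK b (fun z T => c * Φ z T) = fun z T => c * KK b Φ z T := by
  funext z T
  cases T with
  | leaf ω => rfl
  | node p s =>
    simp only [KK]
    split_ifs <;> ring

variable {b : I → ℝ} (hb : ∀ p, |b p| ≤ 1 / 2)
include hb

theorem wt_nonneg (p : I) (o : Bool) : 0 ≤ wt b p o := by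
  have := abs_le.1 (hb p)
  unfold wt sg
  cases o <;> simp <;> linarith [this.1, this.2]

omit [DecidableEq I] hb in
theorem wt_sum (p : I) : wt b p false + wt b p true = 1 := by
  unfold wt sg
  simp
  ring

theorem b_sq (p : I) : b p ^ 2 ≤ 1 / 4 := by
  rw [← sq_abs]
  have := hb p
  nlinarith [abs_nonneg (b p)]

theorem xiv_abs (p : I) (o : Bool) : |xiv b p o| ≤ 2 := by
  have := abs_le.1 (hb p)
  have h1 := b_sq hb p
  unfold xiv
  rw [abs_div, abs_of_pos (by linarith : 0 < 1 - b p ^ 2), div_le_iff₀ (by linarith)]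
  unfold sg
  rw [abs_le]
  cases o <;> simp <;> constructor <;> nlinarith [this.1, this.2]

theorem wt_xiv (p : I) :
    wt b p false * xiv b p false + wt b p true * xiv b p true = 0 := by
  have h1 := b_sq hb p
  unfold wt xiv sg
  simp
  field_simp
  ring

theorem xiv_false (p : I) : 0 < xiv b p false := by
  have := abs_le.1 (hb p)
  have h1 := b_sq hb p
  unfold xiv sg
  simp only [Bool.false_eq_true, if_false]
  apply div_pos <;> linarith [this.1, this.2]

theorem xiv_true (p : I) : xiv b p true < 0 := by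
  have := abs_le.1 (hb p)
  have h1 := b_sq hb p
  unfold xiv sg
  simp only [if_true]
  apply div_neg_of_neg_of_pos <;> linarith [this.1, this.2]

theorem xiv_ne (p : I) (o : Bool) : xiv b p o ≠ 0 := by
  cases o
  · exact (xiv_false hb p).ne'
  · exact (xiv_true hb p).ne

theorem xiv_dec (p : I) (o : Bool) : decide (xiv b p o < 0) = o := by
  cases o
  · simp [(xiv_false hb p).le]
  · simp [xiv_true hb p]

theorem KK_mono {Φ Ψ : (I → ℝ) → GTree I Bool → ℝ} (h : ∀ z T, Φ z T ≤ Ψ z T) :
    ∀ z T, KK b Φ z T ≤ KK b Ψ z T := by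
  intro z T
  cases T with
  | leaf ω => exact h _ _
  | node p s =>
    simp only [KK]
    split_ifs
    · exact add_le_add (mul_le_mul_of_nonneg_left (h _ _) (wt_nonneg hb _ _))
        (mul_le_mul_of_nonneg_left (h _ _) (wt_nonneg hb _ _))
    · exact h _ _

omit [DecidableEq I] hb in
theorem KK_const [DecidableEq I] (c : ℝ) : KK b (fun _ _ => c) = fun _ _ => c := by
  funext z T
  cases T with
  | leaf ω => rfl
  | node p s =>
    simp only [KK]
    split_ifs
    · rw [← add_mul, wt_sum, one_mul]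
    · rfl

/-! the expectation functional after `t` steps -/
omit hb
variable (b)

/-- expectation after `t` steps -/
noncomputable def Et (T : GTree I Bool) (t : ℕ) (Φ : (I → ℝ) → GTree I Bool → ℝ) : ℝ :=
  ((KK b)^[t] Φ) 0 T

theorem Et_zero (T : GTree I Bool) (Φ : (I → ℝ) → GTree I Bool → ℝ) : Et b T 0 Φ = Φ 0 T := rfl

theorem Et_succ (T : GTree I Bool) (t : ℕ) (Φ : (I → ℝ) → GTree I Bool → ℝ) :
    Et b T (t + 1) Φ = Et b T t (KK b Φ) := rfl

theorem Et_add (T : GTree I Bool) (t : ℕ) (Φ Ψ : (I → ℝ) → GTree I Bool → ℝ) :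
    Et b T t (fun z S => Φ z S + Ψ z S) = Et b T t Φ + Et b T t Ψ := by
  induction t generalizing Φ Ψ with
  | zero => rfl
  | succ t ih =>
    rw [Et_succ, Et_succ, Et_succ, ← ih]
    congr 1
    exact KK_add b Φ Ψ

theorem Et_smul (T : GTree I Bool) (t : ℕ) (c : ℝ) (Φ : (I → ℝ) → GTree I Bool → ℝ) :
    Et b T t (fun z S => c * Φ z S) = c * Et b T t Φ := by
  induction t generalizing Φ with
  | zero => rfl
  | succ t ih =>
    rw [Et_succ, Et_succ, ← ih, KK_smul]

theorem Et_const (T : GTree I Bool) (t : ℕ) (c : ℝ) :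
    Et b T t (fun _ _ => c) = c := by
  induction t with
  | zero => rfl
  | succ t ih => rw [Et_succ, KK_const, ih]

theorem Et_sum (T : GTree I Bool) (t : ℕ) {J : Type} (s : Finset J)
    (Φ : J → (I → ℝ) → GTree I Bool → ℝ) :
    Et b T t (fun z S => ∑ j ∈ s, Φ j z S) = ∑ j ∈ s, Et b T t (Φ j) := by
  classical
  induction s using Finset.induction_on with
  | empty => simp only [Finset.sum_empty]; exact Et_const b T t 0
  | insert a s ha ih =>
    simp only [Finset.sum_insert ha]
    rw [Et_add, ih]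

variable {b}
include hb

theorem Et_mono (T : GTree I Bool) (t : ℕ) {Φ Ψ : (I → ℝ) → GTree I Bool → ℝ}
    (h : ∀ z S, Φ z S ≤ Ψ z S) : Et b T t Φ ≤ Et b T t Ψ := by
  induction t generalizing Φ Ψ with
  | zero => exact h _ _
  | succ t ih => exact ih (KK_mono hb h)

/-- moment step -/
theorem Et_step (T : GTree I Bool) (t s : ℕ) (hs : 1 ≤ s) (G : (I → ℝ) → ℝ)
    (D : (I → ℝ) → GTree I Bool → ℝ)
    (hG : ∀ z p u r, z p = 0 → G (Function.update z p u) = G z + u * D z (.node p r))
    (A B : ℝ) (hA : 0 < A) (hB : 0 < B)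
    (h1 : Et b T t (fun z _ => G z ^ (2 * s)) ≤ A ^ s)
    (h2 : Et b T t (fun z S => D z S ^ (2 * s)) ≤ B ^ s) :
    Et b T (t + 1) (fun z _ => G z ^ (2 * s)) ≤ (A + cc s * B) ^ s := by
  have hc := one_le_cc s
  have hcB : 0 < cc s * B := by positivity
  rw [Et_succ]
  have step1 : ∀ z S, KK b (fun z _ => G z ^ (2 * s)) z S ≤
      (A + cc s * B) ^ s * (A / (A + cc s * B) * (G z ^ (2 * s) / A ^ s) +
        (cc s * B) / (A + cc s * B) * ((D z S) ^ (2 * s) / B ^ s)) := by
    intro z S
    have m := mink s (G z ^ 2) (cc s * D z S ^ 2) A (cc s * B) (sq_nonneg _) (by positivity) hA hcB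
    have e1 : (G z ^ 2) ^ s / A ^ s = G z ^ (2 * s) / A ^ s := by rw [pow_mul]
    have e2 : (cc s * D z S ^ 2) ^ s / (cc s * B) ^ s = (D z S) ^ (2 * s) / B ^ s := by
      rw [mul_pow, mul_pow, pow_mul, mul_div_mul_left _ _ (by positivity)]
    rw [e1, e2] at m
    refine le_trans ?_ m
    have triv : G z ^ (2 * s) ≤ (G z ^ 2 + cc s * D z S ^ 2) ^ s := by
      rw [pow_mul]
      apply pow_le_pow_left₀ (sq_nonneg _)
      have : 0 ≤ cc s * D z S ^ 2 := by positivity
      linarith
    cases S with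
    | leaf ω => exact triv
    | node p r =>
      simp only [KK]
      split_ifs with h0
      · rw [hG z p _ r h0, hG z p _ r h0]
        exact pw s hs _ _ _ _ _ _ (wt_nonneg hb _ _) (wt_nonneg hb _ _) (wt_sum _)
          (wt_xiv hb _) (xiv_abs hb _ _) (xiv_abs hb _ _)
      · exact triv
  refine (Et_mono hb T t step1).trans ?_
  rw [Et_smul, Et_add, Et_smul, Et_smul]
  have e3 : Et b T t (fun z _ => G z ^ (2 * s) / A ^ s) ≤ 1 := by
    have : (fun (z : I → ℝ) (_ : GTree I Bool) => G z ^ (2 * s) / A ^ s) =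
        fun z _ => (A ^ s)⁻¹ * G z ^ (2 * s) := by
      funext z _
      rw [div_eq_inv_mul]
    rw [this, Et_smul, inv_mul_le_iff₀ (by positivity), mul_one]
    exact h1
  have e4 : Et b T t (fun z S => D z S ^ (2 * s) / B ^ s) ≤ 1 := by
    have : (fun (z : I → ℝ) (S : GTree I Bool) => D z S ^ (2 * s) / B ^ s) =
        fun z S => (B ^ s)⁻¹ * D z S ^ (2 * s) := by
      funext z _
      rw [div_eq_inv_mul]
    rw [this, Et_smul, inv_mul_le_iff₀ (by positivity), mul_one]
    exact h2
  have hAB : 0 < A + cc s * B := by linarith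
  have e5 : A / (A + cc s * B) * 1 + (cc s * B) / (A + cc s * B) * 1 = 1 := by field_simp
  have e6 : A / (A + cc s * B) * Et b T t (fun z _ => G z ^ (2 * s) / A ^ s) +
      (cc s * B) / (A + cc s * B) * Et b T t (fun z S => D z S ^ (2 * s) / B ^ s) ≤ 1 := by
    calc _ ≤ A / (A + cc s * B) * 1 + (cc s * B) / (A + cc s * B) * 1 :=
          add_le_add (mul_le_mul_of_nonneg_left e3 (by positivity))
            (mul_le_mul_of_nonneg_left e4 (by positivity))
      _ = 1 := e5
  calc _ ≤ (A + cc s * B) ^ s * 1 := mul_le_mul_of_nonneg_left e6 (by positivity)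
    _ = _ := mul_one _

/-- Cauchy-Schwarz -/
theorem Et_cs (T : GTree I Bool) (t : ℕ) (u v : (I → ℝ) → GTree I Bool → ℝ) (U V : ℝ)
    (hU : 0 < U) (hV : 0 < V) (h1 : Et b T t (fun z S => u z S ^ 2) ≤ U ^ 2)
    (h2 : Et b T t (fun z S => v z S ^ 2) ≤ V ^ 2) :
    Et b T t (fun z S => u z S * v z S) ≤ U * V := by
  have h : ∀ z S, u z S * v z S ≤ (V / (2 * U)) * u z S ^ 2 + (U / (2 * V)) * v z S ^ 2 := by
    intro z S
    have := sq_nonneg (V * u z S - U * v z S)
    have e : (V / (2 * U)) * u z S ^ 2 + (U / (2 * V)) * v z S ^ 2 - u z S * v z S =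
        (V * u z S - U * v z S) ^ 2 / (2 * U * V) := by
      field_simp
      ring
    have : 0 ≤ (V * u z S - U * v z S) ^ 2 / (2 * U * V) := by positivity
    linarith
  refine (Et_mono hb T t h).trans ?_
  rw [Et_add, Et_smul, Et_smul]
  calc _ ≤ V / (2 * U) * U ^ 2 + U / (2 * V) * V ^ 2 :=
        add_le_add (mul_le_mul_of_nonneg_left h1 (by positivity))
          (mul_le_mul_of_nonneg_left h2 (by positivity))
    _ = U * V := by field_simp; ring

end op

/-! ## chains -/

section chain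
variable {X : Type} [Fintype X] [DecidableEq X]

/-- chain sum with `s` interior positions `i, …, i+s-1`, from the point `a` to the point `y` -/
noncomputable def ch (W : ℕ → X → X → ℝ) (u : ℕ → X → ℝ) : ℕ → ℕ → X → X → ℝ
  | i, 0, a, y => W i a y
  | i, s + 1, a, y => ∑ x, W i a x * u i x * ch W u (i + 1) s x y

theorem ch_zero (W : ℕ → X → X → ℝ) (u : ℕ → X → ℝ) (i : ℕ) (a y : X) :
    ch W u i 0 a y = W i a y := rfl

theorem ch_succ (W : ℕ → X → X → ℝ) (u : ℕ → X → ℝ) (i s : ℕ) (a y : X) :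
    ch W u i (s + 1) a y = ∑ x, W i a x * u i x * ch W u (i + 1) s x y := rfl

/-- the derivative of a chain sum in the variable `(l, x)` -/
noncomputable def dch (W : ℕ → X → X → ℝ) (u : ℕ → X → ℝ) (i s : ℕ) (a y : X) (l : ℕ) (x : X) :
    ℝ :=
  if i ≤ l ∧ l < i + s then ch W u i (l - i) a x * ch W u (l + 1) (i + s - 1 - l) x y else 0

theorem ch_update (W : ℕ → X → X → ℝ) (u u' : ℕ → X → ℝ) (l : ℕ) (x : X) (v : ℝ)
    (hu : u l x = 0) (hu' : ∀ l' x', u' l' x' = if l' = l ∧ x' = x then v else u l' x')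
    (s : ℕ) : ∀ (i : ℕ) (a y : X),
    ch W u' i s a y = ch W u i s a y + v * dch W u i s a y l x := by
  induction s with
  | zero =>
    intro i a y
    have : ¬ (i ≤ l ∧ l < i + 0) := by omega
    simp only [ch_zero, dch, if_neg this]
    ring
  | succ s ih =>
    intro i a y
    rw [ch_succ, ch_succ]
    rcases lt_trichotomy l i with h | h | h
    · have h1 : ¬ (i ≤ l ∧ l < i + (s + 1)) := by omega
      have h2 : ¬ (i + 1 ≤ l ∧ l < i + 1 + s) := by omega
      simp only [dch, if_neg h1, mul_zero, add_zero]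
      apply Finset.sum_congr rfl
      intro x' _
      rw [ih, dch, if_neg h2, mul_zero, add_zero, hu', if_neg (by omega)]
    · subst h
      have h1 : (l ≤ l ∧ l < l + (s + 1)) := by omega
      have h2 : ¬ (l + 1 ≤ l ∧ l < l + 1 + s) := by omega
      simp only [dch, if_pos h1, Nat.sub_self, ch_zero]
      have h3 : l + (s + 1) - 1 - l = s := by omega
      rw [h3]
      have : ∀ x', W l a x' * u' l x' * ch W u' (l + 1) s x' y =
          W l a x' * u l x' * ch W u (l + 1) s x' y +
          (if x' = x then v * (W l a x * ch W u (l + 1) s x y) else 0) := by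
        intro x'
        rw [ih, dch, if_neg h2, mul_zero, add_zero, hu']
        by_cases hx : x' = x
        · subst hx
          simp only [true_and, if_true, hu]
          ring
        · simp [hx]
      rw [Finset.sum_congr rfl (fun x' _ => this x'), Finset.sum_add_distrib]
      congr 1
      simp
    · have hu2 : ∀ x', u' i x' = u i x' := by
        intro x'
        rw [hu', if_neg (by omega)]
      by_cases hl : l < i + (s + 1)
      · have h1 : (i ≤ l ∧ l < i + (s + 1)) := by omega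
        have h2 : (i + 1 ≤ l ∧ l < i + 1 + s) := by omega
        have e1 : l - i = (l - (i + 1)) + 1 := by omega
        have e2 : i + 1 + s - 1 - l = i + (s + 1) - 1 - l := by omega
        simp only [dch, if_pos h1]
        rw [e1, ch_succ, Finset.sum_mul, Finset.mul_sum, ← Finset.sum_add_distrib]
        apply Finset.sum_congr rfl
        intro x' _
        rw [ih, dch, if_pos h2, e2, hu2]
        ring
      · have h1 : ¬ (i ≤ l ∧ l < i + (s + 1)) := by omega
        have h2 : ¬ (i + 1 ≤ l ∧ l < i + 1 + s) := by omega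
        simp only [dch, if_neg h1, mul_zero, add_zero]
        apply Finset.sum_congr rfl
        intro x' _
        rw [ih, dch, if_neg h2, mul_zero, add_zero, hu2]

theorem ch_at_zero (W : ℕ → X → X → ℝ) (i s : ℕ) (a y : X) :
    ch W (fun _ _ => 0) i (s + 1) a y = 0 := by
  rw [ch_succ]
  simp

/-- the chain sum as a sum over functions -/
theorem ch_eq (W : ℕ → X → X → ℝ) (u : ℕ → X → ℝ) (s : ℕ) : ∀ (i : ℕ) (a y : X),
    ch W u i (s + 1) a y = ∑ x : Fin (s + 1) → X, W i a (x 0) *
      (∏ r : Fin s, W (i + 1 + r) (x r.castSucc) (x r.succ)) * W (i + s + 1) (x (Fin.last s)) y *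
      ∏ r : Fin (s + 1), u (i + r) (x r) := by
  induction s with
  | zero =>
    intro i a y
    rw [ch_succ]
    simp only [ch_zero]
    rw [← (Equiv.funUnique (Fin 1) X).symm.sum_comp]
    apply Finset.sum_congr rfl
    intro x _
    simp [Equiv.funUnique]
    ring
  | succ s ih =>
    intro i a y
    rw [ch_succ]
    rw [← (Fin.consEquiv (fun _ : Fin (s + 2) => X)).sum_comp, Fintype.sum_prod_type]
    apply Finset.sum_congr rfl
    intro x _
    rw [ih, Finset.mul_sum]
    apply Finset.sum_congr rfl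
    intro x' _
    simp only [Fin.consEquiv_apply]
    have e1 : (Fin.cons x x' : Fin (s + 2) → X) 0 = x := rfl
    have e2 : ∀ r : Fin (s + 1), (Fin.cons x x' : Fin (s + 2) → X) r.succ = x' r := fun r => rfl
    have e3 : (Fin.cons x x' : Fin (s + 2) → X) (Fin.last (s + 1)) = x' (Fin.last s) := rfl
    have e4 : ∀ r : Fin s, (Fin.cons x x' : Fin (s + 2) → X) (r.succ.castSucc) = x' r.castSucc :=
      fun r => rfl
    have e5 : (Fin.cons x x' : Fin (s + 2) → X) ((0 : Fin (s + 1)).castSucc) = x := rfl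
    have p1 : (∏ r : Fin (s + 1), W (i + 1 + r)
          ((Fin.cons x x' : Fin (s + 2) → X) r.castSucc)
          ((Fin.cons x x' : Fin (s + 2) → X) r.succ)) =
        W (i + 1) x (x' 0) * ∏ r : Fin s, W (i + 1 + 1 + r) (x' r.castSucc) (x' r.succ) := by
      rw [Fin.prod_univ_succ, e5, e2]
      congr 1
      apply Finset.prod_congr rfl
      intro r _
      rw [e4, e2]
      congr 1
      rw [Fin.val_succ]
      omega
    have p2 : (∏ r : Fin (s + 1 + 1), u (i + r) ((Fin.cons x x' : Fin (s + 2) → X) r)) =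
        u i x * ∏ r : Fin (s + 1), u (i + 1 + r) (x' r) := by
      rw [Fin.prod_univ_succ, e1]
      congr 1
      apply Finset.prod_congr rfl
      intro r _
      rw [e2]
      congr 1
      rw [Fin.val_succ]
      omega
    rw [p1, p2, e1, e3]
    have e8 : i + (s + 1) + 1 = i + 1 + s + 1 := by omega
    rw [e8]
    ring

end chain

/-! ## the moment recursion -/

section mom
variable {k n : ℕ}

/-- extension of a state by zero -/
noncomputable def zx (z : Pl k n → ℝ) (l : ℕ) (x : Z n) : ℝ :=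
  if h : l < k + 1 then z (⟨l, h⟩, x) else 0

theorem zx_zero : zx (0 : Pl k n → ℝ) = fun _ _ => 0 := by
  funext l x
  simp [zx]

theorem zx_self (z : Pl k n → ℝ) (p : Pl k n) : zx z p.1 p.2 = z p := by
  unfold zx
  rw [dif_pos p.1.isLt]

theorem zx_update (z : Pl k n → ℝ) (p : Pl k n) (v : ℝ) (l' : ℕ) (x' : Z n) :
    zx (Function.update z p v) l' x' = if l' = p.1 ∧ x' = p.2 then v else zx z l' x' := by
  unfold zx
  by_cases h : l' < k + 1
  · rw [dif_pos h, dif_pos h]
    by_cases h2 : l' = p.1 ∧ x' = p.2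
    · rw [if_pos h2]
      have : ((⟨l', h⟩ : Fin (k + 1)), x') = p := by
        ext1
        · exact Fin.ext h2.1
        · exact h2.2
      rw [this, Function.update_self]
    · rw [if_neg h2, Function.update_of_ne]
      intro h3
      apply h2
      rw [← h3]
      exact ⟨rfl, rfl⟩
  · rw [dif_neg h, dif_neg h, if_neg]
    rintro ⟨h1, _⟩
    exact h (h1 ▸ p.1.isLt)

/-- derivative of a chain sum in the direction of the next query -/
noncomputable def DD (W : ℕ → Z n → Z n → ℝ) (i s : ℕ) (a y : Z n) (z : Pl k n → ℝ) :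
    GTree (Pl k n) Bool → ℝ
  | .leaf _ => 0
  | .node p _ => dch W (zx z) i s a y p.1 p.2

theorem DD_spec (W : ℕ → Z n → Z n → ℝ) (i s : ℕ) (a y : Z n) (z : Pl k n → ℝ) (p : Pl k n)
    (u : ℝ) (r : Bool → GTree (Pl k n) Bool) (h0 : z p = 0) :
    ch W (zx (Function.update z p u)) i s a y =
      ch W (zx z) i s a y + u * DD W i s a y z (.node p r) := by
  apply ch_update W (zx z) _ p.1 p.2 u
  · rw [zx_self, h0]
  · intro l' x'
    exact zx_update z p u l' x'

theorem DD_le (W : ℕ → Z n → Z n → ℝ) (i s q : ℕ) (hq : 1 ≤ q) (a y : Z n) (z : Pl k n → ℝ)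
    (S : GTree (Pl k n) Bool) :
    DD W i (s + 1) a y z S ^ (2 * q) ≤ ∑ r ∈ Finset.range (s + 1), ∑ x : Z n,
      (ch W (zx z) i r a x) ^ (2 * q) * (ch W (zx z) (i + r + 1) (s - r) x y) ^ (2 * q) := by
  have hnn : ∀ r (x : Z n), 0 ≤ (ch W (zx z) i r a x) ^ (2 * q) *
      (ch W (zx z) (i + r + 1) (s - r) x y) ^ (2 * q) := by
    intro r x
    rw [pow_mul, pow_mul]
    positivity
  have hS : 0 ≤ ∑ r ∈ Finset.range (s + 1), ∑ x : Z n,
      (ch W (zx z) i r a x) ^ (2 * q) * (ch W (zx z) (i + r + 1) (s - r) x y) ^ (2 * q) :=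
    Finset.sum_nonneg fun r _ => Finset.sum_nonneg fun x _ => hnn r x
  have h0 : (0 : ℝ) ^ (2 * q) = 0 := zero_pow (by omega)
  cases S with
  | leaf ω =>
    simp only [DD]
    rw [h0]
    exact hS
  | node p r =>
    simp only [DD, dch]
    split_ifs with h
    · have hr : (p.1 : ℕ) - i ∈ Finset.range (s + 1) := by
        rw [Finset.mem_range]
        omega
      refine le_trans ?_ (Finset.single_le_sum (f := fun r => ∑ x : Z n,
        (ch W (zx z) i r a x) ^ (2 * q) * (ch W (zx z) (i + r + 1) (s - r) x y) ^ (2 * q))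
        (fun r _ => Finset.sum_nonneg fun x _ => hnn r x) hr)
      refine le_trans ?_ (Finset.single_le_sum (f := fun x : Z n =>
        (ch W (zx z) i (p.1 - i) a x) ^ (2 * q) *
          (ch W (zx z) (i + (p.1 - i) + 1) (s - (p.1 - i)) x y) ^ (2 * q))
        (fun x _ => hnn _ x) (Finset.mem_univ p.2))
      rw [mul_pow]
      have e1 : i + ((p.1 : ℕ) - i) + 1 = p.1 + 1 := by omega
      have e2 : s - ((p.1 : ℕ) - i) = i + (s + 1) - 1 - p.1 := by omega
      rw [e1, e2]
    · rw [h0]
      exact hS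

theorem mom (k q0 : ℕ) (hq0 : 1 ≤ q0) : ∀ s q : ℕ, q0 ≤ q → ∃ C : ℝ, 1 ≤ C ∧
    ∀ (n d : ℕ) (T : GTree (Pl k n) Bool) (b : Pl k n → ℝ) (W : ℕ → Z n → Z n → ℝ)
      (w : ℕ → ℝ) (ν : ℝ), (∀ p, |b p| ≤ 1 / 2) → 1 ≤ d → (∀ l x y, |W l x y| ≤ w l) →
      (∀ l, 0 < w l) → 1 ≤ ν → (2 : ℝ) ^ n ≤ ν ^ q0 → ∀ t ≤ d, ∀ i a y,
      Et b T t (fun z _ => (ch W (zx z) i s a y) ^ (2 * q)) ≤
        (C * (∏ l ∈ Finset.range (s + 1), w (i + l)) ^ 2 * (ν * d) ^ s) ^ q := by
  intro s
  induction s using Nat.strong_induction_on with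
  | _ s ih =>
  intro q hq
  rcases Nat.eq_zero_or_pos s with hs | hs
  · subst hs
    refine ⟨1, le_refl _, ?_⟩
    intro n d T b W w ν hb hd hW hw hν hN t ht i a y
    simp only [ch_zero, zero_add, Finset.range_one, Finset.prod_singleton, add_zero, pow_zero,
      mul_one, one_mul]
    rw [Et_const, pow_mul]
    apply pow_le_pow_left₀ (sq_nonneg _)
    rw [← sq_abs]
    exact pow_le_pow_left₀ (abs_nonneg _) (hW _ _ _) 2
  · obtain ⟨s, rfl⟩ : ∃ s', s = s' + 1 := ⟨s - 1, by omega⟩
    have hq1 : 1 ≤ q := le_trans hq0 hq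
    choose! Cf hC1 hCf using fun r (hr : r < s + 1) => ih r hr (2 * q) (by omega)
    set C' : ℝ := ∑ r ∈ Finset.range (s + 1), Cf r with hC'
    have hCle : ∀ r, r < s + 1 → Cf r ≤ C' := by
      intro r hr
      exact Finset.single_le_sum (f := Cf)
        (fun r hr => by linarith [hC1 r (Finset.mem_range.1 hr)]) (Finset.mem_range.2 hr)
    have hC'1 : 1 ≤ C' := le_trans (hC1 0 (by omega)) (hCle 0 (by omega))
    have hcc := one_le_cc q
    refine ⟨2 * cc q * (s + 1) * C' ^ 2, ?_, ?_⟩
    · have h1 : (1 : ℝ) ≤ C' ^ 2 := one_le_pow₀ hC'1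
      have h2 : (1 : ℝ) ≤ (s + 1 : ℝ) := by
        have : (0 : ℝ) ≤ s := by positivity
        linarith
      have h3 : (1 : ℝ) ≤ 2 * cc q := by linarith
      have h4 : (1 : ℝ) ≤ 2 * cc q * (s + 1) := one_le_mul_of_one_le_of_one_le h3 h2
      exact one_le_mul_of_one_le_of_one_le h4 h1
    intro n d T b W w ν hb hd hW hw hν hN t ht i a y
    have hd' : (1 : ℝ) ≤ d := by exact_mod_cast hd
    have hν0 : 0 < ν := by linarith
    set w' : ℝ := ∏ l ∈ Finset.range (s + 1 + 1), w (i + l) with hw'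
    have hw'0 : 0 < w' := Finset.prod_pos fun l _ => hw _
    set B : ℝ := (s + 1) * ν * (C' ^ 2 * w' ^ 2 * (ν * d) ^ s) with hB
    have hB0 : 0 < B := by positivity
    -- bound for the derivative
    have hD : ∀ t ≤ d, Et b T t (fun z S => DD W i (s + 1) a y z S ^ (2 * q)) ≤ B ^ q := by
      intro t ht
      refine (Et_mono hb T t (fun z S => DD_le W i s q hq1 a y z S)).trans ?_
      rw [Et_sum]
      have hterm : ∀ r ∈ Finset.range (s + 1), ∀ x : Z n,
          Et b T t (fun z _ => (ch W (zx z) i r a x) ^ (2 * q) *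
            (ch W (zx z) (i + r + 1) (s - r) x y) ^ (2 * q)) ≤
          (C' ^ 2 * w' ^ 2 * (ν * d) ^ s) ^ q := by
        intro r hr x
        have hr' := Finset.mem_range.1 hr
        have hr1 : 0 < Cf r := by linarith [hC1 r hr']
        have hr2 : 0 < Cf (s - r) := by linarith [hC1 (s - r) (by omega)]
        have hp1 : 0 < ∏ l ∈ Finset.range (r + 1), w (i + l) := Finset.prod_pos fun l _ => hw _
        have hp2 : 0 < ∏ l ∈ Finset.range (s - r + 1), w (i + r + 1 + l) :=
          Finset.prod_pos fun l _ => hw _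
        have hU := hCf r hr' n d T b W w ν hb hd hW hw hν hN t ht i a x
        have hV := hCf (s - r) (by omega) n d T b W w ν hb hd hW hw hν hN t ht (i + r + 1) x y
        have := Et_cs hb T t (fun z _ => (ch W (zx z) i r a x) ^ (2 * q))
          (fun z _ => (ch W (zx z) (i + r + 1) (s - r) x y) ^ (2 * q))
          ((Cf r * (∏ l ∈ Finset.range (r + 1), w (i + l)) ^ 2 * (ν * d) ^ r) ^ q)
          ((Cf (s - r) * (∏ l ∈ Finset.range (s - r + 1), w (i + r + 1 + l)) ^ 2 *
            (ν * d) ^ (s - r)) ^ q)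
          (by positivity) (by positivity)
          (by
            simp only [← pow_mul]
            rw [show 2 * q * 2 = 2 * (2 * q) by ring, show q * 2 = 2 * q by ring]
            exact hU)
          (by
            simp only [← pow_mul]
            rw [show 2 * q * 2 = 2 * (2 * q) by ring, show q * 2 = 2 * q by ring]
            exact hV)
        refine this.trans ?_
        rw [← mul_pow]
        apply pow_le_pow_left₀ (by positivity)
        have ew : w' = (∏ l ∈ Finset.range (r + 1), w (i + l)) *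
            ∏ l ∈ Finset.range (s - r + 1), w (i + r + 1 + l) := by
          rw [hw', show s + 1 + 1 = (r + 1) + (s - r + 1) by omega, Finset.prod_range_add]
          congr 1
          apply Finset.prod_congr rfl
          intro l _
          congr 1
          omega
        have ep : (ν * d : ℝ) ^ s = (ν * d) ^ r * (ν * d) ^ (s - r) := by
          rw [← pow_add]
          congr 1
          omega
        rw [ew, ep]
        have hcc2 : Cf r * Cf (s - r) ≤ C' ^ 2 := by
          rw [sq]
          exact mul_le_mul (hCle r hr') (hCle _ (by omega)) hr2.le (by linarith)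
        calc Cf r * (∏ l ∈ Finset.range (r + 1), w (i + l)) ^ 2 * (ν * d) ^ r *
              (Cf (s - r) * (∏ l ∈ Finset.range (s - r + 1), w (i + r + 1 + l)) ^ 2 *
              (ν * d) ^ (s - r))
            = (Cf r * Cf (s - r)) * (((∏ l ∈ Finset.range (r + 1), w (i + l)) *
              ∏ l ∈ Finset.range (s - r + 1), w (i + r + 1 + l)) ^ 2 *
              ((ν * d) ^ r * (ν * d) ^ (s - r))) := by ring
          _ ≤ C' ^ 2 * (((∏ l ∈ Finset.range (r + 1), w (i + l)) *
              ∏ l ∈ Finset.range (s - r + 1), w (i + r + 1 + l)) ^ 2 *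
              ((ν * d) ^ r * (ν * d) ^ (s - r))) :=
              mul_le_mul_of_nonneg_right hcc2 (by positivity)
          _ = _ := by ring
      have h1 : ∑ r ∈ Finset.range (s + 1), Et b T t (fun z _ => ∑ x : Z n,
          (ch W (zx z) i r a x) ^ (2 * q) * (ch W (zx z) (i + r + 1) (s - r) x y) ^ (2 * q)) ≤
          ∑ r ∈ Finset.range (s + 1), ∑ _x : Z n, (C' ^ 2 * w' ^ 2 * (ν * d) ^ s) ^ q := by
        apply Finset.sum_le_sum
        intro r hr
        rw [Et_sum]
        exact Finset.sum_le_sum fun x _ => hterm r hr x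
      refine h1.trans ?_
      simp only [Finset.sum_const, Finset.card_range, Finset.card_univ, nsmul_eq_mul]
      have hcard : (Fintype.card (Z n) : ℝ) = 2 ^ n := by
        simp [Z]
      rw [hcard, ← mul_assoc, hB, mul_pow ((s + 1 : ℝ) * ν)]
      apply mul_le_mul_of_nonneg_right _ (by positivity)
      rw [mul_pow]
      push_cast
      have hs1 : (1 : ℝ) ≤ (s : ℝ) + 1 := by
        have : (0 : ℝ) ≤ s := by positivity
        linarith
      apply mul_le_mul (le_self_pow₀ hs1 (by omega)) _ (by positivity) (by positivity)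
      exact hN.trans (pow_le_pow_right₀ hν hq)
    -- induction on time
    have hcB : 0 < cc q * B := by positivity
    have hind : ∀ t ≤ d, Et b T t (fun z _ => (ch W (zx z) i (s + 1) a y) ^ (2 * q)) ≤
        ((t + 1) * (cc q * B)) ^ q := by
      intro t
      induction t with
      | zero =>
        intro _
        rw [Et_zero, zx_zero, ch_at_zero, zero_pow (by omega)]
        positivity
      | succ t iht =>
        intro ht
        have := Et_step hb T t q hq1 (fun z => ch W (zx z) i (s + 1) a y)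
          (DD W i (s + 1) a y) (fun z p u r h0 => DD_spec W i (s + 1) a y z p u r h0)
          ((t + 1) * (cc q * B)) B (by positivity) hB0 (iht (by omega)) (hD t (by omega))
        refine this.trans (le_of_eq ?_)
        push_cast
        ring
    refine (hind t ht).trans ?_
    apply pow_le_pow_left₀ (by positivity)
    have ht' : (t : ℝ) + 1 ≤ 2 * d := by
      have : (t : ℝ) ≤ d := by exact_mod_cast ht
      linarith
    calc ((t : ℝ) + 1) * (cc q * B) ≤ (2 * d) * (cc q * B) :=
          mul_le_mul_of_nonneg_right ht' hcB.le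
      _ = _ := by rw [hB]; ring

end mom

/-! ## from the input to the operator -/

section claim
variable {k n : ℕ}

/-- the chain polynomial -/
noncomputable def PP (u : Pl k n → ℝ) : ℝ :=
  ∑ x : Fin (k + 1) → Z n, linkW x * ∏ i, u (i, x i)

theorem sg_sq (o : Bool) : sg o ^ 2 = 1 := by
  cases o <;> simp [sg]

theorem prod_chainSet (x : Fin (k + 1) → Z n) (F : Pl k n → ℝ) :
    ∏ p ∈ chainSet x, F p = ∏ i, F (i, x i) := by
  unfold chainSet
  rw [Finset.prod_image]
  intro i _ j _ h
  exact (Prod.ext_iff.1 h).1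

theorem mu_eq (b : Pl k n → ℝ) (f : Pl k n → Bool) : mu b f = ∏ p, wt b p (f p) := rfl

theorem Lam_eq {b : Pl k n → ℝ} (hb : ∀ p, |b p| ≤ 1 / 2) (g : (Pl k n → Bool) → ℝ) :
    Lam g b = ∑ f, mu b f * (g f * PP fun p => xiv b p (f p)) := by
  unfold Lam
  have h1 : ∀ x : Fin (k + 1) → Z n, dext g (chainSet x) b =
      ∑ f, mu b f * (g f * ∏ i, xiv b (i, x i) (f (i, x i))) := by
    intro x
    unfold dext
    apply Finset.sum_congr rfl
    intro f _
    have h2 : ∏ p ∈ chainSet x, sg (f p) / 2 =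
        (∏ p ∈ chainSet x, wt b p (f p)) * ∏ i, xiv b (i, x i) (f (i, x i)) := by
      rw [← prod_chainSet x (fun p => xiv b p (f p)), ← Finset.prod_mul_distrib]
      apply Finset.prod_congr rfl
      intro p _
      have h1 := b_sq hb p
      have h3 : 1 - b p ^ 2 ≠ 0 := by
        have : 0 < 1 - b p ^ 2 := by linarith
        exact this.ne'
      unfold wt xiv
      have h4 := sg_sq (f p)
      field_simp
      linear_combination (-(b p)) * h4
    rw [h2, mu_eq, ← Finset.prod_mul_prod_compl (chainSet x)]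
    unfold wt
    ring
  simp only [h1, PP, Finset.mul_sum]
  rw [Finset.sum_comm]
  apply Finset.sum_congr rfl
  intro f _
  apply Finset.sum_congr rfl
  intro x _
  ring

theorem mu_split (b : Pl k n → ℝ) (p : Pl k n) (F : (Pl k n → Bool) → ℝ) :
    ∑ f, mu b f * F f = wt b p false * (∑ f, mu b f * F (Function.update f p false)) +
      wt b p true * (∑ f, mu b f * F (Function.update f p true)) := by
  have hmu : ∀ (o : Bool) (r : {j // j ≠ p} → Bool),
      mu b ((Equiv.funSplitAt p Bool).symm (o, r)) = wt b p o * ∏ j : {j // j ≠ p}, wt b j (r j) := by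
    intro o r
    rw [mu_eq, Fintype.prod_eq_mul_prod_subtype_ne _ p]
    congr 1
    · simp
    · apply Finset.prod_congr rfl
      intro j _
      simp [j.2]
  have hup : ∀ (o o' : Bool) (r : {j // j ≠ p} → Bool),
      Function.update ((Equiv.funSplitAt p Bool).symm (o, r)) p o' =
        (Equiv.funSplitAt p Bool).symm (o', r) := by
    intro o o' r
    funext j
    by_cases hj : j = p
    · subst hj
      simp
    · simp [hj]
  rw [← (Equiv.funSplitAt p Bool).symm.sum_comp, ← (Equiv.funSplitAt p Bool).symm.sum_comp,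
    ← (Equiv.funSplitAt p Bool).symm.sum_comp]
  simp only [Fintype.sum_prod_type, Fintype.sum_bool, hmu, hup]
  have e : ∀ (c : ℝ) (G : ({j // j ≠ p} → Bool) → ℝ), (∑ r : {j // j ≠ p} → Bool,
      c * (∏ j : {j // j ≠ p}, wt b j (r j)) * G r) =
      c * ∑ r : {j // j ≠ p} → Bool, (∏ j : {j // j ≠ p}, wt b j (r j)) * G r := by
    intro c G
    rw [Finset.mul_sum]
    apply Finset.sum_congr rfl
    intro r _
    ring
  simp only [e]
  have hw := wt_sum (b := b) p
  have hw' : wt b p true = 1 - wt b p false := by linarith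
  rw [hw']
  ring

/-- completed bits -/
noncomputable def fz (z : Pl k n → ℝ) (f : Pl k n → Bool) (p : Pl k n) : Bool :=
  if z p = 0 then f p else decide (z p < 0)

/-- completed values -/
noncomputable def cz (b z : Pl k n → ℝ) (f : Pl k n → Bool) (p : Pl k n) : ℝ :=
  if z p = 0 then xiv b p (f p) else z p

/-- final functional -/
noncomputable def PhiF (gv : Bool → ℝ) (z : Pl k n → ℝ) : GTree (Pl k n) Bool → ℝ
  | .leaf ω => gv ω * PP z
  | .node _ _ => 0

theorem fz_update {b : Pl k n → ℝ} (hb : ∀ p, |b p| ≤ 1 / 2) (z : Pl k n → ℝ) (p : Pl k n)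
    (o : Bool) (f : Pl k n → Bool) (hz : z p = 0) :
    fz z (Function.update f p o) = fz (Function.update z p (xiv b p o)) f := by
  funext j
  by_cases hj : j = p
  · subst hj
    simp only [fz, Function.update_self, hz, if_true]
    rw [if_neg (xiv_ne hb _ _), xiv_dec hb]
  · simp only [fz, Function.update_of_ne hj]

theorem cz_update {b : Pl k n → ℝ} (hb : ∀ p, |b p| ≤ 1 / 2) (z : Pl k n → ℝ) (p : Pl k n)
    (o : Bool) (f : Pl k n → Bool) (hz : z p = 0) :
    cz b z (Function.update f p o) = cz b (Function.update z p (xiv b p o)) f := by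
  funext j
  by_cases hj : j = p
  · subst hj
    simp only [cz, Function.update_self, hz, if_true]
    rw [if_neg (xiv_ne hb _ _)]
  · simp only [cz, Function.update_of_ne hj]

theorem sum_prod (b : Pl k n → ℝ) (S : Finset (Pl k n)) (φ : Pl k n → Bool → ℝ) :
    ∑ f : Pl k n → Bool, mu b f * ∏ p ∈ S, φ p (f p) =
      ∏ p ∈ S, (wt b p false * φ p false + wt b p true * φ p true) := by
  have h1 : ∀ f : Pl k n → Bool, mu b f * ∏ p ∈ S, φ p (f p) =
      ∏ p, wt b p (f p) * (if p ∈ S then φ p (f p) else 1) := by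
    intro f
    rw [mu_eq, Finset.prod_mul_distrib]
    congr 1
    rw [Finset.prod_ite_mem, Finset.univ_inter]
  have h2 : ∏ p ∈ S, (wt b p false * φ p false + wt b p true * φ p true) =
      ∏ p, ∑ o : Bool, wt b p o * (if p ∈ S then φ p o else 1) := by
    rw [← Finset.univ_inter S, ← Finset.prod_ite_mem]
    apply Finset.prod_congr rfl
    intro p _
    rw [Fintype.sum_bool]
    by_cases hp : p ∈ S
    · simp only [hp, if_true, Finset.univ_inter]
      ring
    · simp only [hp, if_false, Finset.univ_inter, mul_one]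
      linarith [wt_sum (b := b) p]
  rw [h2, Finset.prod_univ_sum, Fintype.piFinset_univ]
  exact Finset.sum_congr rfl fun f _ => h1 f

theorem leaf_claim {b : Pl k n → ℝ} (hb : ∀ p, |b p| ≤ 1 / 2) (z : Pl k n → ℝ) :
    ∑ f, mu b f * PP (cz b z f) = PP z := by
  simp only [PP, Finset.mul_sum]
  rw [Finset.sum_comm]
  apply Finset.sum_congr rfl
  intro x _
  have h1 : ∀ f : Pl k n → Bool, mu b f * (linkW x * ∏ i, cz b z f (i, x i)) =
      linkW x * (mu b f * ∏ p ∈ chainSet x, (if z p = 0 then xiv b p (f p) else z p)) := by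
    intro f
    rw [prod_chainSet x (fun p => if z p = 0 then xiv b p (f p) else z p)]
    simp only [cz]
    ring
  simp only [h1]
  rw [← Finset.mul_sum, sum_prod b (chainSet x) (fun p o => if z p = 0 then xiv b p o else z p)]
  congr 1
  rw [← prod_chainSet x z]
  apply Finset.prod_congr rfl
  intro p _
  by_cases hp : z p = 0
  · simp only [hp, if_true]
    exact wt_xiv hb p
  · simp only [hp, if_false]
    rw [← add_mul, wt_sum, one_mul]

theorem tree_claim {b : Pl k n → ℝ} (hb : ∀ p, |b p| ≤ 1 / 2) (gv : Bool → ℝ) (t : ℕ) :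
    ∀ (T : GTree (Pl k n) Bool) (z : Pl k n → ℝ), T.depth ≤ t →
    ∑ f, mu b f * (gv (T.eval (fz z f)) * PP (cz b z f)) = ((KK b)^[t] (PhiF gv)) z T := by
  have hleaf : ∀ (ω : Bool) (z : Pl k n → ℝ),
      ∑ f, mu b f * (gv ((GTree.leaf ω : GTree (Pl k n) Bool).eval (fz z f)) * PP (cz b z f)) =
        gv ω * PP z := by
    intro ω z
    rw [← leaf_claim hb z, Finset.mul_sum]
    apply Finset.sum_congr rfl
    intro f _
    simp only [GTree.eval]
    ring
  induction t with
  | zero =>
    intro T z hT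
    cases T with
    | leaf ω => exact hleaf ω z
    | node p s => simp [GTree.depth] at hT
  | succ t ih =>
    intro T z hT
    rw [Function.iterate_succ_apply']
    cases T with
    | leaf ω =>
      simp only [KK]
      exact ih _ _ (by simp [GTree.depth])
    | node p s =>
      simp only [GTree.depth] at hT
      have h1 : (s false).depth ≤ t := by
        have := le_max_left (s false).depth (s true).depth
        omega
      have h2 : (s true).depth ≤ t := by
        have := le_max_right (s false).depth (s true).depth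
        omega
      simp only [KK]
      split_ifs with hz
      · rw [mu_split b p, ← ih _ _ h1, ← ih _ _ h2]
        simp only [fz_update hb z p _ _ hz, cz_update hb z p _ _ hz, GTree.eval]
        have e : ∀ (o : Bool) (f : Pl k n → Bool),
            fz (Function.update z p (xiv b p o)) f p = o := by
          intro o f
          simp only [fz, Function.update_self]
          rw [if_neg (xiv_ne hb _ _), xiv_dec hb]
        simp only [e]
      · rw [← ih _ _ (by cases decide (z p < 0) <;> assumption)]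
        apply Finset.sum_congr rfl
        intro f _
        simp only [GTree.eval]
        have e : fz z f p = decide (z p < 0) := by
          simp only [fz, if_neg hz]
        rw [e]

theorem PP_eq (z : Pl k n → ℝ) (a y : Z n) :
    PP z = ch (fun l x y => if 1 ≤ l ∧ l ≤ k then H x y else 1) (zx z) 0 (k + 1) a y := by
  rw [ch_eq]
  unfold PP
  apply Finset.sum_congr rfl
  intro x _
  have h1 : ¬ (1 ≤ 0 ∧ 0 ≤ k) := by omega
  have h2 : ¬ (1 ≤ 0 + k + 1 ∧ 0 + k + 1 ≤ k) := by omega
  simp only [if_neg h1, if_neg h2, one_mul, mul_one]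
  congr 1
  · unfold linkW
    apply Finset.prod_congr rfl
    intro r _
    have : 1 ≤ 0 + 1 + (r : ℕ) ∧ 0 + 1 + (r : ℕ) ≤ k := by
      have := r.isLt
      omega
    rw [if_pos this]
  · apply Finset.prod_congr rfl
    intro r _
    unfold zx
    rw [dif_pos (by have := r.isLt; omega)]
    congr 2
    ext
    simp

theorem chi_abs {n : ℕ} (y z : Z n) : |chi y z| = 1 := by
  unfold chi
  rw [Finset.abs_prod]
  apply Finset.prod_eq_one
  intro t _
  split_ifs <;> simp

theorem H_abs {n : ℕ} (y z : Z n) : |H y z| = 1 / Real.sqrt (2 ^ n) := by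
  unfold H
  rw [abs_div, chi_abs, abs_of_nonneg (Real.sqrt_nonneg _)]

end claim

end TM

open TM in
theorem tree_mart (k : ℕ) (δ : ℝ) (hδ : 0 < δ) : ∃ C : ℝ, 0 < C ∧ ∀ (n d : ℕ)
    (T : GTree (Pl k n) Bool) (b : Pl k n → ℝ), T.depth ≤ d → 1 ≤ d → (∀ p, |b p| ≤ 1 / 2) →
    |Lam (fun f => if T.eval f then 1 else 0) b| ≤
      C * ((2 : ℝ) ^ n) ^ δ * Real.sqrt ((d : ℝ) ^ (k + 1) / ((2 : ℝ) ^ n) ^ k) := by
  obtain ⟨q0', hq0'⟩ := exists_nat_gt (((k : ℝ) + 1) / (2 * δ))
  set q0 : ℕ := q0' + 1 with hq0def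
  have hq0 : 1 ≤ q0 := by omega
  have hq0r : ((k : ℝ) + 1) / q0 ≤ 2 * δ := by
    have h1 : ((k : ℝ) + 1) / (2 * δ) < q0 := by
      rw [hq0def]
      push_cast
      linarith
    have h2 : (0 : ℝ) < q0 := by positivity
    rw [div_lt_iff₀ (by positivity)] at h1
    rw [div_le_iff₀ h2]
    nlinarith
  obtain ⟨C, hC1, hC⟩ := mom k q0 hq0 (k + 1) q0 le_rfl
  refine ⟨2 * Real.sqrt C, by positivity, ?_⟩
  intro n d T b hT hd hb
  have hN1 : (1 : ℝ) ≤ 2 ^ n := one_le_pow₀ (by norm_num)
  have hN0 : (0 : ℝ) < 2 ^ n := by positivity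
  set ν : ℝ := ((2 : ℝ) ^ n) ^ ((1 : ℝ) / q0) with hν
  have hν1 : 1 ≤ ν := Real.one_le_rpow hN1 (by positivity)
  have hνq : (2 : ℝ) ^ n ≤ ν ^ q0 := by
    have : ν ^ q0 = 2 ^ n := by
      rw [← Real.rpow_natCast ν q0, hν, ← Real.rpow_mul hN0.le, one_div,
        inv_mul_cancel₀ (by positivity), Real.rpow_one]
    rw [this]
  set w : ℕ → ℝ := fun l => if 1 ≤ l ∧ l ≤ k then 1 / Real.sqrt (2 ^ n) else 1 with hw
  have hw0 : ∀ l, 0 < w l := by
    intro l
    rw [hw]
    dsimp only
    split_ifs <;> positivity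
  have key := hC n d T b (fun l x y => if 1 ≤ l ∧ l ≤ k then H x y else 1) w ν hb hd
    (by
      intro l x y
      rw [hw]
      dsimp only
      split_ifs
      · rw [H_abs]
      · simp)
    hw0 hν1 hνq d le_rfl 0 (fun _ => false) (fun _ => false)
  have hwprod : ∏ l ∈ Finset.range (k + 1 + 1), w (0 + l) = (1 / Real.sqrt (2 ^ n)) ^ k := by
    rw [Finset.prod_range_succ, Finset.prod_range_succ']
    have e1 : w (0 + 0) = 1 := by
      rw [hw]; simp
    have e2 : w (0 + (k + 1)) = 1 := by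
      rw [hw]; simp
    rw [e1, e2, mul_one, mul_one]
    rw [Finset.prod_congr rfl (g := fun _ => 1 / Real.sqrt (2 ^ n))]
    · rw [Finset.prod_const, Finset.card_range]
    · intro l hl
      have := Finset.mem_range.1 hl
      rw [hw]
      dsimp only
      rw [if_pos (by omega)]
  rw [hwprod] at key
  have hwsq : ((1 / Real.sqrt (2 ^ n)) ^ k) ^ 2 = 1 / ((2 : ℝ) ^ n) ^ k := by
    rw [← pow_mul, mul_comm k 2, pow_mul, div_pow, Real.sq_sqrt hN0.le, one_pow, div_pow, one_pow]
  rw [hwsq] at key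
  have hd0 : (0 : ℝ) < d := by exact_mod_cast hd
  have hν0 : 0 < ν := by linarith
  set B2 : ℝ := C * (1 / ((2 : ℝ) ^ n) ^ k) * (ν * d) ^ (k + 1) with hB2
  have hB20 : 0 < B2 := by positivity
  set B : ℝ := Real.sqrt B2 with hB
  have hB0 : 0 < B := Real.sqrt_pos.2 hB20
  have hBpow : B2 ^ q0 = B ^ (2 * q0) := by
    rw [pow_mul, hB, Real.sq_sqrt hB20.le]
  rw [hBpow] at key
  have hPP : ∀ z : Pl k n → ℝ, ch (fun l x y => if 1 ≤ l ∧ l ≤ k then H x y else 1) (zx z) 0
      (k + 1) (fun _ => false) (fun _ => false) = PP z := fun z => (PP_eq z _ _).symm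
  simp only [hPP] at key
  -- the functional
  have hLam : Lam (fun f => if T.eval f then 1 else 0) b =
      Et b T d (PhiF (fun o => if o then 1 else 0)) := by
    rw [Lam_eq hb]
    have := tree_claim hb (fun o => if o then (1 : ℝ) else 0) d T 0 hT
    unfold Et
    rw [← this]
    apply Finset.sum_congr rfl
    intro f _
    have e1 : fz (0 : Pl k n → ℝ) f = f := by
      funext p
      simp [fz]
    have e2 : cz b (0 : Pl k n → ℝ) f = fun p => xiv b p (f p) := by
      funext p
      simp [cz]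
    rw [e1, e2]
  have hmain : ∀ (z : Pl k n → ℝ) (S : GTree (Pl k n) Bool),
      |PhiF (fun o => if o then 1 else 0) z S| ≤ B + B / B ^ (2 * q0) * PP z ^ (2 * q0) := by
    intro z S
    have h1 : |PP z| ≤ B + B / B ^ (2 * q0) * PP z ^ (2 * q0) := by
      have h2 : |PP z / B| ≤ 1 + |PP z / B| ^ (2 * q0) := by
        rcases le_total |PP z / B| 1 with h | h
        · have : 0 ≤ |PP z / B| ^ (2 * q0) := by positivity
          linarith
        · have : |PP z / B| ≤ |PP z / B| ^ (2 * q0) := le_self_pow₀ h (by omega)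
          linarith
      have h3 := mul_le_mul_of_nonneg_left h2 hB0.le
      have h4 : B * |PP z / B| = |PP z| := by
        rw [abs_div, abs_of_pos hB0]
        field_simp
      have h5 : |PP z / B| ^ (2 * q0) = PP z ^ (2 * q0) / B ^ (2 * q0) := by
        rw [abs_div, div_pow, abs_of_pos hB0, pow_mul |PP z|, sq_abs, ← pow_mul]
      rw [h4, h5] at h3
      calc |PP z| ≤ _ := h3
        _ = _ := by ring
    have hnn : 0 ≤ B + B / B ^ (2 * q0) * PP z ^ (2 * q0) := le_trans (abs_nonneg _) h1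
    cases S with
    | leaf ω =>
      cases ω
      · simpa [PhiF] using hnn
      · simpa [PhiF] using h1
    | node p s => simpa [PhiF] using hnn
  have hE : Et b T d (fun z _ => B + B / B ^ (2 * q0) * PP z ^ (2 * q0)) ≤ 2 * B := by
    rw [Et_add, Et_const, Et_smul]
    have : B / B ^ (2 * q0) * Et b T d (fun z _ => PP z ^ (2 * q0)) ≤
        B / B ^ (2 * q0) * B ^ (2 * q0) := mul_le_mul_of_nonneg_left key (by positivity)
    have e : B / B ^ (2 * q0) * B ^ (2 * q0) = B := by field_simp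
    linarith
  have hfin : |Lam (fun f => if T.eval f then 1 else 0) b| ≤ 2 * B := by
    rw [hLam, abs_le]
    constructor
    · have h1 := Et_mono hb T d (fun z S => neg_abs_le (PhiF (fun o => if o then (1 : ℝ) else 0) z S))
      have h2 := Et_mono hb T d hmain
      have h3 : Et b T d (fun z S => -|PhiF (fun o => if o then (1 : ℝ) else 0) z S|) =
          - Et b T d (fun z S => |PhiF (fun o => if o then (1 : ℝ) else 0) z S|) := by
        have := Et_smul b T d (-1) (fun z S => |PhiF (fun o => if o then (1 : ℝ) else 0) z S|)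
        simpa using this
      have h4 : Et b T d (fun z S => PhiF (fun o => if o then (1 : ℝ) else 0) z S) =
          Et b T d (PhiF (fun o => if o then (1 : ℝ) else 0)) := rfl
      linarith
    · have h1 := Et_mono hb T d (fun z S => le_abs_self (PhiF (fun o => if o then (1 : ℝ) else 0) z S))
      have h2 := Et_mono hb T d hmain
      have h4 : Et b T d (fun z S => PhiF (fun o => if o then (1 : ℝ) else 0) z S) =
          Et b T d (PhiF (fun o => if o then (1 : ℝ) else 0)) := rfl
      linarith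
  refine hfin.trans ?_
  have hB_le : B ≤ Real.sqrt C * ((2 : ℝ) ^ n) ^ δ *
      Real.sqrt ((d : ℝ) ^ (k + 1) / ((2 : ℝ) ^ n) ^ k) := by
    have e1 : B2 = C * (ν ^ (k + 1)) * ((d : ℝ) ^ (k + 1) / ((2 : ℝ) ^ n) ^ k) := by
      rw [hB2, mul_pow]
      ring
    rw [hB, e1, Real.sqrt_mul (by positivity), Real.sqrt_mul (by positivity)]
    apply mul_le_mul_of_nonneg_right _ (Real.sqrt_nonneg _)
    apply mul_le_mul_of_nonneg_left _ (Real.sqrt_nonneg _)
    rw [Real.sqrt_le_left (by positivity)]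
    rw [← Real.rpow_natCast ν (k + 1), hν, ← Real.rpow_mul hN0.le,
      ← Real.rpow_natCast (((2 : ℝ) ^ n) ^ δ) 2, ← Real.rpow_mul hN0.le]
    apply Real.rpow_le_rpow_of_exponent_le hN1
    push_cast
    calc (1 : ℝ) / q0 * (k + 1) = (k + 1) / q0 := by ring
      _ ≤ 2 * δ := hq0r
      _ = δ * 2 := by ring
  calc 2 * B ≤ 2 * (Real.sqrt C * ((2 : ℝ) ^ n) ^ δ *
      Real.sqrt ((d : ℝ) ^ (k + 1) / ((2 : ℝ) ^ n) ^ k)) := by linarith
    _ = _ := by ring

end Crest.Agent.QGap
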