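import Crest.Agent.QGap.Interp
import Crest.Agent.QGap.Tail
import Crest.Agent.QGap.TreeMart

/-!
# S0554, module L5: advantage of a decision tree (owner helper10)
-/

set_option autoImplicit false
set_option linter.unusedSectionVars false
set_option linter.unusedSimpArgs false

namespace Crest.Agent.QGap

open Matrix BigOperators MeasureTheory ProbabilityTheory

namespace Adv10

open L3

section general
variable {I : Type} [Fintype I] [DecidableEq I]

theorem sum_prod_bool (u : I → Bool → ℝ) :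
    ∑ f : I → Bool, ∏ i, u i (f i) = ∏ i, (u i true + u i false) := by
  have h := Finset.prod_univ_sum (fun _ : I => (Finset.univ : Finset Bool)) u
  rw [Fintype.piFinset_univ] at h
  rw [← h]
  exact Finset.prod_congr rfl fun i _ => Fintype.sum_bool _

theorem abs_sg (b : Bool) : |sg b| = 1 := by
  cases b <;> simp [sg]

theorem mu_sum (b : I → ℝ) : ∑ f, mu b f = 1 := by
  unfold mu
  rw [sum_prod_bool (fun i o => (1 + b i * sg o) / 2)]
  refine Finset.prod_eq_one fun i _ => ?_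
  simp only [sg]
  norm_num
  ring

theorem mu_nonneg {b : I → ℝ} (hb : ∀ i, |b i| ≤ 1) (f : I → Bool) : 0 ≤ mu b f := by
  unfold mu
  refine Finset.prod_nonneg fun i _ => ?_
  have h1 : |b i * sg (f i)| ≤ 1 := by rw [abs_mul, abs_sg, mul_one]; exact hb i
  have h2 := (abs_le.1 h1).1
  linarith

theorem mu_le_one {b : I → ℝ} (hb : ∀ i, |b i| ≤ 1) (f : I → Bool) : mu b f ≤ 1 := by
  rw [← mu_sum b]
  exact Finset.single_le_sum (fun g _ => mu_nonneg hb g) (Finset.mem_univ f)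

theorem unif_sum : ∑ _f : I → Bool, unif I = 1 := by
  unfold unif
  rw [Finset.sum_const, Finset.card_univ, Fintype.card_fun, Fintype.card_bool, nsmul_eq_mul]
  push_cast
  rw [← mul_pow]
  norm_num

theorem unif_pos : 0 < unif I := by unfold unif; positivity

theorem unif_le_one : unif I ≤ 1 := by
  unfold unif
  exact pow_le_one₀ (by norm_num) (by norm_num)

theorem mu_zero (f : I → Bool) : mu 0 f = unif I := by
  unfold mu unif
  simp

theorem half_abs (b : ℝ) : |(1 + b) / 2| + |(1 - b) / 2| ≤ max 1 |b| := by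
  rw [abs_div, abs_div, abs_two]
  have h1 := le_max_left 1 |b|
  have h2 := le_max_right 1 |b|
  have h3 := le_abs_self b
  have h4 := neg_le_abs b
  rcases abs_cases (1 + b) with ⟨h5, _⟩ | ⟨h5, _⟩ <;> rcases abs_cases (1 - b) with ⟨h6, _⟩ | ⟨h6, _⟩
    <;> rw [h5, h6] <;> linarith

theorem abs_dext_le {g : (I → Bool) → ℝ} {M : ℝ} (hg : ∀ f, |g f| ≤ M) (S : Finset I)
    (b : I → ℝ) : |dext g S b| ≤ M * ∏ i, max 1 |b i| := by
  have hM : 0 ≤ M := (abs_nonneg _).trans (hg fun _ => false)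
  have h1 : ∀ f : I → Bool, |g f * ((∏ i ∈ S, sg (f i) / 2) * ∏ i ∈ Sᶜ, (1 + b i * sg (f i)) / 2)|
      ≤ M * ∏ i, (if i ∈ S then 1 / 2 else |(1 + b i * sg (f i)) / 2|) := by
    intro f
    rw [abs_mul]
    refine mul_le_mul (hg f) ?_ (abs_nonneg _) hM
    rw [abs_mul, Finset.abs_prod, Finset.abs_prod,
      ← Finset.prod_mul_prod_compl S (fun i => if i ∈ S then (1 / 2 : ℝ) else
        |(1 + b i * sg (f i)) / 2|)]
    refine le_of_eq ?_
    congr 1
    · refine Finset.prod_congr rfl fun i hi => ?_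
      rw [if_pos hi, abs_div, abs_sg, abs_two]
    · refine Finset.prod_congr rfl fun i hi => ?_
      rw [if_neg (Finset.mem_compl.1 hi)]
  unfold dext
  refine (Finset.abs_sum_le_sum_abs _ _).trans ((Finset.sum_le_sum fun f _ => h1 f).trans ?_)
  rw [← Finset.mul_sum,
    sum_prod_bool (fun i o => if i ∈ S then (1 / 2 : ℝ) else |(1 + b i * sg o) / 2|)]
  refine mul_le_mul_of_nonneg_left (Finset.prod_le_prod (fun i _ => ?_) fun i _ => ?_) hM
  · split_ifs <;> positivity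
  · split_ifs
    · refine le_trans ?_ (le_max_left _ _)
      norm_num
    · refine le_trans (le_of_eq ?_) (half_abs (b i))
      simp only [sg]
      norm_num
      rw [add_comm]
      rfl

theorem abs_ext_le {g : (I → Bool) → ℝ} {M : ℝ} (hg : ∀ f, |g f| ≤ M)
    (b : I → ℝ) : |ext g b| ≤ M * ∏ i, max 1 |b i| := by
  rw [ext_eq_dext]
  exact abs_dext_le hg ∅ b

end general

section planes
variable {k n : ℕ}

/-- the `β` factor of the bias -/
noncomputable def bB (ε : ℝ) (α : Fin k × Z n → ℝ) (p : Pl k n) : ℝ :=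
  if h : 0 < (p.1 : ℕ) then ε * beta α ⟨(p.1 : ℕ) - 1, by have := p.1.isLt; omega⟩ p.2 else 1

/-- the `α` factor of the bias -/
noncomputable def bA (ε : ℝ) (α : Fin k × Z n → ℝ) (p : Pl k n) : ℝ :=
  if h : (p.1 : ℕ) < k then ε * α (⟨(p.1 : ℕ), h⟩, p.2) else 1

theorem bvec_eq (ε lam : ℝ) (α : Fin k × Z n → ℝ) (p : Pl k n) :
    bvec ε lam α p = (if (p.1 : ℕ) = 0 then lam else 1) * (bB ε α p * bA ε α p) := rfl

theorem measurable_beta (i : Fin k) (y : Z n) :
    Measurable fun α : Fin k × Z n → ℝ => beta α i y := by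
  unfold beta
  fun_prop

theorem measurable_bvec (ε lam : ℝ) (p : Pl k n) :
    Measurable fun α : Fin k × Z n → ℝ => bvec ε lam α p := by
  unfold bvec
  refine Measurable.mul measurable_const (Measurable.mul ?_ ?_)
  · by_cases h : 0 < (p.1 : ℕ)
    · simp only [dif_pos h]
      exact (measurable_beta _ _).const_mul _
    · simp only [dif_neg h]
      exact measurable_const
  · by_cases h : (p.1 : ℕ) < k
    · simp only [dif_pos h]
      fun_prop
    · simp only [dif_neg h]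
      exact measurable_const

theorem measurableSet_good (ε : ℝ) : MeasurableSet {α : Fin k × Z n → ℝ | good ε α} := by
  unfold good
  simp only [Set.ofPred_forall]
  refine MeasurableSet.iInter fun i => MeasurableSet.iInter fun x => ?_
  refine MeasurableSet.inter ?_ ?_
  · have h1 : Measurable fun α : Fin k × Z n → ℝ => α (i, x) := measurable_pi_apply (i, x)
    exact measurableSet_le (continuous_abs.measurable.comp (h1.const_mul ε)) measurable_const
  · exact measurableSet_le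
      (continuous_abs.measurable.comp ((measurable_beta i x).const_mul ε)) measurable_const

theorem measurable_mu (ε lam : ℝ) (f : Pl k n → Bool) :
    Measurable fun α : Fin k × Z n → ℝ => mu (bvec ε lam α) f := by
  unfold mu
  refine Finset.measurable_prod _ fun p _ => ?_
  exact ((measurable_const.add ((measurable_bvec ε lam p).mul_const _))).div_const _

theorem prod_bB (ε : ℝ) (α : Fin k × Z n → ℝ) :
    ∏ p, max 1 |bB ε α p| = ∏ i : Fin k, ∏ x : Z n, max 1 |ε * beta α i x| := by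
  rw [Fintype.prod_prod_type, Fin.prod_univ_succ]
  have h0 : ∏ z : Z n, max 1 |bB ε α (0, z)| = 1 := by
    refine Finset.prod_eq_one fun z _ => ?_
    unfold bB
    rw [dif_neg (by simp)]
    simp
  rw [h0, one_mul]
  refine Finset.prod_congr rfl fun i _ => Finset.prod_congr rfl fun z _ => ?_
  unfold bB
  rw [dif_pos (by simp)]
  rfl

theorem prod_bA (ε : ℝ) (α : Fin k × Z n → ℝ) :
    ∏ p, max 1 |bA ε α p| = ∏ i : Fin k, ∏ x : Z n, max 1 |ε * α (i, x)| := by
  rw [Fintype.prod_prod_type, Fin.prod_univ_castSucc]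
  have h0 : ∏ z : Z n, max 1 |bA ε α (Fin.last k, z)| = 1 := by
    refine Finset.prod_eq_one fun z _ => ?_
    unfold bA
    rw [dif_neg (by simp)]
    simp
  rw [h0, mul_one]
  refine Finset.prod_congr rfl fun i _ => Finset.prod_congr rfl fun z _ => ?_
  unfold bA
  rw [dif_pos (by simp)]
  rfl

theorem abs_lam {p : Pl k n} {lam : ℝ} (h0 : 0 ≤ lam) (h1 : lam ≤ 1) :
    |(if (p.1 : ℕ) = 0 then lam else 1)| ≤ 1 := by
  split_ifs
  · rw [abs_of_nonneg h0]; exact h1
  · simp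

theorem prod_bvec_le (ε : ℝ) {lam : ℝ} (h0 : 0 ≤ lam) (h1 : lam ≤ 1) (α : Fin k × Z n → ℝ) :
    ∏ p, max 1 |bvec ε lam α p| ≤ grow ε α := by
  have h2 : ∀ p : Pl k n, max 1 |bvec ε lam α p| ≤ max 1 |bA ε α p| * max 1 |bB ε α p| := by
    intro p
    have hA : (1 : ℝ) ≤ max 1 |bA ε α p| := le_max_left _ _
    have hB : (1 : ℝ) ≤ max 1 |bB ε α p| := le_max_left _ _
    refine max_le (one_le_mul_of_one_le_of_one_le hA hB) ?_
    rw [bvec_eq, abs_mul, abs_mul, mul_comm |bB ε α p|]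
    calc |(if (p.1 : ℕ) = 0 then lam else 1)| * (|bA ε α p| * |bB ε α p|)
        ≤ 1 * (max 1 |bA ε α p| * max 1 |bB ε α p|) := by
          refine mul_le_mul (abs_lam h0 h1) ?_ (by positivity) zero_le_one
          exact mul_le_mul (le_max_right _ _) (le_max_right _ _) (abs_nonneg _)
            (zero_le_one.trans hA)
      _ = _ := one_mul _
  refine (Finset.prod_le_prod (fun p _ => zero_le_one.trans (le_max_left _ _)) fun p _ => h2 p).trans
    (le_of_eq ?_)
  rw [Finset.prod_mul_distrib, prod_bA, prod_bB]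
  unfold grow
  simp_rw [Finset.prod_mul_distrib]

theorem one_le_grow (ε : ℝ) (α : Fin k × Z n → ℝ) : 1 ≤ grow ε α := by
  refine le_trans ?_ (prod_bvec_le ε zero_le_one le_rfl α)
  calc (1 : ℝ) = ∏ _p : Pl k n, 1 := by simp
    _ ≤ _ := Finset.prod_le_prod (fun _ _ => zero_le_one) fun p _ => le_max_left _ _

theorem good_bA {ε : ℝ} {α : Fin k × Z n → ℝ} (hα : good ε α) (p : Pl k n) :
    |bA ε α p| ≤ 1 ∧ ((p.1 : ℕ) < k → |bA ε α p| ≤ 1 / 2) := by
  unfold bA
  by_cases h : (p.1 : ℕ) < k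
  · rw [dif_pos h]
    have := (hα ⟨(p.1 : ℕ), h⟩ p.2).1
    exact ⟨this.trans (by norm_num), fun _ => this⟩
  · rw [dif_neg h]
    exact ⟨by simp, fun h' => absurd h' h⟩

theorem good_bB {ε : ℝ} {α : Fin k × Z n → ℝ} (hα : good ε α) (p : Pl k n) :
    |bB ε α p| ≤ 1 ∧ (0 < (p.1 : ℕ) → |bB ε α p| ≤ 1 / 2) := by
  unfold bB
  by_cases h : 0 < (p.1 : ℕ)
  · rw [dif_pos h]
    have := (hα ⟨(p.1 : ℕ) - 1, by have := p.1.isLt; omega⟩ p.2).2
    exact ⟨this.trans (by norm_num), fun _ => this⟩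
  · rw [dif_neg h]
    exact ⟨by simp, fun h' => absurd h' h⟩

theorem good_bvec_one {ε lam : ℝ} (h0 : 0 ≤ lam) (h1 : lam ≤ 1) {α : Fin k × Z n → ℝ}
    (hα : good ε α) (p : Pl k n) : |bvec ε lam α p| ≤ 1 := by
  rw [bvec_eq, abs_mul, abs_mul]
  exact mul_le_one₀ (abs_lam h0 h1) (by positivity)
    (mul_le_one₀ (good_bB hα p).1 (abs_nonneg _) (good_bA hα p).1)

theorem good_bvec {ε lam : ℝ} (hk : 1 ≤ k) (h0 : 0 ≤ lam) (h1 : lam ≤ 1) {α : Fin k × Z n → ℝ}
    (hα : good ε α) (p : Pl k n) : |bvec ε lam α p| ≤ 1 / 2 := by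
  rw [bvec_eq, abs_mul, abs_mul]
  have h2 : |bB ε α p| * |bA ε α p| ≤ 1 / 2 := by
    by_cases h : 0 < (p.1 : ℕ)
    · calc |bB ε α p| * |bA ε α p| ≤ 1 / 2 * 1 :=
          mul_le_mul ((good_bB hα p).2 h) (good_bA hα p).1 (abs_nonneg _) (by norm_num)
        _ = 1 / 2 := mul_one _
    · calc |bB ε α p| * |bA ε α p| ≤ 1 * (1 / 2) :=
          mul_le_mul (good_bB hα p).1 ((good_bA hα p).2 (by omega)) (abs_nonneg _) (by norm_num)
        _ = 1 / 2 := one_mul _
  calc _ ≤ 1 * (1 / 2) := mul_le_mul (abs_lam h0 h1) h2 (by positivity) zero_le_one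
    _ = 1 / 2 := one_mul _

/-! ### the planted distribution -/

open Classical in
theorem integrable_nu (ε : ℝ) (f : Pl k n → Bool) :
    Integrable (fun α : Fin k × Z n → ℝ => if good ε α then mu (bvec ε 1 α) f else unif (Pl k n))
      (gam (Fin k × Z n)) := by
  refine Integrable.of_bound
    (Measurable.ite (measurableSet_good ε) (measurable_mu ε 1 f) measurable_const).aestronglyMeasurable
    1 (ae_of_all _ fun α => ?_)
  rw [Real.norm_eq_abs]
  split_ifs with h
  · rw [abs_of_nonneg (mu_nonneg (good_bvec_one zero_le_one le_rfl h) f)]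
    exact mu_le_one (good_bvec_one zero_le_one le_rfl h) f
  · rw [abs_of_pos unif_pos]
    exact unif_le_one

theorem nu_nonneg' (ε : ℝ) (f : Pl k n → Bool) : 0 ≤ nu ε f := by
  unfold nu
  refine integral_nonneg fun α => ?_
  dsimp only
  split_ifs with h
  · exact mu_nonneg (good_bvec_one zero_le_one le_rfl h) f
  · exact unif_pos.le

open Classical in
theorem nu_avg (ε : ℝ) (g : (Pl k n → Bool) → ℝ) :
    ∑ f, nu ε f * g f = ∫ α : Fin k × Z n → ℝ,
      (if good ε α then ext g (bvec ε 1 α) else ∑ f, g f * unif (Pl k n))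
        ∂(gam (Fin k × Z n)) := by
  have h1 : ∀ f, nu ε f * g f = ∫ α : Fin k × Z n → ℝ,
      (if good ε α then mu (bvec ε 1 α) f else unif (Pl k n)) * g f ∂(gam (Fin k × Z n)) := by
    intro f
    unfold nu
    rw [integral_mul_const]
  rw [Finset.sum_congr rfl fun f _ => h1 f,
    ← integral_finsetSum _ fun f _ => (integrable_nu ε f).mul_const _]
  refine integral_congr_ae (ae_of_all _ fun α => ?_)
  dsimp only
  split_ifs
  · unfold ext
    exact Finset.sum_congr rfl fun f _ => mul_comm _ _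
  · exact Finset.sum_congr rfl fun f _ => mul_comm _ _

theorem nu_sum' (ε : ℝ) : ∑ f : Pl k n → Bool, nu ε f = 1 := by
  classical
  have h := nu_avg (k := k) (n := n) ε (fun _ => 1)
  simp only [mul_one, one_mul] at h
  rw [h]
  have h2 : ∀ α : Fin k × Z n → ℝ, (if good ε α then ext (fun _ : Pl k n → Bool => (1 : ℝ))
      (bvec ε 1 α) else ∑ _f : Pl k n → Bool, unif (Pl k n)) = 1 := by
    intro α
    split_ifs
    · unfold ext
      simp only [one_mul]
      exact mu_sum _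
    · exact unif_sum
  simp_rw [h2]
  simp

open Classical in
theorem integrable_bad (ε : ℝ) :
    Integrable (fun α : Fin k × Z n → ℝ => if good ε α then 0 else grow ε α)
      (gam (Fin k × Z n)) := by
  have h := (grow_integrable (k := k) (n := n) ε).indicator (measurableSet_good ε).compl
  refine h.congr (ae_of_all _ fun α => ?_)
  by_cases hα : good ε α
  · simp [Set.indicator, hα]
  · simp [Set.indicator, hα]

open Classical in
theorem nu_ext' (ε M : ℝ) (g : (Pl k n → Bool) → ℝ) (hg : ∀ f, |g f| ≤ M) :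
    |∑ f, nu ε f * g f - ∫ α : Fin k × Z n → ℝ, ext g (bvec ε 1 α) ∂(gam (Fin k × Z n))| ≤
      2 * M * ∫ α : Fin k × Z n → ℝ, (if good ε α then 0 else grow ε α)
        ∂(gam (Fin k × Z n)) := by
  have hM : 0 ≤ M := (abs_nonneg _).trans (hg fun _ => false)
  have hext : Integrable (fun α : Fin k × Z n → ℝ => ext g (bvec ε 1 α)) (gam (Fin k × Z n)) := by
    simp_rw [ext_eq_dext]
    exact (integral_dext g ε 1 ∅).1
  have hu : |∑ f, g f * unif (Pl k n)| ≤ M := by
    refine (Finset.abs_sum_le_sum_abs _ _).trans ?_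
    calc ∑ f, |g f * unif (Pl k n)| ≤ ∑ _f : Pl k n → Bool, M * unif (Pl k n) := by
          refine Finset.sum_le_sum fun f _ => ?_
          rw [abs_mul, abs_of_pos unif_pos]
          exact mul_le_mul_of_nonneg_right (hg f) unif_pos.le
      _ = M := by rw [← Finset.mul_sum, unif_sum, mul_one]
  have hi1 : Integrable (fun α : Fin k × Z n → ℝ =>
      (if good ε α then ext g (bvec ε 1 α) else ∑ f, g f * unif (Pl k n)))
      (gam (Fin k × Z n)) := by
    have h1 : Integrable (fun α : Fin k × Z n → ℝ => ∑ f,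
        (if good ε α then mu (bvec ε 1 α) f else unif (Pl k n)) * g f) (gam (Fin k × Z n)) :=
      integrable_finsetSum _ fun f _ => (integrable_nu ε f).mul_const _
    refine h1.congr (ae_of_all _ fun α => ?_)
    dsimp only
    split_ifs
    · unfold ext
      exact Finset.sum_congr rfl fun f _ => mul_comm _ _
    · exact Finset.sum_congr rfl fun f _ => mul_comm _ _
  rw [nu_avg, ← integral_sub hi1 hext, ← integral_const_mul]
  refine (abs_integral_le_integral_abs).trans ?_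
  refine integral_mono (hi1.sub hext).abs ((integrable_bad ε).const_mul _) fun α => ?_
  dsimp only
  split_ifs with h
  · simp
  · have h3 : |ext g (bvec ε 1 α)| ≤ M * grow ε α :=
      (abs_ext_le hg _).trans (mul_le_mul_of_nonneg_left
        (prod_bvec_le ε zero_le_one le_rfl α) hM)
    have h4 : M ≤ M * grow ε α := le_mul_of_one_le_right hM (one_le_grow ε α)
    calc _ ≤ |∑ f, g f * unif (Pl k n)| + |ext g (bvec ε 1 α)| := abs_sub _ _
      _ ≤ 2 * M * grow ε α := by linarith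

/-! ### the chain functional -/

theorem abs_H_le (x y : Z n) : |H x y| ≤ 1 := by
  have h := H_sq x y
  have h1 : (1 : ℝ) ≤ 2 ^ n := one_le_pow₀ (by norm_num)
  have h2 : (1 : ℝ) / 2 ^ n ≤ 1 := by
    rw [div_le_one (by positivity)]
    exact h1
  rw [← h] at h2
  exact (sq_le_one_iff_abs_le_one _).1 h2

theorem abs_linkW_le (x : Fin (k + 1) → Z n) : |linkW x| ≤ 1 := by
  unfold linkW
  rw [Finset.abs_prod]
  exact Finset.prod_le_one (fun _ _ => abs_nonneg _) fun _ _ => abs_H_le _ _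

theorem abs_Lam_le {g : (Pl k n → Bool) → ℝ} (hg : ∀ f, |g f| ≤ 1) (b : Pl k n → ℝ) :
    |Lam g b| ≤ ((2 : ℝ) ^ n) ^ (k + 1) * ∏ p, max 1 |b p| := by
  unfold Lam
  refine (Finset.abs_sum_le_sum_abs _ _).trans ?_
  calc ∑ x : Fin (k + 1) → Z n, |linkW x * dext g (chainSet x) b|
      ≤ ∑ _x : Fin (k + 1) → Z n, ∏ p, max 1 |b p| := by
        refine Finset.sum_le_sum fun x _ => ?_
        rw [abs_mul]
        have h := abs_dext_le hg (chainSet x) b
        rw [one_mul] at h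
        calc |linkW x| * |dext g (chainSet x) b| ≤ 1 * ∏ p, max 1 |b p| :=
              mul_le_mul (abs_linkW_le x) h (abs_nonneg _) zero_le_one
          _ = _ := one_mul _
    _ = _ := by
        rw [Finset.sum_const, Finset.card_univ, nsmul_eq_mul]
        congr 1
        simp [Fintype.card_fun, Fintype.card_fin, Fintype.card_bool]

open Classical in
theorem int_Lam_le (hk : 1 ≤ k) {g : (Pl k n → Bool) → ℝ} (hg : ∀ f, |g f| ≤ 1) {B : ℝ}
    (hB0 : 0 ≤ B) (hB : ∀ b : Pl k n → ℝ, (∀ p, |b p| ≤ 1 / 2) → |Lam g b| ≤ B) (ε lam : ℝ)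
    (h0 : 0 ≤ lam) (h1 : lam ≤ 1) :
    |∫ α : Fin k × Z n → ℝ, Lam g (bvec ε lam α) ∂(gam (Fin k × Z n))| ≤
      B + ((2 : ℝ) ^ n) ^ (k + 1) * ∫ α : Fin k × Z n → ℝ, (if good ε α then 0 else grow ε α)
        ∂(gam (Fin k × Z n)) := by
  have hL : Integrable (fun α : Fin k × Z n → ℝ => Lam g (bvec ε lam α)) (gam (Fin k × Z n)) := by
    unfold Lam
    exact integrable_finsetSum _ fun x _ => (integral_dext g ε lam _).1.const_mul _
  refine (abs_integral_le_integral_abs).trans ?_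
  have h2 : ∫ α : Fin k × Z n → ℝ, (B + ((2 : ℝ) ^ n) ^ (k + 1) *
      (if good ε α then 0 else grow ε α)) ∂(gam (Fin k × Z n)) =
      B + ((2 : ℝ) ^ n) ^ (k + 1) * ∫ α : Fin k × Z n → ℝ, (if good ε α then 0 else grow ε α)
        ∂(gam (Fin k × Z n)) := by
    rw [integral_add (integrable_const _) ((integrable_bad ε).const_mul _), integral_const_mul]
    simp
  rw [← h2]
  refine integral_mono hL.abs ((integrable_const _).add ((integrable_bad ε).const_mul _))
    fun α => ?_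
  dsimp only
  split_ifs with h
  · rw [mul_zero, add_zero]
    exact hB _ (good_bvec hk h0 h1 h)
  · refine le_trans ?_ (le_add_of_nonneg_left hB0)
    exact (abs_Lam_le hg _).trans (mul_le_mul_of_nonneg_left (prod_bvec_le ε h0 h1 α)
      (by positivity))

theorem adv' (k : ℕ) (hk : 1 ≤ k) : ∃ C₀ C₁ : ℝ, 1 ≤ C₀ ∧ 0 < C₁ ∧ ∀ n : ℕ, 1 ≤ n → ∀ ε : ℝ,
    0 < ε → ε ^ 2 * (C₀ * n) ≤ 1 → ∀ (d : ℕ) (T : GTree (Pl k n) Bool), T.depth ≤ d → 1 ≤ d →
    (d : ℝ) ≤ ((2 : ℝ) ^ n) ^ (1 - 1 / (k : ℝ)) →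
    |∑ f, (nu ε f - unif (Pl k n)) * (if T.eval f then 1 else 0)| ≤
      C₁ * ((2 : ℝ) ^ n) ^ (-(1 / (4 * (k : ℝ)))) := by
  classical
  have hk0 : (0 : ℝ) < k := by exact_mod_cast hk
  obtain ⟨C₀, hC₀, htail⟩ := tail k (k + 2)
  obtain ⟨C, hC, htree⟩ := tree_mart k (1 / (4 * (k : ℝ))) (by positivity)
  refine ⟨C₀, C + 3, hC₀, by linarith, fun n hn ε hε hε2 d T hT hd hdN => ?_⟩
  set N : ℝ := (2 : ℝ) ^ n with hN
  have hN1 : (1 : ℝ) ≤ N := one_le_pow₀ (by norm_num)
  have hN0 : 0 < N := by positivity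
  set g : (Pl k n → Bool) → ℝ := fun f => if T.eval f then 1 else 0 with hgdef
  have hg : ∀ f, |g f| ≤ 1 := by
    intro f
    simp only [hgdef]
    split_ifs <;> simp
  have htl := htail n hn ε hε hε2
  -- rpow estimates
  have hr : ∀ e : ℝ, 1 / (4 * (k : ℝ)) ≤ e → N ^ (-e) ≤ N ^ (-(1 / (4 * (k : ℝ)))) := fun e he =>
    Real.rpow_le_rpow_of_exponent_le hN1 (by linarith)
  have hk4 : 1 / (4 * (k : ℝ)) ≤ 1 := by
    rw [div_le_one (by positivity)]
    have : (1 : ℝ) ≤ k := by exact_mod_cast hk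
    linarith
  have hr1 : 1 / N ≤ N ^ (-(1 / (4 * (k : ℝ)))) := by
    have h := hr 1 hk4
    rwa [Real.rpow_neg hN0.le, Real.rpow_one, ← one_div] at h
  have hr2 : 1 / N ^ (k + 2) ≤ N ^ (-(1 / (4 * (k : ℝ)))) := by
    refine le_trans ?_ hr1
    refine one_div_le_one_div_of_le hN0 ?_
    exact le_self_pow₀ hN1 (by omega)
  -- first difference
  have h1 := nu_ext' ε 1 g hg
  have h1' : |∑ f, nu ε f * g f - ∫ α : Fin k × Z n → ℝ, ext g (bvec ε 1 α)
      ∂(gam (Fin k × Z n))| ≤ 2 * N ^ (-(1 / (4 * (k : ℝ)))) := by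
    refine h1.trans ?_
    rw [mul_one]
    exact mul_le_mul_of_nonneg_left (htl.trans hr2) (by norm_num)
  -- the tree bound
  set B : ℝ := C * N ^ (1 / (4 * (k : ℝ))) * Real.sqrt ((d : ℝ) ^ (k + 1) / N ^ k) with hBdef
  have hB0 : 0 ≤ B := by positivity
  have hB : ∀ b : Pl k n → ℝ, (∀ p, |b p| ≤ 1 / 2) → |Lam g b| ≤ B := fun b hb =>
    htree n d T b hT hd hb
  have h2 := interp hk g ε (B + N ^ (k + 1) * (1 / N ^ (k + 2))) hε.le fun lam h0 h1 => by
    refine (int_Lam_le hk hg hB0 hB ε lam h0 h1).trans ?_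
    exact add_le_add le_rfl (mul_le_mul_of_nonneg_left htl (by positivity))
  have hε1 : ε ^ (2 * k) ≤ 1 := by
    rw [pow_mul]
    refine pow_le_one₀ (by positivity) ?_
    have h3 : (1 : ℝ) ≤ C₀ * n := by
      have : (1 : ℝ) ≤ n := by exact_mod_cast hn
      nlinarith
    nlinarith [sq_nonneg ε]
  have hs : Real.sqrt ((d : ℝ) ^ (k + 1) / N ^ k) ≤ N ^ (-(1 / (2 * (k : ℝ)))) := by
    have h3 : (d : ℝ) ^ (k + 1) / N ^ k ≤ (N ^ (-(1 / (2 * (k : ℝ))))) ^ 2 := by
      have h4 : (d : ℝ) ^ (k + 1) ≤ (N ^ (1 - 1 / (k : ℝ))) ^ (k + 1) :=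
        pow_le_pow_left₀ (Nat.cast_nonneg _) hdN _
      rw [div_le_iff₀ (by positivity)]
      refine h4.trans (le_of_eq ?_)
      rw [← Real.rpow_natCast, ← Real.rpow_mul hN0.le, ← Real.rpow_natCast _ 2,
        ← Real.rpow_mul hN0.le, ← Real.rpow_natCast N k, ← Real.rpow_add hN0]
      congr 1
      push_cast
      field_simp
      ring
    calc Real.sqrt ((d : ℝ) ^ (k + 1) / N ^ k) ≤ Real.sqrt ((N ^ (-(1 / (2 * (k : ℝ))))) ^ 2) :=
          Real.sqrt_le_sqrt h3
      _ = _ := Real.sqrt_sq (by positivity)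
  have hBle : B ≤ C * N ^ (-(1 / (4 * (k : ℝ)))) := by
    calc B ≤ C * N ^ (1 / (4 * (k : ℝ))) * N ^ (-(1 / (2 * (k : ℝ)))) :=
          mul_le_mul_of_nonneg_left hs (by positivity)
      _ = C * N ^ (-(1 / (4 * (k : ℝ)))) := by
          rw [mul_assoc, ← Real.rpow_add hN0]
          congr 2
          field_simp
          ring
  have h2' : |∫ α : Fin k × Z n → ℝ, ext g (bvec ε 1 α) ∂(gam (Fin k × Z n)) - ext g 0|
      ≤ (C + 1) * N ^ (-(1 / (4 * (k : ℝ)))) := by
    refine h2.trans ?_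
    have h5 : N ^ (k + 1) * (1 / N ^ (k + 2)) = 1 / N := by
      field_simp
      ring
    rw [h5]
    have h6 : 0 ≤ B + 1 / N := by positivity
    calc ε ^ (2 * k) * (B + 1 / N) ≤ 1 * (B + 1 / N) := mul_le_mul_of_nonneg_right hε1 h6
      _ ≤ (C + 1) * N ^ (-(1 / (4 * (k : ℝ)))) := by linarith
  have h3 : ∑ f, (nu ε f - unif (Pl k n)) * g f
      = (∑ f, nu ε f * g f - ∫ α : Fin k × Z n → ℝ, ext g (bvec ε 1 α) ∂(gam (Fin k × Z n)))
        + (∫ α : Fin k × Z n → ℝ, ext g (bvec ε 1 α) ∂(gam (Fin k × Z n)) - ext g 0) := by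
    have h4 : ext g 0 = ∑ f, unif (Pl k n) * g f := by
      unfold ext
      exact Finset.sum_congr rfl fun f _ => by rw [mu_zero, mul_comm]
    rw [h4, sub_add_sub_cancel, ← Finset.sum_sub_distrib]
    exact Finset.sum_congr rfl fun f _ => by ring
  change |∑ f, (nu ε f - unif (Pl k n)) * g f| ≤ _
  rw [h3]
  refine (abs_add_le _ _).trans ?_
  linarith

end planes

end Adv10

theorem nu_nonneg {k n : ℕ} (ε : ℝ) (f : Pl k n → Bool) : 0 ≤ nu ε f :=
  Adv10.nu_nonneg' ε f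

theorem nu_sum {k n : ℕ} (ε : ℝ) : ∑ f : Pl k n → Bool, nu ε f = 1 :=
  Adv10.nu_sum' ε

open Classical in
theorem nu_ext {k n : ℕ} (ε M : ℝ) (g : (Pl k n → Bool) → ℝ) (hg : ∀ f, |g f| ≤ M) :
    |∑ f, nu ε f * g f - ∫ α : Fin k × Z n → ℝ, ext g (bvec ε 1 α) ∂(gam (Fin k × Z n))| ≤
      2 * M * ∫ α : Fin k × Z n → ℝ, (if good ε α then 0 else grow ε α)
        ∂(gam (Fin k × Z n)) :=
  Adv10.nu_ext' ε M g hg

theorem adv (k : ℕ) (hk : 1 ≤ k) : ∃ C₀ C₁ : ℝ, 1 ≤ C₀ ∧ 0 < C₁ ∧ ∀ n : ℕ, 1 ≤ n → ∀ ε : ℝ,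
    0 < ε → ε ^ 2 * (C₀ * n) ≤ 1 → ∀ (d : ℕ) (T : GTree (Pl k n) Bool), T.depth ≤ d → 1 ≤ d →
    (d : ℝ) ≤ ((2 : ℝ) ^ n) ^ (1 - 1 / (k : ℝ)) →
    |∑ f, (nu ε f - unif (Pl k n)) * (if T.eval f then 1 else 0)| ≤
      C₁ * ((2 : ℝ) ^ n) ^ (-(1 / (4 * (k : ℝ)))) :=
  Adv10.adv' k hk

end Crest.Agent.QGap
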