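import Crest.Agent.QGap.Kernel

/-! # S0554, module K3: amplitude amplification on Gram kernels (owner helper2) -/

set_option autoImplicit false
set_option linter.unusedSectionVars false

namespace Crest.Agent.QGap

open Matrix BigOperators Crest.MathPhysics.Query MeasureTheory ProbabilityTheory

namespace Amplify

section ext
variable {Y Z : Type} [Fintype Y] [Fintype Z]

open scoped MatrixOrder in
/-- the columns of the off-diagonal block lie in the range of the diagonal block -/
theorem exists_factor (K : Matrix (Y ⊕ Z) (Y ⊕ Z) ℝ) (hK : K.PosSemidef) :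
    ∃ R : Matrix Y Z ℝ, K.toBlocks₁₁ * R = K.toBlocks₁₂ := by
  classical
  obtain ⟨B, rfl⟩ := CStarAlgebra.nonneg_iff_eq_star_mul_self.mp hK.nonneg
  set B1 : Matrix (Y ⊕ Z) Y ℝ := B.submatrix id Sum.inl with hB1
  set B2 : Matrix (Y ⊕ Z) Z ℝ := B.submatrix id Sum.inr with hB2
  have e1 : (star B * B).toBlocks₁₁ = B1ᵀ * B1 := by
    ext y y'
    simp [toBlocks₁₁, Matrix.mul_apply, hB1, Matrix.star_apply]
  have e2 : (star B * B).toBlocks₁₂ = B1ᵀ * B2 := by
    ext y y'
    simp [toBlocks₁₂, Matrix.mul_apply, hB1, hB2, Matrix.star_apply]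
  have hrange : LinearMap.range (B1ᵀ * B1).mulVecLin = LinearMap.range (B1ᵀ).mulVecLin := by
    apply Submodule.eq_of_le_of_finrank_eq
    · rw [Matrix.mulVecLin_mul]
      exact LinearMap.range_comp_le_range _ _
    · have h1 := Matrix.rank_transpose_mul_self B1
      have h2 := Matrix.rank_transpose B1
      rw [← h2] at h1
      exact h1
  have hex : ∀ z : Z, ∃ r : Y → ℝ, (B1ᵀ * B1) *ᵥ r = B1ᵀ *ᵥ (fun w => B2 w z) := by
    intro z
    have hm : B1ᵀ *ᵥ (fun w => B2 w z) ∈ LinearMap.range (B1ᵀ).mulVecLin :=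
      ⟨fun w => B2 w z, by rw [Matrix.mulVecLin_apply]⟩
    rw [← hrange] at hm
    obtain ⟨r, hr⟩ := hm
    rw [Matrix.mulVecLin_apply] at hr
    exact ⟨r, hr⟩
  choose r hr using hex
  refine ⟨Matrix.of fun y z => r z y, ?_⟩
  rw [e1, e2]
  ext y z
  have h := congrFun (hr z) y
  simpa [Matrix.mulVec, dotProduct, Matrix.mul_apply] using h

theorem psd_conj {A : Matrix Y Y ℝ} (hA : A.PosSemidef) (T : Matrix Y Z ℝ) :
    (Tᵀ * A * T).PosSemidef := by
  have := hA.conjTranspose_mul_mul_same T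
  simpa [Matrix.conjTranspose_eq_transpose_of_trivial] using this

theorem conj_fromCols {Y₁ Y₂ : Type} [Fintype Y₁] [Fintype Y₂] (B : Matrix Y Y ℝ)
    (U : Matrix Y Y₁ ℝ) (V : Matrix Y Y₂ ℝ) :
    (fromCols U V)ᵀ * B * fromCols U V =
      fromBlocks (Uᵀ * B * U) (Uᵀ * B * V) (Vᵀ * B * U) (Vᵀ * B * V) := by
  rw [transpose_fromCols, fromRows_mul, mul_fromCols, fromRows_mul, fromRows_mul,
    fromCols_fromRows_eq_fromBlocks]

/-- the extension lemma -/
theorem split (K : Matrix (Y ⊕ Z) (Y ⊕ Z) ℝ) (hK : K.PosSemidef) {ι : Type} [Fintype ι]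
    (P : Matrix Y Y ℝ) (M : ι → Matrix Y Y ℝ) (hP : P.PosSemidef)
    (hM : ∀ i, (M i).PosSemidef) (h : K.toBlocks₁₁ = P + ∑ i, M i) :
    ∃ (P' : Matrix (Y ⊕ Z) (Y ⊕ Z) ℝ) (M' : ι → Matrix (Y ⊕ Z) (Y ⊕ Z) ℝ),
      P'.PosSemidef ∧ (∀ i, (M' i).PosSemidef) ∧ K = P' + ∑ i, M' i ∧
      P'.toBlocks₁₁ = P ∧ ∀ i, (M' i).toBlocks₁₁ = M i := by
  classical
  obtain ⟨R, hR⟩ := exists_factor K hK
  set A := K.toBlocks₁₁ with hA
  set C := K.toBlocks₁₂ with hC
  set D := K.toBlocks₂₁ with hD
  set E := K.toBlocks₂₂ with hE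
  have hKb : K = fromBlocks A C D E := (fromBlocks_toBlocks K).symm
  have hsym : Kᵀ = K := by
    have := hK.isHermitian
    rwa [Matrix.IsHermitian, Matrix.conjTranspose_eq_transpose_of_trivial] at this
  have hAs : Aᵀ = A := by
    ext i j; exact congrFun (congrFun hsym (Sum.inl i)) (Sum.inl j)
  have hDC : D = Cᵀ := by
    ext i j; exact (congrFun (congrFun hsym (Sum.inr i)) (Sum.inl j)).symm
  have hDR : D = Rᵀ * A := by
    rw [hDC, ← hR, Matrix.transpose_mul, hAs]
  -- the Schur complement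
  have hS : (E - Rᵀ * A * R).PosSemidef := by
    have h1 := psd_conj hK (fromRows (-R) (1 : Matrix Z Z ℝ))
    have h2 : (fromRows (-R) (1 : Matrix Z Z ℝ))ᵀ * K * fromRows (-R) (1 : Matrix Z Z ℝ) =
        E - Rᵀ * A * R := by
      rw [hKb, Matrix.mul_assoc, fromBlocks_mul_fromRows, transpose_fromRows,
        fromCols_mul_fromRows, ← hR, hDR]
      simp only [Matrix.mul_one, Matrix.transpose_one, Matrix.one_mul, Matrix.mul_neg,
        neg_add_cancel, Matrix.mul_zero, zero_add]
      abel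
    rwa [h2] at h1
  let T : Matrix Y (Y ⊕ Z) ℝ := fromCols 1 R
  have hT : ∀ B : Matrix Y Y ℝ, Tᵀ * B * T = fromBlocks B (B * R) (Rᵀ * B) (Rᵀ * B * R) := by
    intro B
    simp only [T, conj_fromCols, Matrix.transpose_one, Matrix.one_mul, Matrix.mul_one]
  let S : Matrix (Y ⊕ Z) (Y ⊕ Z) ℝ := fromBlocks 0 0 0 (E - Rᵀ * A * R)
  have hSp : S.PosSemidef := by
    have h1 := psd_conj hS (fromCols (0 : Matrix Z Y ℝ) (1 : Matrix Z Z ℝ))
    have h2 : (fromCols (0 : Matrix Z Y ℝ) (1 : Matrix Z Z ℝ))ᵀ * (E - Rᵀ * A * R) *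
        fromCols (0 : Matrix Z Y ℝ) (1 : Matrix Z Z ℝ) = S := by
      simp only [S, conj_fromCols, Matrix.transpose_one, Matrix.transpose_zero,
        Matrix.one_mul, Matrix.mul_one, Matrix.zero_mul, Matrix.mul_zero]
    rwa [h2] at h1
  refine ⟨Tᵀ * P * T + S, fun i => Tᵀ * M i * T, (psd_conj hP T).add hSp,
    fun i => psd_conj (hM i) T, ?_, ?_, ?_⟩
  · have h3 : Tᵀ * P * T + S + ∑ i, Tᵀ * M i * T = Tᵀ * (P + ∑ i, M i) * T + S := by
      rw [Matrix.mul_add, Matrix.add_mul, Matrix.mul_sum, Matrix.sum_mul]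
      abel
    rw [h3, ← h, hT, fromBlocks_add, hR, hKb]
    simp only [add_zero, ← hDR]
    congr 1
    abel
  · rw [hT]
    simp [S, fromBlocks_add]
  · intro i
    show (Tᵀ * M i * T).toBlocks₁₁ = M i
    rw [hT]
    simp

end ext

section lift
variable {I Y Z : Type} [Fintype I] [Fintype Y] [Fintype Z]

/-- lifting a derivation to a bigger kernel, going backwards -/
theorem lift {π : Y → I → Bool} (π₂ : Z → I → Bool) {q : ℕ} {G G' : Matrix Y Y ℝ}
    (h : KStep π q G G') (K' : Matrix (Y ⊕ Z) (Y ⊕ Z) ℝ) (hK' : K'.PosSemidef)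
    (hb : K'.toBlocks₁₁ = G') :
    ∃ K : Matrix (Y ⊕ Z) (Y ⊕ Z) ℝ, K.PosSemidef ∧ K.toBlocks₁₁ = G ∧
      KStep (Sum.elim π π₂) q K K' := by
  induction h generalizing K' with
  | refl hG => exact ⟨K', hK', hb, KStep.refl _ hK'⟩
  | @step q G P M hP hM h ih =>
    obtain ⟨P', M', hP', hM', hK, hPb, hMb⟩ := split K' hK' P (fun i => sK π i (M i)) hP
      (fun i => sK_psd π i (hM i)) hb
    have hs : ∀ i, (sK (Sum.elim π π₂) i (M' i)).toBlocks₁₁ = M i := by
      intro i
      have : (sK (Sum.elim π π₂) i (M' i)).toBlocks₁₁ = sK π i ((M' i).toBlocks₁₁) := rfl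
      rw [this, hMb, sK_sK]
    obtain ⟨K, hKp, hKb, hKs⟩ := ih (P' + ∑ i, sK (Sum.elim π π₂) i (M' i))
      (hP'.add (posSemidef_sum _ fun i _ => sK_psd _ i (hM' i))) (by
        have e : (P' + ∑ i, sK (Sum.elim π π₂) i (M' i)).toBlocks₁₁ =
            P'.toBlocks₁₁ + ∑ i, (sK (Sum.elim π π₂) i (M' i)).toBlocks₁₁ := by
          ext y y'
          simp [toBlocks₁₁, Matrix.add_apply, Matrix.sum_apply]
        rw [e, hPb]
        simp only [hs])
    refine ⟨K, hKp, hKb, ?_⟩
    have h1 := KStep.step' (π := Sum.elim π π₂) P' (fun i => sK (Sum.elim π π₂) i (M' i)) hP'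
      (fun i => sK_psd _ i (hM' i)) hKs
    simp only [sK_sK] at h1
    rw [← hK] at h1
    exact h1

end lift

section pull
variable {X : Type} [Fintype X] [DecidableEq X]

/-- coefficient matrix -/
def coef (a c : X → ℝ) : Matrix X (X ⊕ X) ℝ :=
  fromCols (Matrix.diagonal a) (Matrix.diagonal c)

theorem coef_mul (a c : X → ℝ) (A C D E : Matrix X X ℝ) (x y : X) :
    (coef a c * fromBlocks A C D E * (coef a c)ᵀ) x y =
      a x * A x y * a y + a x * C x y * c y + c x * D x y * a y + c x * E x y * c y := by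
  rw [coef, fromCols_mul_fromBlocks, transpose_fromCols, fromCols_mul_fromRows]
  simp only [Matrix.diagonal_transpose, Matrix.add_apply, Matrix.mul_diagonal,
    Matrix.diagonal_mul]
  ring

end pull

end Amplify

/-- Grover coefficients: the state after `r` rounds is `a ψ + c g`, `g` the good part of `ψ`. -/
def amp (p : ℝ) : ℕ → ℝ × ℝ
  | 0 => (1, 0)
  | r + 1 => ((amp p r).1 - 4 * p * (amp p r).1 - 2 * p * (amp p r).2,
      2 * (amp p r).1 + (amp p r).2)

theorem amplify {I Ω : Type} [Fintype I] [Fintype Ω] {q : ℕ} {D : (I → Bool) → Ω → ℝ}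
    (h : QProc I q D) (S : Ω → Bool) (r : ℕ) :
    QProc I ((2 * r + 1) * q) (fun x ω =>
      (if S ω then ((amp (∑ ω, if S ω then D x ω else 0) r).1 +
          (amp (∑ ω, if S ω then D x ω else 0) r).2) ^ 2
        else (amp (∑ ω, if S ω then D x ω else 0) r).1 ^ 2) * D x ω) := by
  classical
  obtain ⟨G, hG, hs, hD⟩ := h
  let G0 : Matrix (I → Bool) (I → Bool) ℝ := ∑ ω, if S ω then 0 else G ω
  let G1 : Matrix (I → Bool) (I → Bool) ℝ := ∑ ω, if S ω then G ω else 0
  have hsum : ∑ ω, G ω = G0 + G1 := by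
    rw [← Finset.sum_add_distrib]
    refine Finset.sum_congr rfl fun ω _ => ?_
    split_ifs <;> simp
  have hG0 : G0.PosSemidef := posSemidef_sum _ fun ω _ => by
    split_ifs
    exacts [PosSemidef.zero, hG ω]
  have hG1 : G1.PosSemidef := posSemidef_sum _ fun ω _ => by
    split_ifs
    exacts [hG ω, PosSemidef.zero]
  let K' : Matrix ((I → Bool) ⊕ (I → Bool)) ((I → Bool) ⊕ (I → Bool)) ℝ := fromBlocks (G0 + G1) G1 G1 G1
  have hK' : K'.PosSemidef := by
    have h1 := Amplify.psd_conj hG0 (fromCols (1 : Matrix (I → Bool) (I → Bool) ℝ) (0 : Matrix (I → Bool) (I → Bool) ℝ))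
    have h2 := Amplify.psd_conj hG1 (fromCols (1 : Matrix (I → Bool) (I → Bool) ℝ) (1 : Matrix (I → Bool) (I → Bool) ℝ))
    have h3 := h1.add h2
    have e : (fromCols (1 : Matrix (I → Bool) (I → Bool) ℝ) (0 : Matrix (I → Bool) (I → Bool) ℝ))ᵀ * G0 *
        fromCols (1 : Matrix (I → Bool) (I → Bool) ℝ) (0 : Matrix (I → Bool) (I → Bool) ℝ) +
        (fromCols (1 : Matrix (I → Bool) (I → Bool) ℝ) (1 : Matrix (I → Bool) (I → Bool) ℝ))ᵀ * G1 *
        fromCols (1 : Matrix (I → Bool) (I → Bool) ℝ) (1 : Matrix (I → Bool) (I → Bool) ℝ) = K' := by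
      simp only [K', Amplify.conj_fromCols, Matrix.transpose_one, Matrix.transpose_zero,
        Matrix.one_mul, Matrix.mul_one, Matrix.zero_mul, Matrix.mul_zero, fromBlocks_add,
        zero_add]
    rwa [e] at h3
  rw [hsum] at hs
  obtain ⟨K, hK, hKb, hKs⟩ := Amplify.lift (fun x : I → Bool => x) hs K' hK' (by simp [K'])
  set p : (I → Bool) → ℝ := fun x => ∑ ω, if S ω then D x ω else 0 with hp
  have hG1d : ∀ x, G1 x x = p x := by
    intro x
    simp only [G1, hp, Matrix.sum_apply]
    refine Finset.sum_congr rfl fun ω _ => ?_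
    split_ifs
    · exact hD x ω
    · rfl
  set E := K.toBlocks₂₂ with hE
  have hsym : Kᵀ = K := by
    have := hK.isHermitian
    rwa [Matrix.IsHermitian, Matrix.conjTranspose_eq_transpose_of_trivial] at this
  have hJ : ∀ x y : I → Bool, K (Sum.inl x) (Sum.inl y) = 1 := by
    intro x y
    have := congrFun (congrFun hKb x) y
    simpa [toBlocks₁₁] using this
  have hfib : ∀ x : I → Bool, K (Sum.inl x) (Sum.inr x) = p x := by
    intro x
    have h1 := hKs.fiber (Sum.inl x) (Sum.inr x) (by simp)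
    rw [← h1, ← hG1d]
    simp [K']
  have hrow : ∀ x x' y : I → Bool, K (Sum.inl x) (Sum.inr y) = K (Sum.inl x') (Sum.inr y) := by
    intro x x' y
    let v : (I → Bool) ⊕ (I → Bool) → ℝ := fun z => (if z = Sum.inl x then 1 else 0) - (if z = Sum.inl x' then 1 else 0)
    have hKv : ∀ z, (K *ᵥ v) z = K z (Sum.inl x) - K z (Sum.inl x') := by
      intro z
      simp [Matrix.mulVec, dotProduct, v, mul_sub, Finset.sum_sub_distrib]
    have hq : star v ⬝ᵥ K *ᵥ v = 0 := by
      have : star v ⬝ᵥ K *ᵥ v = (K *ᵥ v) (Sum.inl x) - (K *ᵥ v) (Sum.inl x') := by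
        simp [dotProduct, v, sub_mul, Finset.sum_sub_distrib]
      rw [this, hKv, hKv, hJ, hJ, hJ, hJ]
      ring
    have h0 := (hK.dotProduct_mulVec_zero_iff v).1 hq
    have h1 := congrFun h0 (Sum.inr y)
    rw [hKv] at h1
    have e1 : K (Sum.inr y) (Sum.inl x) = K (Sum.inl x) (Sum.inr y) :=
      congrFun (congrFun hsym (Sum.inl x)) (Sum.inr y)
    have e2 : K (Sum.inr y) (Sum.inl x') = K (Sum.inl x') (Sum.inr y) :=
      congrFun (congrFun hsym (Sum.inl x')) (Sum.inr y)
    rw [e1, e2] at h1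
    simp only [Pi.zero_apply] at h1
    linarith
  have hC : ∀ x y : I → Bool, K (Sum.inl x) (Sum.inr y) = p y := fun x y => by
    rw [hrow x y y, hfib]
  have hKe : K = fromBlocks (Matrix.of fun _ _ => 1) (Matrix.of fun _ y => p y)
      (Matrix.of fun x _ => p x) E := by
    rw [← fromBlocks_toBlocks K]
    congr 1
    · ext x y; exact hC x y
    · ext x y
      have e1 : K (Sum.inr x) (Sum.inl y) = K (Sum.inl y) (Sum.inr x) :=
        congrFun (congrFun hsym (Sum.inl y)) (Sum.inr x)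
      have := hC y x
      simp only [toBlocks₂₁, Matrix.of_apply]
      rw [e1, this]
  -- the two families of kernels
  let Kin : ((I → Bool) → ℝ) → ((I → Bool) → ℝ) → Matrix (I → Bool) (I → Bool) ℝ := fun a c => Matrix.of fun x y =>
    a x * a y + a x * p y * c y + c x * p x * a y + c x * E x y * c y
  let Kout : ((I → Bool) → ℝ) → ((I → Bool) → ℝ) → Matrix (I → Bool) (I → Bool) ℝ := fun a c => Matrix.of fun x y =>
    a x * G0 x y * a y + (a x + c x) * G1 x y * (a y + c y)
  have hstep : ∀ a c : (I → Bool) → ℝ, KStep (fun x : I → Bool => x) q (Kin a c) (Kout a c) := by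
    intro a c
    have h1 := hKs.pull (π' := fun x : I → Bool => x) (Amplify.coef a c) (by
      intro x y hxy
      rcases y with y | y
      · by_cases hh : x = y
        · subst hh; rfl
        · exact absurd (by simp [Amplify.coef, Matrix.diagonal_apply_ne _ hh]) hxy
      · by_cases hh : x = y
        · subst hh; rfl
        · exact absurd (by simp [Amplify.coef, Matrix.diagonal_apply_ne _ hh]) hxy)
    have e1 : Amplify.coef a c * K * (Amplify.coef a c)ᵀ = Kin a c := by
      ext x y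
      rw [hKe, Amplify.coef_mul]
      simp only [Kin, Matrix.of_apply]
      ring
    have e2 : Amplify.coef a c * K' * (Amplify.coef a c)ᵀ = Kout a c := by
      ext x y
      simp only [K']
      rw [Amplify.coef_mul]
      simp only [Kout, Matrix.of_apply, Matrix.add_apply]
      ring
    rw [e1, e2] at h1
    exact h1
  have hflip : ∀ a c : (I → Bool) → ℝ, Kout a (fun x => -2 * a x - c x) = Kout a c := by
    intro a c
    ext x y
    simp only [Kout, Matrix.of_apply]
    ring
  have hrefl : ∀ a c : (I → Bool) → ℝ, Kin (fun x => a x + 2 * c x * p x) (fun x => -c x) = Kin a c := by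
    intro a c
    ext x y
    simp only [Kin, Matrix.of_apply]
    ring
  have hround : ∀ a c : (I → Bool) → ℝ, KStep (fun x : I → Bool => x) (2 * q) (Kin a c)
      (Kin (fun x => a x - 4 * p x * a x - 2 * p x * c x) (fun x => 2 * a x + c x)) := by
    intro a c
    have h1 := hstep a c
    have h2 := (hstep a (fun x => -2 * a x - c x)).symm
    rw [hflip] at h2
    have h3 := h1.trans h2
    rw [← hrefl a (fun x => -2 * a x - c x)] at h3
    rw [two_mul]
    convert h3 using 2
    · funext x; ring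
    · funext x; ring
  set A : ℕ → (I → Bool) → ℝ := fun r x => (amp (p x) r).1 with hAdef
  set Cc : ℕ → (I → Bool) → ℝ := fun r x => (amp (p x) r).2 with hCdef
  have hrounds : ∀ r, KStep (fun x : I → Bool => x) (2 * r * q) (Matrix.of fun _ _ => 1)
      (Kin (A r) (Cc r)) := by
    intro r
    induction r with
    | zero =>
      have e : Kin (A 0) (Cc 0) = Matrix.of fun _ _ => 1 := by
        ext x y
        simp [Kin, A, Cc, amp]
      rw [e]
      simpa using KStep.refl _ hs.psd_left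
    | succ r ih =>
      have h1 := ih.trans (hround (A r) (Cc r))
      have e : 2 * (r + 1) * q = 2 * r * q + 2 * q := by ring
      rw [e]
      exact h1
  have hfinal := (hrounds r).trans (hstep (A r) (Cc r))
  have eq : 2 * r * q + q = (2 * r + 1) * q := by ring
  rw [eq] at hfinal
  refine ⟨fun ω => Matrix.of fun x y => (if S ω then A r x + Cc r x else A r x) *
    (if S ω then A r y + Cc r y else A r y) * G ω x y, ?_, ?_, ?_⟩
  · intro ω
    have h1 := (posSemidef_rank1 fun x => if S ω then A r x + Cc r x else A r x).hadamard (hG ω)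
    exact h1
  · convert hfinal using 1
    ext x y
    simp only [Kout, G0, G1, Matrix.of_apply, Matrix.sum_apply, Finset.mul_sum, Finset.sum_mul]
    rw [← Finset.sum_add_distrib]
    refine Finset.sum_congr rfl fun ω _ => ?_
    split_ifs <;> simp <;> ring
  · intro x ω
    simp only [Matrix.of_apply, hD]
    split_ifs
    · simp only [A, Cc, hp]; ring
    · simp only [A, hp]; ring

end Crest.Agent.QGap
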