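import Crest.Agent.QGap.Defs

/-! # S0554: elementary facts on the Hadamard matrix and chains -/

set_option autoImplicit false
set_option linter.unusedSectionVars false

namespace Crest.Agent.QGap

open Matrix BigOperators

variable {n : ℕ}

theorem chi_comm (y z : Z n) : chi y z = chi z y := by
  unfold chi
  refine Finset.prod_congr rfl fun t _ => ?_
  rw [Bool.and_comm]

theorem H_comm (y z : Z n) : H y z = H z y := by
  unfold H; rw [chi_comm]

theorem chi_sq (y z : Z n) : chi y z ^ 2 = 1 := by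
  unfold chi
  rw [← Finset.prod_pow]
  refine Finset.prod_eq_one fun t _ => ?_
  split_ifs <;> norm_num

theorem sum_chi (x x' : Z n) :
    ∑ y, chi x y * chi x' y = if x = x' then (2 : ℝ) ^ n else 0 := by
  have h1 : ∀ y, chi x y * chi x' y =
      ∏ t, ((if x t && y t then (-1 : ℝ) else 1) * (if x' t && y t then -1 else 1)) := by
    intro y; unfold chi; rw [Finset.prod_mul_distrib]
  simp only [h1]
  have h2 := (Finset.prod_univ_sum (fun _ : Fin n => (Finset.univ : Finset Bool))
    (fun t b => ((if x t && b then (-1 : ℝ) else 1) * (if x' t && b then -1 else 1)))).symm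
  rw [Fintype.piFinset_univ] at h2
  rw [h2]
  split_ifs with hx
  · subst hx
    rw [Finset.prod_congr rfl (g := fun _ => (2 : ℝ))]
    · simp
    · intro t _
      rw [Fintype.sum_bool]
      cases x t <;> norm_num
  · obtain ⟨t, ht⟩ := Function.ne_iff.mp hx
    refine Finset.prod_eq_zero (Finset.mem_univ t) ?_
    rw [Fintype.sum_bool]
    cases hxt : x t <;> cases hxt' : x' t <;> simp_all

theorem sqrtN_sq (n : ℕ) : Real.sqrt ((2 : ℝ) ^ n) * Real.sqrt ((2 : ℝ) ^ n) = 2 ^ n :=
  Real.mul_self_sqrt (by positivity)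

theorem H_mul_H (x y x' y' : Z n) : H x y * H x' y' = (chi x y * chi x' y') / 2 ^ n := by
  unfold H
  rw [div_mul_div_comm, sqrtN_sq]

theorem sum_H_H (x x' : Z n) : ∑ y, H x y * H x' y = if x = x' then (1 : ℝ) else 0 := by
  simp only [H_mul_H]
  rw [← Finset.sum_div, sum_chi]
  split_ifs
  · rw [div_self (by positivity)]
  · simp

/-- transfer recursion -/
noncomputable def chR {n : ℕ} : (k : ℕ) → (Fin (k + 1) → Z n → ℝ) → Z n → ℝ
  | 0, g, z => g 0 z
  | k + 1, g, z => g (Fin.last (k + 1)) z * ∑ y, H y z * chR k (fun i => g i.castSucc) y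

theorem linkW_snoc {k : ℕ} (y : Fin (k + 1) → Z n) (z : Z n) :
    linkW (k := k + 1) (Fin.snoc (α := fun _ => Z n) y z) = linkW y * H (y (Fin.last k)) z := by
  unfold linkW
  rw [Fin.prod_univ_castSucc]
  congr 1
  · refine Finset.prod_congr rfl fun i _ => ?_
    rw [Fin.snoc_castSucc, Fin.succ_castSucc, Fin.snoc_castSucc]
  · rw [Fin.snoc_castSucc, Fin.succ_last, Fin.snoc_last]

theorem sum_snoc {k : ℕ} (F : (Fin (k + 2) → Z n) → ℝ) :
    ∑ x, F x = ∑ y : Fin (k + 1) → Z n, ∑ z : Z n, F (Fin.snoc (α := fun _ => Z n) y z) := by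
  rw [← (Fin.snocEquiv (fun _ : Fin (k + 2) => Z n)).sum_comp, Fintype.sum_prod_type,
    Finset.sum_comm]
  rfl

theorem chain_sum (k : ℕ) : ∀ (g : Fin (k + 1) → Z n → ℝ) (φ : Z n → ℝ),
    ∑ x : Fin (k + 1) → Z n, linkW x * (∏ i, g i (x i)) * φ (x (Fin.last k)) =
      ∑ z, chR k g z * φ z := by
  induction k with
  | zero =>
    intro g φ
    have : ∀ x : Fin 1 → Z n, linkW (k := 0) x = 1 := by intro x; simp [linkW]
    rw [← (Equiv.funUnique (Fin 1) (Z n)).symm.sum_comp]
    refine Finset.sum_congr rfl fun z _ => ?_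
    simp [chR, this]
  | succ k ih =>
    intro g φ
    rw [sum_snoc]
    have h1 : ∀ (y : Fin (k + 1) → Z n) (z : Z n),
        linkW (k := k + 1) (Fin.snoc (α := fun _ => Z n) y z) *
          (∏ i, g i ((Fin.snoc (α := fun _ => Z n) y z : Fin (k + 2) → Z n) i)) *
          φ ((Fin.snoc (α := fun _ => Z n) y z : Fin (k + 2) → Z n) (Fin.last (k + 1))) =
        linkW y * (∏ i : Fin (k + 1), g i.castSucc (y i)) *
          (H (y (Fin.last k)) z * (g (Fin.last (k + 1)) z * φ z)) := by
      intro y z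
      rw [linkW_snoc, Fin.prod_univ_castSucc]
      simp only [Fin.snoc_castSucc, Fin.snoc_last]
      ring
    simp only [h1]
    rw [Finset.sum_comm]
    have h2 : ∀ z, ∑ y : Fin (k + 1) → Z n, linkW y * (∏ i : Fin (k + 1), g i.castSucc (y i)) *
          (H (y (Fin.last k)) z * (g (Fin.last (k + 1)) z * φ z)) =
        ∑ y, chR k (fun i => g i.castSucc) y * (H y z * (g (Fin.last (k + 1)) z * φ z)) := by
      intro z
      exact ih (fun i => g i.castSucc) (fun y => H y z * (g (Fin.last (k + 1)) z * φ z))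
    simp only [h2, chR]
    refine Finset.sum_congr rfl fun z _ => ?_
    rw [Finset.mul_sum, Finset.sum_mul]
    refine Finset.sum_congr rfl fun y _ => ?_
    ring

theorem Phi_eq {k : ℕ} (f : Pl k n → Bool) :
    Phi f = (1 / (2 : ℝ) ^ n) * ∑ z, chR k (fun i z => sg (f (i, z))) z := by
  unfold Phi
  congr 1
  have := chain_sum k (fun i z => sg (f (i, z))) (fun _ => 1)
  simpa using this

end Crest.Agent.QGap
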