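import Crest.Agent.QGap.Kernel
import Crest.Agent.QGap.Chain

/-! # S0554, module K5: the forrelation procedure -/

set_option autoImplicit false
set_option linter.unusedSectionVars false

namespace Crest.Agent.QGap

open Matrix BigOperators

variable {n : ℕ} {I : Type} [Fintype I]

/-- state before phase query `i` -/
noncomputable def preS (n : ℕ) (s : ℕ → Z n → ℝ) : ℕ → Z n → ℝ
  | 0, _ => 1 / Real.sqrt (2 ^ n)
  | i + 1, z => ∑ y, H z y * (s i y * preS n s i y)

theorem gram_H (v w : Z n → ℝ) :
    ∑ z, (∑ y, H z y * v y) * (∑ y, H z y * w y) = ∑ y, v y * w y := by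
  have h1 : ∀ z, (∑ y, H z y * v y) * (∑ y, H z y * w y) =
      ∑ y, ∑ y', (H y z * H y' z) * (v y * w y') := by
    intro z
    rw [Finset.sum_mul_sum]
    refine Finset.sum_congr rfl fun y _ => Finset.sum_congr rfl fun y' _ => ?_
    rw [H_comm z y, H_comm z y']; ring
  simp only [h1]
  rw [Finset.sum_comm]
  refine Finset.sum_congr rfl fun y _ => ?_
  rw [Finset.sum_comm]
  rw [Finset.sum_eq_single y]
  · rw [← Finset.sum_mul, sum_H_H]; simp
  · intro y' _ hy'
    rw [← Finset.sum_mul, sum_H_H, if_neg (Ne.symm hy')]; simp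
  · simp

/-- the run -/
theorem forr_run (idx : ℕ → Z n → I) (i : ℕ) :
    KStep (fun x : I → Bool => x) i (Matrix.of fun _ _ => 1)
      (Matrix.of fun x y => ∑ z, preS n (fun j z => sg (x (idx j z))) i z *
        preS n (fun j z => sg (y (idx j z))) i z) := by
  classical
  induction i with
  | zero =>
    have e : (Matrix.of fun x y : I → Bool => ∑ z : Z n,
        preS n (fun j z => sg (x (idx j z))) 0 z * preS n (fun j z => sg (y (idx j z))) 0 z) =
        Matrix.of fun _ _ => 1 := by
      ext x y
      simp only [preS, Matrix.of_apply]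
      rw [Finset.sum_const, Finset.card_univ, nsmul_eq_mul, div_mul_div_comm, sqrtN_sq]
      simp
    rw [e]
    refine KStep.refl _ ?_
    simpa using posSemidef_rank1 (fun _ : I → Bool => (1 : ℝ))
  | succ i ih =>
    have h := ih.trans (KStep.phase (π := fun x : I → Bool => x)
      (fun x z => preS n (fun j z => sg (x (idx j z))) i z) (fun z => idx i z))
    convert h using 1
    ext x y
    simp only [Matrix.of_apply, preS]
    rw [gram_H]

theorem preS_chR (k : ℕ) (s : ℕ → Z n → ℝ) (z : Z n) :
    s k z * preS n s k z =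
      (1 / Real.sqrt (2 ^ n)) * chR k (fun i z => s i z) z := by
  induction k generalizing z with
  | zero => simp [preS, chR]; ring
  | succ k ih =>
    simp only [preS, chR]
    simp only [ih]
    rw [Finset.mul_sum, Finset.mul_sum, Finset.mul_sum]
    refine Finset.sum_congr rfl fun y _ => ?_
    rw [H_comm z y]
    simp
    ring

theorem aux_a (s N a : ℝ) (h : s * s = N) (h0 : s ≠ 0) : 1 / s * a / s = 1 / N * a := by
  subst h; field_simp

theorem aux_b (s N a b c d : ℝ) (h : s * s = N) (h0 : s ≠ 0) :
    (a - b / s) * (c - d / s) = a * c - d * (a / s) - b * (c / s) + b * d / N := by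
  subst h; field_simp; ring

theorem forr_proc {k n : ℕ} {I : Type} [Fintype I] (idx : Pl k n → I) :
    QProc I (k + 1) (fun x => bern ((Phi fun p => x (idx p)) ^ 2)) := by
  classical
  set idx' : ℕ → Z n → I := fun i z => if h : i < k + 1 then idx (⟨i, h⟩, z) else idx (0, z)
    with hidx'
  have hrun := (forr_run idx' k).trans (KStep.phase (π := fun x : I → Bool => x)
      (fun x z => preS n (fun j z => sg (x (idx' j z))) k z) (fun z => idx' k z))
  set u : (I → Bool) → Z n → ℝ := fun x z =>
    sg (x (idx' k z)) * preS n (fun j z => sg (x (idx' j z))) k z with hu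
  set φ : (I → Bool) → ℝ := fun x => ∑ z, u x z / Real.sqrt (2 ^ n) with hφ
  have hPhi : ∀ x, φ x = Phi (fun p => x (idx p)) := by
    intro x
    rw [Phi_eq, hφ]
    simp only [hu]
    rw [Finset.mul_sum]
    refine Finset.sum_congr rfl fun z _ => ?_
    have := preS_chR k (fun j z => sg (x (idx' j z))) z
    rw [this]
    have e : (fun (i : Fin (k + 1)) (z : Z n) => sg (x (idx' (i : ℕ) z))) =
        fun i z => sg (x (idx (i, z))) := by
      funext i z
      simp only [hidx']
      rw [dif_pos i.isLt]
    rw [e]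
    exact aux_a _ _ _ (sqrtN_sq n) (by positivity)
  refine ⟨fun o => if o then Matrix.of fun x y => φ x * φ y else
    Matrix.of fun x y => ∑ z, (u x z - φ x / Real.sqrt (2 ^ n)) * (u y z - φ y / Real.sqrt (2 ^ n)),
    ?_, ?_, ?_⟩
  · intro o
    cases o
    · simpa using posSemidef_gram fun x z => u x z - φ x / Real.sqrt (2 ^ n)
    · simpa using posSemidef_rank1 φ
  · convert hrun using 1
    ext x y
    rw [Fintype.sum_bool]
    simp only [if_true, Matrix.add_apply, Matrix.of_apply]
    have hN : ((Finset.univ : Finset (Z n)).card : ℝ) = 2 ^ n := by simp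
    have e : ∑ z, (u x z - φ x / Real.sqrt (2 ^ n)) * (u y z - φ y / Real.sqrt (2 ^ n)) =
        ∑ z, u x z * u y z - φ x * φ y := by
      have h1 : ∀ z, (u x z - φ x / Real.sqrt (2 ^ n)) * (u y z - φ y / Real.sqrt (2 ^ n)) =
          u x z * u y z - φ y * (u x z / Real.sqrt (2 ^ n)) - φ x * (u y z / Real.sqrt (2 ^ n)) +
            φ x * φ y / 2 ^ n := by
        intro z
        exact aux_b _ _ _ _ _ _ (sqrtN_sq n) (by positivity)
      simp only [h1]
      rw [Finset.sum_add_distrib, Finset.sum_sub_distrib, Finset.sum_sub_distrib,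
        ← Finset.mul_sum, ← Finset.mul_sum, Finset.sum_const, nsmul_eq_mul, hN]
      have h2 : ∑ z, u x z / Real.sqrt (2 ^ n) = φ x := rfl
      have h3 : ∑ z, u y z / Real.sqrt (2 ^ n) = φ y := rfl
      rw [h2, h3]
      have : (2 : ℝ) ^ n ≠ 0 := by positivity
      field_simp
      ring
    simp only [Bool.false_eq_true, if_false, Matrix.of_apply]
    rw [e]
    simp only [hu]
    ring
  · intro x o
    cases o
    · have := hrun.fiber x x rfl
      simp only [Matrix.of_apply] at this
      simp only [Bool.false_eq_true, if_false, Matrix.of_apply, bern]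
      have hN : ((Finset.univ : Finset (Z n)).card : ℝ) = 2 ^ n := by simp
      have h1 : ∀ z, (u x z - φ x / Real.sqrt (2 ^ n)) * (u x z - φ x / Real.sqrt (2 ^ n)) =
          u x z * u x z - φ x * (u x z / Real.sqrt (2 ^ n)) - φ x * (u x z / Real.sqrt (2 ^ n)) +
            φ x * φ x / 2 ^ n := by
        intro z
        exact aux_b _ _ _ _ _ _ (sqrtN_sq n) (by positivity)
      simp only [h1]
      rw [Finset.sum_add_distrib, Finset.sum_sub_distrib, Finset.sum_sub_distrib,
        ← Finset.mul_sum, Finset.sum_const, nsmul_eq_mul, hN]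
      have h2 : ∑ z, u x z / Real.sqrt (2 ^ n) = φ x := rfl
      rw [h2]
      have h3 : ∑ z, u x z * u x z = 1 := this
      rw [h3, ← hPhi]
      have : (2 : ℝ) ^ n ≠ 0 := by positivity
      field_simp
      ring
    · simp only [if_true, Matrix.of_apply, bern]
      rw [hPhi]; ring

end Crest.Agent.QGap
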