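import Crest.Agent.QGap.Defs

/-! # S0554, module K1: closure properties of `KStep` and `QProc` -/

set_option autoImplicit false
set_option linter.unusedSectionVars false

namespace Crest.Agent.QGap

open Matrix BigOperators Crest.MathPhysics.Query MeasureTheory ProbabilityTheory

section K1

/-- sign kernel times a kernel -/
def sK {I Y : Type} (π : Y → I → Bool) (i : I) (M : Matrix Y Y ℝ) : Matrix Y Y ℝ :=
  Matrix.of fun y y' => sg (π y i) * sg (π y' i) * M y y'

theorem sg_mul_self (b : Bool) : sg b * sg b = 1 := by cases b <;> norm_num [sg]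

theorem sK_apply {I Y : Type} (π : Y → I → Bool) (i : I) (M : Matrix Y Y ℝ) (y y' : Y) :
    sK π i M y y' = sg (π y i) * sg (π y' i) * M y y' := rfl

theorem sK_sK {I Y : Type} (π : Y → I → Bool) (i : I) (M : Matrix Y Y ℝ) :
    sK π i (sK π i M) = M := by
  ext y y'
  rw [sK_apply, sK_apply]
  have h1 := sg_mul_self (π y i)
  have h2 := sg_mul_self (π y' i)
  calc sg (π y i) * sg (π y' i) * (sg (π y i) * sg (π y' i) * M y y')
      = (sg (π y i) * sg (π y i)) * (sg (π y' i) * sg (π y' i)) * M y y' := by ring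
    _ = M y y' := by rw [h1, h2]; ring

theorem posSemidef_rank1 {Y : Type} [Fintype Y] (v : Y → ℝ) :
    (Matrix.of fun y y' => v y * v y' : Matrix Y Y ℝ).PosSemidef := by
  have h := Matrix.posSemidef_vecMulVec_self_star (R := ℝ) v
  have e : (Matrix.of fun y y' => v y * v y' : Matrix Y Y ℝ) = vecMulVec v (star v) := by
    ext y y'; simp [vecMulVec]
  rw [e]; exact h

theorem posSemidef_gram {Y W : Type} [Fintype Y] [Fintype W] (v : Y → W → ℝ) :
    (Matrix.of fun y y' => ∑ z, v y z * v y' z : Matrix Y Y ℝ).PosSemidef := by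
  have e : (Matrix.of fun y y' => ∑ z, v y z * v y' z : Matrix Y Y ℝ) =
      ∑ z, (Matrix.of fun y y' => v y z * v y' z : Matrix Y Y ℝ) := by
    ext y y'; simp [Matrix.sum_apply]
  rw [e]
  exact posSemidef_sum _ fun z _ => posSemidef_rank1 fun y => v y z

theorem sK_psd {I Y : Type} [Fintype Y] (π : Y → I → Bool) (i : I) {M : Matrix Y Y ℝ}
    (hM : M.PosSemidef) : (sK π i M).PosSemidef := by
  have h := (posSemidef_rank1 fun y => sg (π y i)).hadamard hM
  have e : sK π i M = (Matrix.of fun y y' => sg (π y i) * sg (π y' i)) ⊙ M := by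
    ext y y'; simp [sK]
  rw [e]; exact h

variable {I Y Y' : Type} [Fintype I] [Fintype Y] [Fintype Y']

theorem KStep.step' {π : Y → I → Bool} {q : ℕ} {G : Matrix Y Y ℝ} (P : Matrix Y Y ℝ)
    (M : I → Matrix Y Y ℝ) (hP : P.PosSemidef) (hM : ∀ i, (M i).PosSemidef)
    (h : KStep π q G (P + ∑ i, M i)) : KStep π (q + 1) G (P + ∑ i, sK π i (M i)) :=
  KStep.step P M hP hM h

theorem KStep.psd_left {π : Y → I → Bool} {q : ℕ} {G G' : Matrix Y Y ℝ}
    (h : KStep π q G G') : G.PosSemidef := by
  induction h with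
  | refl hG => assumption
  | step P M hP hM h ih => exact ih

theorem KStep.psd_right {π : Y → I → Bool} {q : ℕ} {G G' : Matrix Y Y ℝ}
    (h : KStep π q G G') : G'.PosSemidef := by
  cases h with
  | refl hG => assumption
  | step P M hP hM h =>
    exact hP.add (posSemidef_sum _ fun i _ => sK_psd π i (hM i))

theorem KStep.trans {π : Y → I → Bool} {q q' : ℕ} {G G' G'' : Matrix Y Y ℝ}
    (h : KStep π q G G') (h' : KStep π q' G' G'') : KStep π (q + q') G G'' := by
  induction h' with
  | refl => simpa using h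
  | step P M hP hM h' ih => exact KStep.step P M hP hM (ih h)

theorem KStep.one {π : Y → I → Bool} (P : Matrix Y Y ℝ)
    (M : I → Matrix Y Y ℝ) (hP : P.PosSemidef) (hM : ∀ i, (M i).PosSemidef) :
    KStep π 1 (P + ∑ i, M i) (P + ∑ i, sK π i (M i)) :=
  KStep.step' (q := 0) P M hP hM
    (KStep.refl _ (hP.add (posSemidef_sum _ fun i _ => hM i)))

theorem KStep.symm {π : Y → I → Bool} {q : ℕ} {G G' : Matrix Y Y ℝ}
    (h : KStep π q G G') : KStep π q G' G := by
  induction h with
  | refl hG => exact KStep.refl _ (by assumption)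
  | @step q G P M hP hM h ih =>
    have h1 := KStep.one (π := π) P (fun i => sK π i (M i)) hP (fun i => sK_psd π i (hM i))
    simp only [sK_sK] at h1
    have h2 := h1.trans ih
    rw [add_comm 1 q] at h2
    exact h2

theorem KStep.idle {π : Y → I → Bool} {q : ℕ} {G G' : Matrix Y Y ℝ}
    (h : KStep π q G G') : KStep π (q + 1) G G' := by
  have h1 := KStep.step' (π := π) (G := G) G' (fun _ => 0) h.psd_right (fun _ => PosSemidef.zero)
    (q := q) (by simpa using h)
  have e : (G' + ∑ i : I, sK π i (0 : Matrix Y Y ℝ)) = G' := by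
    have : ∀ i : I, sK π i (0 : Matrix Y Y ℝ) = 0 := by
      intro i; ext y y'; simp [sK]
    simp [this]
  rw [e] at h1
  exact h1

theorem KStep.mono {π : Y → I → Bool} {q q' : ℕ} {G G' : Matrix Y Y ℝ}
    (h : KStep π q G G') (hq : q ≤ q') : KStep π q' G G' := by
  induction hq with
  | refl => exact h
  | step _ ih => exact ih.idle

theorem KStep.hadamard {π : Y → I → Bool} {q : ℕ} {G G' : Matrix Y Y ℝ}
    (h : KStep π q G G') {W : Matrix Y Y ℝ} (hW : W.PosSemidef) :
    KStep π q (Matrix.of fun y y' => W y y' * G y y')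
      (Matrix.of fun y y' => W y y' * G' y y') := by
  induction h with
  | refl hG =>
    refine KStep.refl _ ?_
    have := hW.hadamard (by assumption : PosSemidef _)
    exact this
  | @step q G P M hP hM h ih =>
    have e1 : (Matrix.of fun y y' => W y y' * (P + ∑ i, M i) y y') =
        W ⊙ P + ∑ i, W ⊙ M i := by
      ext y y'
      simp [Matrix.add_apply, Matrix.sum_apply, mul_add, Finset.mul_sum]
    rw [e1] at ih
    have h1 := KStep.step' (π := π) (W ⊙ P) (fun i => W ⊙ M i) (hW.hadamard hP)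
      (fun i => hW.hadamard (hM i)) ih
    convert h1 using 1
    ext y y'
    simp only [Matrix.of_apply, Matrix.add_apply, Matrix.sum_apply, mul_add, Finset.mul_sum,
      sK_apply, Matrix.hadamard_apply]
    congr 1
    refine Finset.sum_congr rfl fun i _ => ?_
    ring

theorem KStep.add {π : Y → I → Bool} {q : ℕ} {G₁ G₁' G₂ G₂' : Matrix Y Y ℝ}
    (h₁ : KStep π q G₁ G₁') (h₂ : KStep π q G₂ G₂') : KStep π q (G₁ + G₂) (G₁' + G₂') := by
  induction q generalizing G₁' G₂' with
  | zero =>
    cases h₁; cases h₂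
    exact KStep.refl _ (PosSemidef.add (by assumption) (by assumption))
  | succ q ih =>
    cases h₁ with
    | step P M hP hM h =>
      cases h₂ with
      | step P2 M2 hP2 hM2 h2 =>
        have h3 := ih h h2
        have e : (P + ∑ i, M i) + (P2 + ∑ i, M2 i) = (P + P2) + ∑ i, (M i + M2 i) := by
          rw [Finset.sum_add_distrib]; abel
        rw [e] at h3
        have h4 := KStep.step' (π := π) (P + P2) (fun i => M i + M2 i) (hP.add hP2)
          (fun i => (hM i).add (hM2 i)) h3
        convert h4 using 1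
        have e2 : ∀ i, sK π i (M i + M2 i) = sK π i (M i) + sK π i (M2 i) := by
          intro i; ext y y'; simp [sK, mul_add]
        simp only [e2, Finset.sum_add_distrib]
        change (P + ∑ i, sK π i (M i)) + (P2 + ∑ i, sK π i (M2 i)) = _
        abel

theorem KStep.zero {π : Y → I → Bool} (q : ℕ) : KStep π q (0 : Matrix Y Y ℝ) 0 :=
  (KStep.refl 0 PosSemidef.zero).mono (Nat.zero_le q)

theorem KStep.sum {π : Y → I → Bool} {q : ℕ} {Ω : Type} [Fintype Ω] {G G' : Ω → Matrix Y Y ℝ}
    (h : ∀ ω, KStep π q (G ω) (G' ω)) : KStep π q (∑ ω, G ω) (∑ ω, G' ω) := by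
  classical
  have key : ∀ s : Finset Ω, KStep π q (∑ ω ∈ s, G ω) (∑ ω ∈ s, G' ω) := by
    intro s
    induction s using Finset.induction_on with
    | empty => simpa using KStep.zero q
    | insert a s ha ih =>
      rw [Finset.sum_insert ha, Finset.sum_insert ha]
      exact (h a).add ih
  exact key Finset.univ

/-- fibrewise linear combinations -/
theorem KStep.pull {π : Y → I → Bool} {π' : Y' → I → Bool} {q : ℕ} {G G' : Matrix Y Y ℝ}
    (h : KStep π q G G') (B : Matrix Y' Y ℝ) (hB : ∀ y' y, B y' y ≠ 0 → π' y' = π y) :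
    KStep π' q (B * G * Bᵀ) (B * G' * Bᵀ) := by
  have hpsd : ∀ M : Matrix Y Y ℝ, M.PosSemidef → (B * M * Bᵀ).PosSemidef := by
    intro M hM
    have := hM.mul_mul_conjTranspose_same B
    simpa [Matrix.conjTranspose_eq_transpose_of_trivial] using this
  have hs : ∀ (i : I) (M : Matrix Y Y ℝ), B * sK π i M * Bᵀ = sK π' i (B * M * Bᵀ) := by
    intro i M
    ext y y'
    simp only [sK_apply, Matrix.mul_apply, Matrix.transpose_apply, Finset.sum_mul, Finset.mul_sum]
    refine Finset.sum_congr rfl fun a _ => Finset.sum_congr rfl fun c _ => ?_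
    by_cases h1 : B y c = 0
    · simp [h1]
    by_cases h2 : B y' a = 0
    · simp [h2]
    rw [hB y c h1, hB y' a h2]
    ring
  induction h with
  | refl hG => exact KStep.refl _ (hpsd _ (by assumption))
  | @step q G P M hP hM h ih =>
    have e1 : B * (P + ∑ i, M i) * Bᵀ = B * P * Bᵀ + ∑ i, B * M i * Bᵀ := by
      rw [Matrix.mul_add, Matrix.add_mul, Matrix.mul_sum, Matrix.sum_mul]
    rw [e1] at ih
    have h1 := KStep.step' (π := π') (B * P * Bᵀ) (fun i => B * M i * Bᵀ) (hpsd _ hP)
      (fun i => hpsd _ (hM i)) ih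
    convert h1 using 1
    change B * (P + ∑ i, sK π i (M i)) * Bᵀ = _
    rw [Matrix.mul_add, Matrix.add_mul, Matrix.mul_sum, Matrix.sum_mul]
    simp only [hs]

/-- entries inside a fibre do not change -/
theorem KStep.fiber {π : Y → I → Bool} {q : ℕ} {G G' : Matrix Y Y ℝ}
    (h : KStep π q G G') (y y' : Y) (hy : π y = π y') : G' y y' = G y y' := by
  induction h with
  | refl hG => rfl
  | @step q G P M hP hM h ih =>
    rw [← ih]
    simp only [Matrix.add_apply, Matrix.sum_apply, Matrix.of_apply]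
    congr 1
    refine Finset.sum_congr rfl fun i _ => ?_
    rw [hy, sg_mul_self, one_mul]

/-- one phase query on the vectors `v y` -/
theorem KStep.phase {π : Y → I → Bool} {W : Type} [Fintype W] (v : Y → W → ℝ) (idx : W → I) :
    KStep π 1 (Matrix.of fun y y' => ∑ z, v y z * v y' z)
      (Matrix.of fun y y' => ∑ z, (sg (π y (idx z)) * v y z) * (sg (π y' (idx z)) * v y' z)) := by
  classical
  have h := KStep.one (π := π) (0 : Matrix Y Y ℝ)
    (fun i => Matrix.of fun y y' => ∑ z, (if idx z = i then v y z else 0) *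
      (if idx z = i then v y' z else 0)) PosSemidef.zero
    (fun i => posSemidef_gram fun y z => if idx z = i then v y z else 0)
  convert h using 1
  · ext y y'
    simp only [Matrix.of_apply, zero_add, Matrix.sum_apply]
    rw [Finset.sum_comm]
    refine Finset.sum_congr rfl fun z _ => ?_
    rw [Finset.sum_eq_single (idx z)]
    · simp
    · intro i _ hi
      simp [Ne.symm hi]
    · simp
  · ext y y'
    simp only [Matrix.of_apply, zero_add, Matrix.sum_apply, sK_apply, Finset.mul_sum]
    rw [Finset.sum_comm]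
    refine Finset.sum_congr rfl fun z _ => ?_
    rw [Finset.sum_eq_single (idx z)]
    · simp; ring
    · intro i _ hi
      simp [Ne.symm hi]
    · simp

variable {Ω Ω' : Type} [Fintype Ω] [Fintype Ω']

theorem QProc.nonneg {q : ℕ} {D : (I → Bool) → Ω → ℝ} (h : QProc I q D) (x : I → Bool) (ω : Ω) :
    0 ≤ D x ω := by
  obtain ⟨G, hG, _, hD⟩ := h
  rw [← hD]
  exact (hG ω).diag_nonneg

theorem QProc.sum_one {q : ℕ} {D : (I → Bool) → Ω → ℝ} (h : QProc I q D) (x : I → Bool) :
    ∑ ω, D x ω = 1 := by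
  classical
  obtain ⟨G, hG, hs, hD⟩ := h
  have := hs.fiber x x rfl
  rw [Matrix.sum_apply] at this
  simp only [← hD]
  simpa using this

theorem QProc.mono {q q' : ℕ} {D : (I → Bool) → Ω → ℝ} (h : QProc I q D) (hq : q ≤ q') :
    QProc I q' D := by
  classical
  obtain ⟨G, hG, hs, hD⟩ := h
  exact ⟨G, hG, hs.mono hq, hD⟩

theorem QProc.congr {q : ℕ} {D D' : (I → Bool) → Ω → ℝ} (h : QProc I q D)
    (he : ∀ x ω, D x ω = D' x ω) : QProc I q D' := by
  have : D = D' := by funext x ω; exact he x ω
  exact this ▸ h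

theorem QProc.pure (p : Ω → ℝ) (h0 : ∀ ω, 0 ≤ p ω) (h1 : ∑ ω, p ω = 1) :
    QProc I 0 (fun _ ω => p ω) := by
  classical
  have hJ : (Matrix.of fun _ _ => 1 : Matrix (I → Bool) (I → Bool) ℝ).PosSemidef := by
    simpa using posSemidef_rank1 (fun _ : I → Bool => (1 : ℝ))
  refine ⟨fun ω => p ω • Matrix.of fun _ _ => 1, fun ω => hJ.smul (h0 ω), ?_, ?_⟩
  · rw [← Finset.sum_smul, h1, one_smul]
    exact KStep.refl _ hJ
  · intro x ω; simp

theorem QProc.bind {q q' : ℕ} {D : (I → Bool) → Ω → ℝ} {D' : Ω → (I → Bool) → Ω' → ℝ}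
    (h : QProc I q D) (h' : ∀ ω, QProc I q' (D' ω)) :
    QProc I (q + q') (fun x ω' => ∑ ω, D x ω * D' ω x ω') := by
  classical
  obtain ⟨G, hG, hs, hD⟩ := h
  choose G' hG' hs' hD' using h'
  refine ⟨fun ω' => ∑ ω, G ω ⊙ G' ω ω', fun ω' => posSemidef_sum _ fun ω _ =>
    (hG ω).hadamard (hG' ω ω'), ?_, ?_⟩
  · have h1 : ∀ ω, KStep (fun x : I → Bool => x) q' (G ω) (∑ ω', G ω ⊙ G' ω ω') := by
      intro ω
      have h2 := (hs' ω).hadamard (hG ω)
      convert h2 using 1
      · ext x y; simp
      · ext x y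
        simp [Matrix.sum_apply, Finset.mul_sum]
    have h3 := hs.trans (KStep.sum h1)
    rw [Finset.sum_comm] at h3
    exact h3
  · intro x ω'
    show (∑ ω, G ω ⊙ G' ω ω') x x = ∑ ω, D x ω * D' ω x ω'
    rw [Matrix.sum_apply]
    refine Finset.sum_congr rfl fun ω _ => ?_
    rw [Matrix.hadamard_apply, hD, hD']

theorem QProc.map [DecidableEq Ω'] {q : ℕ} {D : (I → Bool) → Ω → ℝ} (h : QProc I q D)
    (f : Ω → Ω') : QProc I q (fun x ω' => ∑ ω, if f ω = ω' then D x ω else 0) := by
  classical
  have h1 := h.bind (q' := 0) (D' := fun ω _ ω' => if f ω = ω' then (1 : ℝ) else 0)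
    (fun ω => QProc.pure (I := I) (fun ω' => if f ω = ω' then (1 : ℝ) else 0)
      (fun ω' => by split_ifs <;> norm_num) (by simp))
  rw [add_zero] at h1
  refine h1.congr fun x ω' => ?_
  refine Finset.sum_congr rfl fun ω _ => ?_
  split_ifs <;> simp

theorem QProc.readBit (i : I) : QProc I 1 (fun x (o : Bool) => if x i = o then 1 else 0) := by
  classical
  have hJ : (Matrix.of fun _ _ => 1 : Matrix (I → Bool) (I → Bool) ℝ).PosSemidef := by
    simpa using posSemidef_rank1 (fun _ : I → Bool => (1 : ℝ))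
  have hJ2 : ((1 / 2 : ℝ) • (Matrix.of fun _ _ => 1 : Matrix (I → Bool) (I → Bool) ℝ)).PosSemidef :=
    hJ.smul (by norm_num : (0 : ℝ) ≤ 1 / 2)
  refine ⟨fun o => Matrix.of fun x y => (if x i = o then (1 : ℝ) else 0) *
    (if y i = o then (1 : ℝ) else 0), fun o => posSemidef_rank1 fun x : I → Bool => if x i = o then (1 : ℝ) else 0,
    ?_, ?_⟩
  · have h := KStep.one (π := fun x : I → Bool => x)
      ((1 / 2 : ℝ) • (Matrix.of fun _ _ => 1 : Matrix (I → Bool) (I → Bool) ℝ))
      (fun i' => if i' = i then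
        ((1 / 2 : ℝ) • (Matrix.of fun _ _ => 1 : Matrix (I → Bool) (I → Bool) ℝ)) else 0)
      hJ2 (fun i' => by split_ifs; exacts [hJ2, PosSemidef.zero])
    convert h using 1
    · ext x y
      simp only [Matrix.add_apply, Matrix.sum_apply, Matrix.smul_apply, Matrix.of_apply]
      rw [Finset.sum_eq_single i]
      · simp; norm_num
      · intro i' _ hi; simp [hi]
      · simp
    · ext x y
      simp only [Matrix.add_apply, Matrix.sum_apply, Matrix.smul_apply, Matrix.of_apply, sK_apply]
      rw [Finset.sum_eq_single i]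
      · rw [Fintype.sum_bool]
        cases hx : x i <;> cases hy : y i <;> simp [sg] <;> norm_num
      · intro i' _ hi; simp [hi]
      · simp
  · intro x o
    simp

end K1

end Crest.Agent.QGap
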