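import Crest.Agent.QGap.Kernel

/-! # S0554, module K6: simple procedures -/

set_option autoImplicit false
set_option linter.unusedSectionVars false

namespace Crest.Agent.QGap

open Matrix BigOperators

theorem gtree_proc {I Ω : Type} [Fintype I] [Fintype Ω] [DecidableEq Ω] (T : GTree I Ω) :
    QProc I T.depth (fun x ω => if T.eval x = ω then 1 else 0) := by
  classical
  induction T with
  | leaf ω₀ =>
    exact QProc.pure (fun ω => if ω₀ = ω then (1 : ℝ) else 0)
      (fun ω => by split_ifs <;> norm_num) (by simp)
  | node i t ih =>
    have h := (QProc.readBit i).bind (q' := max (t false).depth (t true).depth)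
      (D' := fun b x ω => if (t b).eval x = ω then (1 : ℝ) else 0)
      (fun b => (ih b).mono (by cases b <;> simp))
    rw [add_comm] at h
    refine h.congr fun x ω => ?_
    rw [Fintype.sum_bool]
    have he : (GTree.node i t).eval x = (t (x i)).eval x := rfl
    rcases Bool.eq_false_or_eq_true (x i) with hb | hb
    · rw [hb] at he
      simp [he, hb]
    · rw [hb] at he
      simp [he, hb]

theorem pi_proc {I : Type} [Fintype I] {L q : ℕ} {D : Fin L → (I → Bool) → Bool → ℝ}
    (h : ∀ ℓ, QProc I q (D ℓ)) :
    QProc I (L * q) (fun x (a : Fin L → Bool) => ∏ ℓ, D ℓ x (a ℓ)) := by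
  classical
  induction L with
  | zero =>
    have h0 := QProc.pure (I := I) (fun _ : Fin 0 → Bool => (1 : ℝ)) (fun _ => by norm_num)
      (by simp)
    rw [Nat.zero_mul]
    exact h0.congr fun x a => by simp
  | succ L ih =>
    have h1 := ih (D := fun ℓ => D ℓ.castSucc) (fun ℓ => h ℓ.castSucc)
    have h2 := h1.bind (q' := q)
      (D' := fun (a : Fin L → Bool) x (a' : Fin (L + 1) → Bool) =>
        ∑ b, if (Fin.snoc a b : Fin (L + 1) → Bool) = a' then D (Fin.last L) x b else 0)
      (fun a => (h (Fin.last L)).map (fun b => (Fin.snoc a b : Fin (L + 1) → Bool)))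
    have e : L * q + q = (L + 1) * q := by ring
    rw [e] at h2
    refine h2.congr fun x a' => ?_
    rw [Finset.sum_eq_single (fun ℓ : Fin L => a' ℓ.castSucc)]
    · rw [Finset.sum_eq_single (a' (Fin.last L))]
      · rw [if_pos, Fin.prod_univ_castSucc]
        funext ℓ
        refine Fin.lastCases ?_ (fun ℓ' => ?_) ℓ
        · rw [Fin.snoc_last]
        · rw [Fin.snoc_castSucc]
      · intro b _ hb
        rw [if_neg]
        intro hc
        apply hb
        have := congrFun hc (Fin.last L)
        rwa [Fin.snoc_last] at this
      · simp
    · intro a _ ha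
      rw [Finset.sum_eq_zero, mul_zero]
      intro b _
      rw [if_neg]
      intro hc
      apply ha
      funext ℓ
      have := congrFun hc ℓ.castSucc
      rwa [Fin.snoc_castSucc] at this
    · simp

theorem any_proc {I : Type} [Fintype I] {q : ℕ} {p : (I → Bool) → ℝ}
    (h : QProc I q (fun x => bern (p x))) (R : ℕ) :
    QProc I (R * q) (fun x => bern (1 - (1 - p x) ^ R)) := by
  classical
  induction R with
  | zero =>
    have h0 := QProc.pure (I := I) (fun o : Bool => if o then (0 : ℝ) else 1)
      (fun o => by cases o <;> norm_num) (by simp)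
    rw [Nat.zero_mul]
    refine h0.congr fun x o => ?_
    cases o <;> simp [bern]
  | succ R ih =>
    have h2 := ih.bind (q' := q)
      (D' := fun (o : Bool) x (o' : Bool) => if o then (if o' then (1 : ℝ) else 0)
        else bern (p x) o')
      (fun o => by
        cases o
        · simpa using h
        · have h0 := (QProc.pure (I := I) (fun o : Bool => if o then (1 : ℝ) else 0)
            (fun o => by cases o <;> norm_num) (by simp)).mono (Nat.zero_le q)
          simpa using h0)
    have e : R * q + q = (R + 1) * q := by ring
    rw [e] at h2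
    refine h2.congr fun x o => ?_
    rw [Fintype.sum_bool]
    cases o <;> simp [bern] <;> ring

end Crest.Agent.QGap
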