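import Crest.Agent.QGap.Defs
import Crest.Agent.QGap.Chain

/-! # S0554, module T1: the tables of the Walsh-Hadamard transforms -/

set_option autoImplicit false

namespace Crest.Agent.QGap

open Matrix BigOperators

section wht
variable {n : ℕ}

theorem sgZ_cast (b : Bool) : ((sgZ b : ℤ) : ℝ) = sg b := by
  cases b <;> simp [sgZ, sg]

/-- coefficients after `r` layers -/
def wl (r : ℕ) (z y : Z n) : ℝ :=
  ∏ t : Fin n, if (t : ℕ) < r then (if z t && y t then -1 else 1)
    else (if y t = z t then 1 else 0)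

theorem wl_zero (z y : Z n) : wl 0 z y = if y = z then 1 else 0 := by
  unfold wl
  simp only [not_lt_zero, if_false]
  by_cases h : y = z
  · subst h; simp
  · rw [if_neg h]
    obtain ⟨t, ht⟩ := Function.ne_iff.mp h
    exact Finset.prod_eq_zero (Finset.mem_univ t) (if_neg ht)

theorem wl_last (z y : Z n) : wl n z y = chi z y := by
  unfold wl chi
  refine Finset.prod_congr rfl fun t _ => ?_
  rw [if_pos t.isLt]

theorem wl_succ (r : Fin n) (z y : Z n) :
    wl (r + 1) z y = wl r (Function.update z r false) y +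
      sg (z r) * wl r (Function.update z r true) y := by
  unfold wl
  rw [← Finset.mul_prod_erase Finset.univ _ (Finset.mem_univ r),
    ← Finset.mul_prod_erase Finset.univ _ (Finset.mem_univ r),
    ← Finset.mul_prod_erase Finset.univ _ (Finset.mem_univ r)]
  have hoff : ∀ (b : Bool), ∀ t ∈ Finset.univ.erase r,
      (if (t : ℕ) < (r : ℕ) then (if (Function.update z r b) t && y t then (-1 : ℝ) else 1)
        else (if y t = (Function.update z r b) t then 1 else 0)) =
      (if (t : ℕ) < (r : ℕ) + 1 then (if z t && y t then (-1 : ℝ) else 1)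
        else (if y t = z t then 1 else 0)) := by
    intro b t ht
    have hne : t ≠ r := (Finset.mem_erase.mp ht).1
    have hne' : (t : ℕ) ≠ (r : ℕ) := fun h => hne (Fin.ext h)
    rw [Function.update_of_ne hne]
    have : ((t : ℕ) < (r : ℕ)) ↔ ((t : ℕ) < (r : ℕ) + 1) := by omega
    simp only [this]
  rw [Finset.prod_congr rfl (hoff false), Finset.prod_congr rfl (hoff true)]
  simp only [lt_irrefl, if_false, Function.update_self, Nat.lt_succ_self, if_true]
  rw [← mul_assoc, ← add_mul]
  congr 1
  cases h1 : z r <;> cases h2 : y r <;> simp [sg]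

theorem wht (u : Fin (n + 1) → Z n → ℝ)
    (hfly : ∀ (r : Fin n) z, u r.succ z = u r.castSucc (Function.update z r false) +
        sg (z r) * u r.castSucc (Function.update z r true)) (z : Z n) :
    u (Fin.last n) z = ∑ y, chi z y * u 0 y := by
  have key : ∀ (r : ℕ) (hr : r < n + 1) (z : Z n), u ⟨r, hr⟩ z = ∑ y, wl r z y * u 0 y := by
    intro r
    induction r with
    | zero =>
      intro hr z
      simp only [wl_zero]
      rw [Finset.sum_eq_single z]
      · simp
      · intro y _ hy; simp [hy]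
      · simp
    | succ r ih =>
      intro hr z
      have hr' : r < n := by omega
      have h := hfly ⟨r, hr'⟩ z
      have e1 : (⟨r, hr'⟩ : Fin n).succ = ⟨r + 1, hr⟩ := rfl
      have e2 : (⟨r, hr'⟩ : Fin n).castSucc = ⟨r, by omega⟩ := rfl
      rw [e1, e2, ih, ih, Finset.mul_sum, ← Finset.sum_add_distrib] at h
      rw [h]
      refine Finset.sum_congr rfl fun y _ => ?_
      have := wl_succ (⟨r, hr'⟩ : Fin n) z y
      simp only at this
      rw [this]
      ring
  have h := key n (Nat.lt_succ_self n) z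
  rw [show (⟨n, Nat.lt_succ_self n⟩ : Fin (n + 1)) = Fin.last n from rfl] at h
  rw [h]
  refine Finset.sum_congr rfl fun y _ => ?_
  rw [wl_last]

theorem table_block : ∀ (k : ℕ) (f : Pl k n → Bool) (t : Fin (k + 1) → Fin (n + 1) → Z n → ℝ)
    (_ : ∀ z, t 0 0 z = sg (f (0, z)))
    (_ : ∀ i (r : Fin n) z, t i r.succ z = t i r.castSucc (Function.update z r false) +
        sg (z r) * t i r.castSucc (Function.update z r true))
    (_ : ∀ (i : Fin k) z, t i.succ 0 z = sg (f (i.succ, z)) * t i.castSucc (Fin.last n) z)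
    (z : Z n),
    t (Fin.last k) 0 z = Real.sqrt ((2 : ℝ) ^ n) ^ k * chR k (fun i z => sg (f (i, z))) z := by
  intro k
  induction k with
  | zero =>
    intro f t hbase _ _ z
    simp only [pow_zero, one_mul, chR]
    exact hbase z
  | succ k ih =>
    intro f t hbase hfly hlink z
    have h1 := ih (fun p => f (p.1.castSucc, p.2)) (fun i => t i.castSucc)
      (fun z => hbase z) (fun i r z => hfly i.castSucc r z)
      (fun i z => by
        have := hlink i.castSucc z
        rw [Fin.succ_castSucc] at this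
        exact this)
    have h2 := hlink (Fin.last k) z
    have h3 := wht (fun r z => t (Fin.last k).castSucc r z)
      (fun r z => hfly (Fin.last k).castSucc r z) z
    simp only at h1 h3
    rw [← Fin.succ_last, h2, h3, chR]
    have hN : Real.sqrt ((2 : ℝ) ^ n) ≠ 0 := by positivity
    rw [Finset.mul_sum, Finset.mul_sum, Finset.mul_sum]
    refine Finset.sum_congr rfl fun y _ => ?_
    rw [h1 y, H, chi_comm y z, pow_succ, Fin.succ_last]
    field_simp

end wht

theorem table_correct {k n : ℕ} (f : Pl k n → Bool) (t : Fin (k + 1) → Fin (n + 1) → Z n → ℤ)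
    (hbase : ∀ z, t 0 0 z = sgZ (f (0, z)))
    (hfly : ∀ i (r : Fin n) z, t i r.succ z = t i r.castSucc (Function.update z r false) +
        sgZ (z r) * t i r.castSucc (Function.update z r true))
    (hlink : ∀ (i : Fin k) z, t i.succ 0 z = sgZ (f (i.succ, z)) * t i.castSucc (Fin.last n) z) :
    ((t (Fin.last k) (Fin.last n) fun _ => false : ℤ) : ℝ) ^ 2 =
      Phi f ^ 2 * (2 ^ n) ^ (k + 2) := by
  have hfly' : ∀ i (r : Fin n) z, ((t i r.succ z : ℤ) : ℝ) =
      (t i r.castSucc (Function.update z r false) : ℤ) +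
        sg (z r) * (t i r.castSucc (Function.update z r true) : ℤ) := by
    intro i r z
    rw [hfly i r z]; push_cast; rw [sgZ_cast]
  have h1 := table_block k f (fun i r z => ((t i r z : ℤ) : ℝ))
    (fun z => by rw [hbase z, sgZ_cast])
    hfly'
    (fun i z => by rw [hlink i z]; push_cast; rw [sgZ_cast])
  have h2 := wht (fun r z => ((t (Fin.last k) r z : ℤ) : ℝ)) (fun r z => hfly' (Fin.last k) r z)
    (fun _ => false)
  rw [h2]
  have h3 : ∀ y : Z n, chi (fun _ => false) y = 1 := by intro y; simp [chi]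
  simp only [h3, one_mul, h1]
  rw [← Finset.mul_sum, Phi_eq]
  have hN : ((2 : ℝ) ^ n) ≠ 0 := by positivity
  have hs : (Real.sqrt ((2 : ℝ) ^ n) ^ k) ^ 2 = ((2 : ℝ) ^ n) ^ k := by
    rw [← pow_mul, mul_comm k 2, pow_mul, Real.sq_sqrt (by positivity)]
  rw [mul_pow, hs, mul_pow]
  field_simp
  ring

/-- the layers of a transform -/
def lay {n : ℕ} (u : Z n → ℤ) : ℕ → Z n → ℤ
  | 0 => u
  | r + 1 => fun z => if h : r < n then lay u r (Function.update z ⟨r, h⟩ false) +
      sgZ (z ⟨r, h⟩) * lay u r (Function.update z ⟨r, h⟩ true) else 0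

/-- the first layers of the blocks -/
def blk {k n : ℕ} (f : Pl k n → Bool) : ℕ → Z n → ℤ
  | 0 => fun z => sgZ (f (0, z))
  | i + 1 => fun z => (if h : i + 1 < k + 1 then sgZ (f (⟨i + 1, h⟩, z)) else 0) *
      lay (blk f i) n z

theorem abs_sgZ (b : Bool) : |sgZ b| = 1 := by cases b <;> simp [sgZ]

theorem abs_lay {n : ℕ} (u : Z n → ℤ) (M : ℕ) (hu : ∀ z, |u z| ≤ 2 ^ M) :
    ∀ r z, |lay u r z| ≤ 2 ^ (M + r) := by
  intro r
  induction r with
  | zero => intro z; simpa [lay] using hu z
  | succ r ih =>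
    intro z
    simp only [lay]
    split_ifs with h
    · calc |lay u r (Function.update z ⟨r, h⟩ false) +
            sgZ (z ⟨r, h⟩) * lay u r (Function.update z ⟨r, h⟩ true)|
          ≤ |lay u r (Function.update z ⟨r, h⟩ false)| +
            |sgZ (z ⟨r, h⟩) * lay u r (Function.update z ⟨r, h⟩ true)| := abs_add_le _ _
        _ ≤ 2 ^ (M + r) + 2 ^ (M + r) := by
            rw [abs_mul, abs_sgZ, one_mul]
            exact add_le_add (ih _) (ih _)
        _ = 2 ^ (M + (r + 1)) := by ring
    · simp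

theorem abs_blk {k n : ℕ} (f : Pl k n → Bool) : ∀ i z, |blk f i z| ≤ 2 ^ (n * i) := by
  intro i
  induction i with
  | zero => intro z; simp [blk, abs_sgZ]
  | succ i ih =>
    intro z
    simp only [blk]
    rw [abs_mul]
    have h1 := abs_lay (blk f i) (n * i) ih n z
    have h2 : |if h : i + 1 < k + 1 then sgZ (f (⟨i + 1, h⟩, z)) else 0| ≤ 1 := by
      split_ifs
      · rw [abs_sgZ]
      · simp
    calc _ ≤ 1 * 2 ^ (n * i + n) := mul_le_mul h2 h1 (abs_nonneg _) (by norm_num)
      _ = 2 ^ (n * (i + 1)) := by rw [one_mul]; ring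

theorem table_exists {k n : ℕ} (f : Pl k n → Bool) :
    ∃ t : Fin (k + 1) → Fin (n + 1) → Z n → ℤ,
    (∀ z, t 0 0 z = sgZ (f (0, z))) ∧
    (∀ i (r : Fin n) z, t i r.succ z = t i r.castSucc (Function.update z r false) +
        sgZ (z r) * t i r.castSucc (Function.update z r true)) ∧
    (∀ (i : Fin k) z, t i.succ 0 z = sgZ (f (i.succ, z)) * t i.castSucc (Fin.last n) z) ∧
    ∀ i r z, |t i r z| ≤ 2 ^ (n * (k + 2)) := by
  refine ⟨fun i r z => lay (blk f i) r z, ?_, ?_, ?_, ?_⟩
  · intro z; simp [lay, blk]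
  · intro i r z
    simp only [Fin.val_succ, Fin.val_castSucc, lay, r.isLt, dif_pos]
  · intro i z
    have h : (i : ℕ) + 1 < k + 1 := by omega
    simp only [Fin.val_succ, Fin.val_castSucc, Fin.val_last, Fin.val_zero, lay, blk, h, dif_pos]
    rfl
  · intro i r z
    refine le_trans (abs_lay (blk f i) (n * i) (abs_blk f i) r z) ?_
    apply pow_le_pow_right₀ (by norm_num)
    have h1 : (i : ℕ) ≤ k := by omega
    have h2 : (r : ℕ) ≤ n := by omega
    nlinarith [Nat.mul_le_mul_left n h1]

theorem codec_exists (n k : ℕ) : Nonempty (Codec n k (n * (k + 2) + 3)) := by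
  classical
  set w := n * (k + 2) + 3 with hw
  set M : ℕ := 2 ^ (n * (k + 2)) with hM
  -- the integers
  have hcard : Fintype.card (Finset.Icc (-(M : ℤ)) M) ≤ Fintype.card (Fin w → Bool) := by
    rw [Fintype.card_coe, Int.card_Icc, Fintype.card_fun, Fintype.card_bool, Fintype.card_fin]
    have h1 : ((M : ℤ) + 1 - -(M : ℤ)).toNat = 2 * M + 1 := by omega
    rw [h1]
    have h2 : 2 ^ w = 8 * M := by rw [hw, hM, pow_add]; ring
    have h3 : 1 ≤ M := Nat.one_le_two_pow
    rw [h2]; omega
  obtain ⟨e⟩ := Function.Embedding.nonempty_of_card_le hcard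
  have h0mem : (0 : ℤ) ∈ Finset.Icc (-(M : ℤ)) M := by simp
  set e' : Finset.Icc (-(M : ℤ)) M → (Fin w → Bool) :=
    fun s => Equiv.swap (e ⟨0, h0mem⟩) (fun _ => false) (e s) with he'
  have hinj : Function.Injective e' := fun s s' h => e.injective ((Equiv.swap _ _).injective h)
  have he0 : e' ⟨0, h0mem⟩ = fun _ => false := by simp [he']
  set dI : (Fin w → Bool) → ℤ := fun v => if h : ∃ s, e' s = v then (h.choose : ℤ) else 0 with hdI
  have hdI' : ∀ s, dI (e' s) = s := by
    intro s
    have h : ∃ s', e' s' = e' s := ⟨s, rfl⟩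
    have h1 : h.choose = s := hinj h.choose_spec
    simp only [hdI, h, dif_pos]
    exact congrArg _ h1
  have hnw : n ≤ w := by
    rw [hw]; nlinarith
  refine ⟨⟨dI, fun v t => v ⟨t, by omega⟩, ?_, ?_, ?_⟩⟩
  · have := hdI' ⟨0, h0mem⟩
    rw [he0] at this
    exact this
  · intro t ht
    have hmem : t ∈ Finset.Icc (-(M : ℤ)) M := by
      rw [Finset.mem_Icc]
      have h1 := abs_le.mp ht
      constructor
      · rw [hM]; push_cast; exact h1.1
      · rw [hM]; push_cast; exact h1.2
    exact ⟨e' ⟨t, hmem⟩, hdI' _⟩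
  · intro z
    refine ⟨fun s => if h : (s : ℕ) < n then z ⟨s, h⟩ else false, ?_⟩
    funext t
    simp

end Crest.Agent.QGap
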