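import Crest.Agent.QGap.Defs
import Crest.Agent.QGap.Kernel
import Crest.Agent.QGap.ForrProc
import Crest.Agent.QGap.Procs
import Crest.Agent.QGap.Tableau

/-! # S0554, module U1: procedures for the total function -/

set_option autoImplicit false

namespace Crest.Agent.QGap

open Matrix BigOperators Crest.MathPhysics.Query MeasureTheory ProbabilityTheory

/-! ### trees -/
namespace Col

theorem eval_bind {I Ω Ω' : Type} (x : I → Bool) (T : GTree I Ω) (f : Ω → GTree I Ω') :
    (T.bind f).eval x = (f (T.eval x)).eval x := by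
  induction T with
  | leaf ω => rfl
  | node i t ih => exact ih (x i)

theorem depth_bind {I Ω Ω' : Type} (T : GTree I Ω) (f : Ω → GTree I Ω') (e : ℕ)
    (hf : ∀ ω, (f ω).depth ≤ e) : (T.bind f).depth ≤ T.depth + e := by
  induction T with
  | leaf ω => simpa [GTree.bind, GTree.depth] using hf ω
  | node i t ih =>
    have h0 := ih false
    have h1 := ih true
    simp only [GTree.bind, GTree.depth]
    omega

/-- read `w` bits -/
def readW {I : Type} : (w : ℕ) → (Fin w → I) → GTree I (Fin w → Bool)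
  | 0, _ => GTree.leaf fun t => t.elim0
  | w + 1, idx => GTree.node (idx 0) fun b =>
      (readW w fun t => idx t.succ).bind fun v => GTree.leaf (Fin.cons b v)

theorem eval_readW {I : Type} (x : I → Bool) (w : ℕ) (idx : Fin w → I) :
    (readW w idx).eval x = fun t => x (idx t) := by
  induction w with
  | zero => funext t; exact t.elim0
  | succ w ih =>
    have h : (readW (w + 1) idx).eval x =
        ((readW w fun t => idx t.succ).bind fun v => GTree.leaf (Fin.cons (x (idx 0)) v)).eval x :=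
      rfl
    rw [h, eval_bind, ih]
    funext t
    refine Fin.cases ?_ (fun t => ?_) t
    · rfl
    · rfl

theorem depth_readW {I : Type} (w : ℕ) (idx : Fin w → I) : (readW w idx).depth ≤ w := by
  induction w with
  | zero => exact le_refl _
  | succ w ih =>
    have h : ∀ b, ((readW w fun t => idx t.succ).bind
        fun v => (GTree.leaf (Fin.cons b v) : GTree I (Fin (w + 1) → Bool))).depth ≤ w := by
      intro b
      have h1 := depth_bind (readW w fun t => idx t.succ)
        (fun v => (GTree.leaf (Fin.cons b v) : GTree I (Fin (w + 1) → Bool))) 0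
        (fun v => le_refl _)
      have h2 := ih fun t => idx t.succ
      omega
    have h0 := h false
    have h1 := h true
    simp only [readW, GTree.depth]
    omega

theorem eval_readW_bind {I Ω : Type} (x : I → Bool) (w : ℕ) (idx : Fin w → I)
    (f : (Fin w → Bool) → GTree I Ω) :
    ((readW w idx).bind f).eval x = (f fun t => x (idx t)).eval x := by
  rw [eval_bind, eval_readW]

theorem depth_readW_bind {I Ω : Type} (w : ℕ) (idx : Fin w → I)
    (f : (Fin w → Bool) → GTree I Ω) (e : ℕ) (hf : ∀ v, (f v).depth ≤ e) :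
    ((readW w idx).bind f).depth ≤ w + e :=
  le_trans (depth_bind _ f e hf) (Nat.add_le_add_right (depth_readW w idx) e)

end Col

open Col

section U1
variable {n k L w : ℕ}

/-- probability that decoding column `c` gives the address `a` -/
noncomputable def decP (Rt : ℕ) (x : Ix n k L w → Bool) (c : Z n) (a : Fin L → Bool) : ℝ :=
  ∏ ℓ, bern (1 - (1 - Phi (plane x c ℓ) ^ 2) ^ Rt) (a ℓ)

/-- probability that the claim of `c` about `c'` is found true -/
noncomputable def pT (C : Codec n k w) (Rt : ℕ) (x : Ix n k L w → Bool) (c c' : Z n) : ℝ :=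
  ∑ a, decP Rt x c a * if flag x c' (krow C x a c') then 1 else 0

theorem dec_proc (Rt : ℕ) (c : Z n) :
    QProc (Ix n k L w) (L * (Rt * (k + 1))) (fun x a => decP Rt x c a) := by
  have h1 : ∀ ℓ : Fin L, QProc (Ix n k L w) (Rt * (k + 1))
      (fun x => bern (1 - (1 - Phi (plane x c ℓ) ^ 2) ^ Rt)) := fun ℓ =>
    any_proc (p := fun x : Ix n k L w → Bool => Phi (plane x c ℓ) ^ 2)
      (forr_proc (k := k) (n := n) (I := Ix n k L w) fun p => Sum.inl (c, ℓ, p)) Rt
  exact pi_proc h1

/-- the index of a bit of a memory word -/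
def widx (a : Fin L → Bool) (u : CellIx n k L) (t : Fin w) : Ix n k L w :=
  Sum.inr (Sum.inr (a, u, t))

/-- the tree testing the claim in cell `a` about column `c` -/
def claimTree (C : Codec n k w) (a : Fin L → Bool) (c : Z n) : GTree (Ix n k L w) Bool :=
  (readW w (widx a (Sum.inl c))).bind fun v => GTree.bit (Sum.inr (Sum.inl (c, C.decZ v)))

theorem claimTree_eval (C : Codec n k w) (a : Fin L → Bool) (c : Z n) (x : Ix n k L w → Bool) :
    (claimTree C a c).eval x = flag x c (krow C x a c) := by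
  unfold claimTree
  rw [eval_readW_bind]
  rfl

theorem claimTree_depth (C : Codec n k w) (a : Fin L → Bool) (c : Z n) :
    (claimTree (L := L) C a c).depth ≤ w + 1 :=
  depth_readW_bind w _ _ 1 fun _ => le_refl _

theorem decP_sum (Rt : ℕ) (x : Ix n k L w → Bool) (c : Z n) : ∑ a, decP Rt x c a = 1 :=
  (dec_proc (w := w) Rt c).sum_one x

theorem decP_nonneg (Rt : ℕ) (x : Ix n k L w → Bool) (c : Z n) (a : Fin L → Bool) :
    0 ≤ decP Rt x c a :=
  (dec_proc (w := w) Rt c).nonneg x a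

theorem test_proc (C : Codec n k w) (Rt : ℕ) (c c' : Z n) :
    QProc (Ix n k L w) (L * (Rt * (k + 1)) + (w + 1)) (fun x => bern (pT C Rt x c c')) := by
  have h := QProc.bind (dec_proc (n := n) (k := k) (L := L) (w := w) Rt c)
    (fun a => (gtree_proc (claimTree C a c')).mono (claimTree_depth C a c'))
  have he : (fun (x : Ix n k L w → Bool) (o : Bool) => ∑ a : Fin L → Bool,
      decP Rt x c a * if (claimTree C a c').eval x = o then 1 else 0) =
      fun x => bern (pT C Rt x c c') := by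
    funext x o
    cases o with
    | true =>
      simp only [bern, pT, claimTree_eval, if_true]
    | false =>
      have h1 := decP_sum Rt x c
      simp only [bern, pT, claimTree_eval, Bool.false_eq_true, if_false]
      calc (∑ a, decP Rt x c a * if flag x c' (krow C x a c') = false then (1 : ℝ) else 0)
          = ∑ a, (decP Rt x c a - decP Rt x c a *
              (if flag x c' (krow C x a c') = true then (1 : ℝ) else 0)) := by
            refine Finset.sum_congr rfl fun a _ => ?_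
            cases flag x c' (krow C x a c') <;> simp
        _ = 1 - ∑ a, decP Rt x c a *
              (if flag x c' (krow C x a c') = true then (1 : ℝ) else 0) := by
            rw [Finset.sum_sub_distrib, h1]
  rw [he] at h
  exact h

theorem Phi_sq_le_one (x : Ix n k L w → Bool) (c : Z n) (ℓ : Fin L) :
    Phi (plane x c ℓ) ^ 2 ≤ 1 := by
  have h := (forr_proc (k := k) (n := n) (I := Ix n k L w) fun p => Sum.inl (c, ℓ, p)).nonneg x
    false
  have h' : (0 : ℝ) ≤ 1 - Phi (plane x c ℓ) ^ 2 := h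
  linarith

theorem one_sub_le_prod {L : ℕ} (f : Fin L → ℝ) (η : ℝ) (h1 : ∀ ℓ, 1 - η ≤ f ℓ)
    (h0 : ∀ ℓ, 0 ≤ f ℓ) (h2 : ∀ ℓ, f ℓ ≤ 1) : 1 - L * η ≤ ∏ ℓ, f ℓ := by
  induction L with
  | zero => simp
  | succ L ih =>
    have ih' := ih (fun ℓ => f ℓ.succ) (fun ℓ => h1 _) (fun ℓ => h0 _) (fun ℓ => h2 _)
    rw [Fin.prod_univ_succ]
    have hp0 : 0 ≤ ∏ ℓ : Fin L, f ℓ.succ := Finset.prod_nonneg fun ℓ _ => h0 _
    have hp1 : ∏ ℓ : Fin L, f ℓ.succ ≤ 1 := Finset.prod_le_one (fun ℓ _ => h0 _) fun ℓ _ => h2 _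
    have ha := h1 0
    have hb := h0 0
    have hc := h2 0
    have hη : 0 ≤ η := by linarith
    push_cast
    nlinarith [mul_nonneg (sub_nonneg.mpr hp1) (sub_nonneg.mpr hc)]

/-- the thresholds of a certificate -/
theorem valid_phi (C : Codec n k w) (θ₁ θ₀ : ℝ) (x : Ix n k L w → Bool) (b : Z n)
    (a : Fin L → Bool) (hv : Valid C θ₁ θ₀ x b a) (ℓ : Fin L) :
    (a ℓ = true → θ₁ ≤ Phi (plane x b ℓ) ^ 2) ∧
    (a ℓ = false → Phi (plane x b ℓ) ^ 2 ≤ θ₀) := by
  have ht := table_correct (plane x b ℓ) (tab C x a ℓ)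
    (fun z => hv (.base ℓ z)) (fun i r z => hv (.fly ℓ i r z)) (fun i z => hv (.link ℓ i z))
  have hf : finalOK n k θ₁ θ₀ (a ℓ)
    (tab C x a ℓ (Fin.last k) (Fin.last n) fun _ => false) := hv (.final ℓ)
  have hpos : (0 : ℝ) < (2 ^ n) ^ (k + 2) := by positivity
  constructor
  · intro ha
    unfold finalOK at hf
    rw [ha, if_pos rfl, ht] at hf
    exact le_of_mul_le_mul_right hf hpos
  · intro ha
    unfold finalOK at hf
    rw [ha, if_neg (by decide), ht] at hf
    exact le_of_mul_le_mul_right hf hpos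

theorem dec_good (C : Codec n k w) (θ₁ θ₀ η : ℝ) (Rt : ℕ) (x : Ix n k L w → Bool) (b : Z n)
    (a : Fin L → Bool) (hv : Valid C θ₁ θ₀ x b a) (h1 : (1 - θ₁) ^ Rt ≤ η)
    (hθ1 : θ₁ ≤ 1) (h0 : Rt * θ₀ ≤ η) (hθ0 : 0 ≤ θ₀) : 1 - L * η ≤ decP Rt x b a := by
  unfold decP
  have hq : ∀ ℓ, 0 ≤ 1 - Phi (plane x b ℓ) ^ 2 ∧ 1 - Phi (plane x b ℓ) ^ 2 ≤ 1 := fun ℓ =>
    ⟨by linarith [Phi_sq_le_one x b ℓ], by nlinarith [sq_nonneg (Phi (plane x b ℓ))]⟩
  have hpw : ∀ ℓ, 0 ≤ (1 - Phi (plane x b ℓ) ^ 2) ^ Rt ∧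
      (1 - Phi (plane x b ℓ) ^ 2) ^ Rt ≤ 1 := fun ℓ =>
    ⟨pow_nonneg (hq ℓ).1 _, pow_le_one₀ (hq ℓ).1 (hq ℓ).2⟩
  apply one_sub_le_prod
  · intro ℓ
    obtain ⟨hv1, hv0⟩ := valid_phi C θ₁ θ₀ x b a hv ℓ
    cases hal : a ℓ with
    | true =>
      have h2 := hv1 hal
      have h3 : (1 - Phi (plane x b ℓ) ^ 2) ^ Rt ≤ (1 - θ₁) ^ Rt :=
        pow_le_pow_left₀ (hq ℓ).1 (by linarith) _
      simp only [bern, if_true]
      linarith
    | false =>
      have h2 := hv0 hal
      have h3 : 1 + (Rt : ℝ) * (-Phi (plane x b ℓ) ^ 2) ≤ (1 + -Phi (plane x b ℓ) ^ 2) ^ Rt :=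
        one_add_mul_le_pow (by linarith [(hq ℓ).1]) Rt
      have h4 : (Rt : ℝ) * Phi (plane x b ℓ) ^ 2 ≤ Rt * θ₀ :=
        mul_le_mul_of_nonneg_left h2 (Nat.cast_nonneg _)
      have h5 : (1 + -Phi (plane x b ℓ) ^ 2) ^ Rt = (1 - Phi (plane x b ℓ) ^ 2) ^ Rt := by
        rw [← sub_eq_add_neg]
      rw [h5] at h3
      simp only [bern, Bool.false_eq_true, if_false]
      linarith
  · intro ℓ
    cases a ℓ with
    | true => simp only [bern, if_true]; linarith [(hpw ℓ).2]
    | false => simp only [bern, Bool.false_eq_true, if_false]; linarith [(hpw ℓ).1]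
  · intro ℓ
    cases a ℓ with
    | true => simp only [bern, if_true]; linarith [(hpw ℓ).1]
    | false => simp only [bern, Bool.false_eq_true, if_false]; linarith [(hpw ℓ).2]

theorem pT_good (C : Codec n k w) (θ₁ θ₀ η : ℝ) (Rt : ℕ) (x : Ix n k L w → Bool) (b : Z n)
    (a : Fin L → Bool) (hv : Valid C θ₁ θ₀ x b a) (h1 : (1 - θ₁) ^ Rt ≤ η)
    (hθ1 : θ₁ ≤ 1) (h0 : Rt * θ₀ ≤ η) (hθ0 : 0 ≤ θ₀) (c : Z n) (hc : c ≠ b) :
    1 - L * η ≤ pT C Rt x b c ∧ pT C Rt x c b = 0 := by
  constructor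
  · have h2 := dec_good C θ₁ θ₀ η Rt x b a hv h1 hθ1 h0 hθ0
    have hk : flag x c (krow C x a c) = true := hv (.killer c) hc
    have h3 : decP Rt x b a * (if flag x c (krow C x a c) then (1 : ℝ) else 0) ≤
        pT C Rt x b c :=
      Finset.single_le_sum
        (f := fun a => decP Rt x b a * (if flag x c (krow C x a c) then (1 : ℝ) else 0))
        (fun a _ => mul_nonneg (decP_nonneg Rt x b a) (by split_ifs <;> norm_num))
        (Finset.mem_univ a)
    rw [hk, if_pos rfl, mul_one] at h3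
    linarith
  · unfold pT
    apply Finset.sum_eq_zero
    intro a' _
    have hk : flag x b (krow C x a' b) = false := hv (.noflag _)
    rw [hk]
    simp

/-- the constraints as a sum type -/
def kxEquiv (n k L : ℕ) : Kx n k L ≃
    (Z n ⊕ Z n ⊕ (Fin L × Z n) ⊕ (Fin L × Fin (k + 1) × Fin n × Z n) ⊕
      (Fin L × Fin k × Z n) ⊕ Fin L) where
  toFun
    | .noflag r => Sum.inl r
    | .killer c => Sum.inr (Sum.inl c)
    | .base ℓ z => Sum.inr (Sum.inr (Sum.inl (ℓ, z)))
    | .fly ℓ i r z => Sum.inr (Sum.inr (Sum.inr (Sum.inl (ℓ, i, r, z))))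
    | .link ℓ i z => Sum.inr (Sum.inr (Sum.inr (Sum.inr (Sum.inl (ℓ, i, z)))))
    | .final ℓ => Sum.inr (Sum.inr (Sum.inr (Sum.inr (Sum.inr ℓ))))
  invFun
    | Sum.inl r => .noflag r
    | Sum.inr (Sum.inl c) => .killer c
    | Sum.inr (Sum.inr (Sum.inl (ℓ, z))) => .base ℓ z
    | Sum.inr (Sum.inr (Sum.inr (Sum.inl (ℓ, i, r, z)))) => .fly ℓ i r z
    | Sum.inr (Sum.inr (Sum.inr (Sum.inr (Sum.inl (ℓ, i, z))))) => .link ℓ i z
    | Sum.inr (Sum.inr (Sum.inr (Sum.inr (Sum.inr ℓ)))) => .final ℓ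
  left_inv κ := by cases κ <;> rfl
  right_inv u := by
    rcases u with r | c | ⟨ℓ, z⟩ | ⟨ℓ, i, r, z⟩ | ⟨ℓ, i, z⟩ | ℓ <;> rfl

noncomputable instance : Fintype (Kx n k L) := Fintype.ofEquiv _ (kxEquiv n k L).symm

theorem card_Kx (n k L : ℕ) : Fintype.card (Kx n k L) =
    2 ^ n + 2 ^ n + L * 2 ^ n + L * (k + 1) * n * 2 ^ n + L * k * 2 ^ n + L := by
  rw [Fintype.card_congr (kxEquiv n k L)]
  simp only [Fintype.card_sum, Fintype.card_prod, Fintype.card_fin, Fintype.card_fun,
    Fintype.card_bool]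
  ring

open Classical in
theorem chk_tree (C : Codec n k w) (θ₁ θ₀ : ℝ) (b : Z n) (a : Fin L → Bool) (κ : Kx n k L) :
    ∃ T : GTree (Ix n k L w) Bool, T.depth ≤ 3 * w + 1 ∧
      ∀ x, T.eval x = decide (chk C θ₁ θ₀ x b a κ) := by
  cases κ with
  | noflag r =>
    refine ⟨(GTree.bit (Sum.inr (Sum.inl (b, r)))).bind fun v => GTree.leaf (!v), ?_, fun x => ?_⟩
    · have := depth_bind (GTree.bit (Sum.inr (Sum.inl (b, r))) : GTree (Ix n k L w) Bool)
        (fun v => GTree.leaf (!v)) 0 (fun v => le_refl _)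
      have h1 : (GTree.bit (Sum.inr (Sum.inl (b, r))) : GTree (Ix n k L w) Bool).depth = 1 := rfl
      omega
    · rw [eval_bind]
      have h1 : (GTree.bit (Sum.inr (Sum.inl (b, r))) : GTree (Ix n k L w) Bool).eval x =
        flag x b r := rfl
      rw [h1]
      have h2 : chk C θ₁ θ₀ x b a (.noflag r) = (flag x b r = false) := rfl
      rw [h2]
      cases flag x b r <;> simp [GTree.eval]
  | killer c =>
    by_cases hc : c = b
    · refine ⟨GTree.leaf true, Nat.zero_le _, fun x => ?_⟩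
      have h2 : chk C θ₁ θ₀ x b a (.killer c) := fun h => absurd hc h
      exact (decide_eq_true h2).symm
    · refine ⟨claimTree C a c, ?_, fun x => ?_⟩
      · have := claimTree_depth (L := L) C a c
        omega
      · rw [claimTree_eval]
        have h2 : chk C θ₁ θ₀ x b a (.killer c) =
          (c ≠ b → flag x c (krow C x a c) = true) := rfl
        rw [h2]
        cases flag x c (krow C x a c) <;> simp [hc]
  | base ℓ z =>
    refine ⟨(readW w (widx a (Sum.inr (ℓ, 0, 0, z)))).bind fun v =>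
      (GTree.bit (Sum.inl (b, ℓ, (0, z)))).bind fun s =>
        GTree.leaf (decide (C.decI v = sgZ s)), ?_, fun x => ?_⟩
    · refine le_trans (depth_readW_bind w _ _ 1 fun v => ?_) (by omega)
      exact depth_bind _ _ 0 fun s => le_refl _
    · rw [eval_readW_bind, eval_bind]
      exact decide_eq_decide.mpr (Iff.of_eq rfl)
  | fly ℓ i r z =>
    refine ⟨(readW w (widx a (Sum.inr (ℓ, i, r.succ, z)))).bind fun v₁ =>
      (readW w (widx a (Sum.inr (ℓ, i, r.castSucc, Function.update z r false)))).bind fun v₂ =>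
      (readW w (widx a (Sum.inr (ℓ, i, r.castSucc, Function.update z r true)))).bind fun v₃ =>
        GTree.leaf (decide (C.decI v₁ = C.decI v₂ + sgZ (z r) * C.decI v₃)), ?_, fun x => ?_⟩
    · refine le_trans (depth_readW_bind w _ _ (w + (w + 0)) fun v₁ => ?_) (by omega)
      refine depth_readW_bind w _ _ (w + 0) fun v₂ => ?_
      exact depth_readW_bind w _ _ 0 fun v₃ => le_refl _
    · rw [eval_readW_bind, eval_readW_bind, eval_readW_bind]
      exact decide_eq_decide.mpr (Iff.of_eq rfl)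
  | link ℓ i z =>
    refine ⟨(readW w (widx a (Sum.inr (ℓ, i.succ, 0, z)))).bind fun v₁ =>
      (readW w (widx a (Sum.inr (ℓ, i.castSucc, Fin.last n, z)))).bind fun v₂ =>
      (GTree.bit (Sum.inl (b, ℓ, (i.succ, z)))).bind fun s =>
        GTree.leaf (decide (C.decI v₁ = sgZ s * C.decI v₂)), ?_, fun x => ?_⟩
    · refine le_trans (depth_readW_bind w _ _ (w + 1) fun v₁ => ?_) (by omega)
      refine depth_readW_bind w _ _ 1 fun v₂ => ?_
      exact depth_bind _ _ 0 fun v₃ => le_refl _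
    · rw [eval_readW_bind, eval_readW_bind, eval_bind]
      exact decide_eq_decide.mpr (Iff.of_eq rfl)
  | final ℓ =>
    refine ⟨(readW w (widx a (Sum.inr (ℓ, Fin.last k, Fin.last n, fun _ => false)))).bind fun v =>
        GTree.leaf (decide (finalOK n k θ₁ θ₀ (a ℓ) (C.decI v))), ?_, fun x => ?_⟩
    · refine le_trans (depth_readW_bind w _ _ 0 fun v => le_refl _) (by omega)
    · rw [eval_readW_bind]
      exact decide_eq_decide.mpr (Iff.of_eq rfl)

end U1

end Crest.Agent.QGap
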