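import Crest.Agent.QGap.Defs

/-! # S0554, module L7 (trees half) -/

set_option autoImplicit false

namespace Crest.Agent.QGap

open Matrix BigOperators

namespace GTree
variable {I Ω : Type}

/-- indices read on input `x` -/
def path (x : I → Bool) : GTree I Ω → List I
  | leaf _ => []
  | node i t => i :: (t (x i)).path x

/-- pruned evaluation: answer `true` as soon as a bit of `Sa` or the `(m + 1)`-st bit of `Sb`
is read -/
def pr (Sa Sb : I → Bool) (x : I → Bool) : GTree I Bool → ℕ → Bool
  | leaf o, _ => o
  | node i t, m => if Sa i then true else
      if Sb i then (match m with
        | 0 => true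
        | m + 1 => (t (x i)).pr Sa Sb x m)
      else (t (x i)).pr Sa Sb x m

theorem path_length (x : I → Bool) (T : GTree I Ω) : (T.path x).length ≤ T.depth := by
  induction T with
  | leaf ω => simp [path, depth]
  | node i t ih =>
    have h := ih (x i)
    have h2 : (t (x i)).depth ≤ max (t false).depth (t true).depth := by
      cases x i
      · exact le_max_left _ _
      · exact le_max_right _ _
    simp only [path, depth, List.length_cons]
    omega

/-- restricting the pruned tree to a block of counted bits -/
theorem pr_swap {J : Type} (Sa Sb : I → Bool) (blk : I → Option J)
    (hblk : ∀ i j, blk i = some j → Sb i = true ∧ Sa i = false) (x : I → Bool)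
    (T : GTree I Bool) (m : ℕ) : ∃ T' : GTree J Bool, T'.depth ≤ m ∧ ∀ f : J → Bool,
      T'.eval f = T.pr Sa Sb (fun i => match blk i with
        | some j => f j
        | none => x i) m := by
  induction T generalizing m with
  | leaf o => exact ⟨leaf o, by simp [depth], fun f => by simp [eval, pr]⟩
  | node i t ih =>
    by_cases hSa : Sa i = true
    · exact ⟨leaf true, by simp [depth], fun f => by simp [eval, pr, hSa]⟩
    · by_cases hSb : Sb i = true
      · cases m with
        | zero => exact ⟨leaf true, by simp [depth], fun f => by simp [eval, pr, hSa, hSb]⟩
        | succ m =>
          cases hb : blk i with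
          | none =>
            obtain ⟨T', hT', hT2⟩ := ih (x i) m
            refine ⟨T', by omega, fun f => ?_⟩
            rw [hT2 f]
            simp [pr, hSa, hSb, hb]
          | some j =>
            choose T' hT' hT2 using fun b => ih b m
            refine ⟨node j T', ?_, fun f => ?_⟩
            · have h0 := hT' false
              have h1 := hT' true
              simp only [depth]
              omega
            · simp only [eval]
              rw [hT2 (f j) f]
              simp [pr, hSa, hSb, hb]
      · have hb : blk i = none := by
          cases hb : blk i with
          | none => rfl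
          | some j => exact absurd (hblk i j hb).1 hSb
        obtain ⟨T', hT', hT2⟩ := ih (x i) m
        refine ⟨T', hT', fun f => ?_⟩
        rw [hT2 f]
        simp [pr, hSa, hSb, hb]

theorem pr_of_eval (Sa Sb : I → Bool) (x x' : I → Bool) (h : ∀ i, Sa i = false → x i = x' i)
    (T : GTree I Bool) (m : ℕ) (hT : T.eval x = true) : T.pr Sa Sb x' m = true := by
  induction T generalizing m with
  | leaf o => simpa [eval, pr] using hT
  | node i t ih =>
    by_cases hSa : Sa i = true
    · simp [pr, hSa]
    · have hx : x i = x' i := h i (by simpa using hSa)
      have hT' : (t (x' i)).eval x = true := by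
        rw [← hx]; simpa [eval] using hT
      by_cases hSb : Sb i = true
      · cases m with
        | zero => simp [pr, hSa, hSb]
        | succ m => simpa [pr, hSa, hSb] using ih (x' i) m hT'
      · simpa [pr, hSa, hSb] using ih (x' i) m hT'

open Classical in
theorem pr_killer {R : Type} [Fintype R] (Sa Sb : I → Bool) (x : I → Bool) (fl : R → I)
    (hinj : Function.Injective fl) (hfl : ∀ r, Sb (fl r) = true) (T : GTree I Bool) (m : ℕ) :
    ∑ _r : R, (if T.pr Sa Sb x m = true then (1 : ℝ) else 0) ≤
      (∑ r : R, if T.pr Sa Sb (Function.update x (fl r) true) m = true then (1 : ℝ) else 0) + m := by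
  induction T generalizing m with
  | leaf o =>
    have : (0 : ℝ) ≤ m := Nat.cast_nonneg m
    exact le_add_of_nonneg_right this
  | node i t ih =>
    by_cases hSa : Sa i = true
    · have : (0 : ℝ) ≤ m := Nat.cast_nonneg m
      simp only [pr, hSa, if_true]
      exact le_add_of_nonneg_right this
    · by_cases hSb : Sb i = true
      · cases m with
        | zero => simp [pr, hSa, hSb]
        | succ m =>
          have h1 := ih (x i) m
          have h2 : (∑ r : R, if (t (x i)).pr Sa Sb (Function.update x (fl r) true) m = true
                then (1 : ℝ) else 0) ≤
              (∑ r : R, if (t (Function.update x (fl r) true i)).pr Sa Sb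
                (Function.update x (fl r) true) m = true then (1 : ℝ) else 0) + 1 := by
            have h3 : ∀ r : R, (if (t (x i)).pr Sa Sb (Function.update x (fl r) true) m = true
                then (1 : ℝ) else 0) ≤
                (if (t (Function.update x (fl r) true i)).pr Sa Sb
                (Function.update x (fl r) true) m = true then (1 : ℝ) else 0) +
                (if i = fl r then (1 : ℝ) else 0) := by
              intro r
              by_cases hi : i = fl r
              · rw [if_pos hi]
                split_ifs <;> norm_num
              · rw [if_neg hi, Function.update_of_ne hi]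
                linarith
            refine le_trans (Finset.sum_le_sum fun r _ => h3 r) ?_
            rw [Finset.sum_add_distrib]
            have h4 : (∑ r : R, (if i = fl r then (1 : ℝ) else 0)) ≤ 1 := by
              rw [Finset.sum_ite, Finset.sum_const_zero, add_zero, Finset.sum_const, nsmul_eq_mul,
                mul_one]
              have : (Finset.univ.filter fun r : R => i = fl r).card ≤ 1 := by
                rw [Finset.card_le_one]
                intro a ha b hb
                simp only [Finset.mem_filter, Finset.mem_univ, true_and] at ha hb
                exact hinj (ha.symm.trans hb)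
              exact_mod_cast this
            linarith
          simp only [pr, hSa, hSb, if_true, Bool.false_eq_true, if_false]
          push_cast
          linarith
      · have h2 : ∀ r : R, Function.update x (fl r) true i = x i := by
          intro r
          rw [Function.update_of_ne]
          rintro rfl
          exact hSb (hfl r)
        have h1 := ih (x i) m
        simp only [pr, hSa, hSb, Bool.false_eq_true, if_false]
        simp only [h2]
        exact h1

theorem pr_final (Sa Sb : I → Bool) (x : I → Bool) (T : GTree I Bool) (m : ℕ)
    (h : T.pr Sa Sb x m = true) :
    T.eval x = true ∨ (∃ i ∈ T.path x, Sa i = true) ∨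
      m + 1 ≤ ((T.path x).filter fun i => Sb i).length := by
  induction T generalizing m with
  | leaf o => left; simpa [eval, pr] using h
  | node i t ih =>
    by_cases hSa : Sa i = true
    · right; left; exact ⟨i, by simp [path], hSa⟩
    · by_cases hSb : Sb i = true
      · cases m with
        | zero =>
          right; right
          simp [path, hSb]
        | succ m =>
          have h' : (t (x i)).pr Sa Sb x m = true := by simpa [pr, hSa, hSb] using h
          rcases ih (x i) m h' with h1 | ⟨j, hj, hj2⟩ | h1
          · left; simpa [eval] using h1
          · right; left; exact ⟨j, by simp [path, hj], hj2⟩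
          · right; right
            simp only [path, List.filter_cons, hSb, if_true, List.length_cons]
            omega
      · have h' : (t (x i)).pr Sa Sb x m = true := by simpa [pr, hSa, hSb] using h
        rcases ih (x i) m h' with h1 | ⟨j, hj, hj2⟩ | h1
        · left; simpa [eval] using h1
        · right; left; exact ⟨j, by simp [path, hj], hj2⟩
        · right; right
          simpa [path, List.filter_cons, hSb] using h1

theorem sum_one_le {A : Type} [Fintype A] (S : A → Prop) [DecidablePred S]
    (hS : ∀ a a', S a → S a' → a = a') :
    ∑ a : A, (if S a then (1 : ℝ) else 0) ≤ 1 := by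
  rw [Finset.sum_ite, Finset.sum_const_zero, add_zero, Finset.sum_const, nsmul_eq_mul, mul_one]
  have : (Finset.univ.filter fun a : A => S a).card ≤ 1 := by
    rw [Finset.card_le_one]
    intro a ha b hb
    simp only [Finset.mem_filter, Finset.mem_univ, true_and] at ha hb
    exact hS a b ha hb
  exact_mod_cast this

open Classical in
theorem sum_hit {A : Type} [Fintype A] (l : List I) (S : A → I → Bool)
    (hS : ∀ i a a', S a i = true → S a' i = true → a = a') :
    ∑ a : A, (if ∃ i ∈ l, S a i = true then (1 : ℝ) else 0) ≤ l.length := by
  induction l with
  | nil => simp
  | cons i l ih =>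
    have h1 : ∀ a : A, (if ∃ j ∈ i :: l, S a j = true then (1 : ℝ) else 0) ≤
        (if S a i = true then (1 : ℝ) else 0) +
          (if ∃ j ∈ l, S a j = true then (1 : ℝ) else 0) := by
      intro a
      by_cases h : S a i = true
      · rw [if_pos h]
        split_ifs <;> norm_num
      · rw [if_neg h]
        by_cases h2 : ∃ j ∈ l, S a j = true
        · rw [if_pos h2]
          split_ifs <;> norm_num
        · rw [if_neg h2, if_neg]
          · norm_num
          · rintro ⟨j, hj, hj2⟩
            rcases List.mem_cons.mp hj with rfl | hj
            · exact h hj2
            · exact h2 ⟨j, hj, hj2⟩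
    refine le_trans (Finset.sum_le_sum fun a _ => h1 a) ?_
    rw [Finset.sum_add_distrib]
    have h2 := sum_one_le (fun a : A => S a i = true) (fun a a' => hS i a a')
    simp only [List.length_cons]
    push_cast
    linarith

theorem sum_filter_length {A : Type} [Fintype A] (l : List I) (S : A → I → Bool)
    (hS : ∀ i a a', S a i = true → S a' i = true → a = a') :
    ∑ a : A, ((l.filter fun i => S a i).length : ℝ) ≤ l.length := by
  classical
  induction l with
  | nil => simp
  | cons i l ih =>
    have h1 : ∀ a : A, (((i :: l).filter fun i => S a i).length : ℝ) =
        (if S a i = true then (1 : ℝ) else 0) + ((l.filter fun i => S a i).length : ℝ) := by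
      intro a
      by_cases h : S a i = true
      · simp [h]; ring
      · simp [h]
    rw [Finset.sum_congr rfl fun a _ => h1 a, Finset.sum_add_distrib]
    have h2 := sum_one_le (fun a : A => S a i = true) (fun a a' => hS i a a')
    simp only [List.length_cons]
    push_cast
    linarith

open Classical in
theorem sum_many {A : Type} [Fintype A] (l : List I) (S : A → I → Bool)
    (hS : ∀ i a a', S a i = true → S a' i = true → a = a') (m : ℕ) :
    ∑ a : A, (if m + 1 ≤ (l.filter fun i => S a i).length then (1 : ℝ) else 0) ≤
      l.length / (m + 1 : ℝ) := by
  have hm : (0 : ℝ) < (m : ℝ) + 1 := by positivity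
  rw [le_div_iff₀ hm]
  refine le_trans ?_ (sum_filter_length l S hS)
  rw [Finset.sum_mul]
  refine Finset.sum_le_sum fun a _ => ?_
  split_ifs with h
  · rw [one_mul]; exact_mod_cast h
  · rw [zero_mul]; positivity

end GTree

end Crest.Agent.QGap
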