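import Crest.Agent.QGap.Defs
import Crest.Agent.QGap.Tableau
import Crest.Agent.QGap.HybTree

/-! # S0554, module L7: the hybrid argument (helper20) -/

set_option autoImplicit false
set_option linter.unusedSectionVars false

namespace Crest.Agent.QGap

open Matrix BigOperators Crest.MathPhysics.Query

namespace HybAux

/-! ### Product weights -/
section weights
variable {M F : Type} [Fintype M] [DecidableEq M] [Fintype F]

lemma total (w : M → F → ℝ) (hw : ∀ m, ∑ f, w m f = 1) :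
    ∑ P : M → F, ∏ m, w m (P m) = 1 := by
  classical
  rw [← Fintype.prod_sum]
  simp [hw]

/-- the involution `(P, f) ↦ (update P m f, P m)` -/
def invo (m : M) : (M → F) × F ≃ (M → F) × F where
  toFun q := (Function.update q.1 m q.2, q.1 m)
  invFun q := (Function.update q.1 m q.2, q.1 m)
  left_inv q := by simp
  right_inv q := by simp

lemma sum_invo (m : M) (Φ : (M → F) → F → ℝ) :
    ∑ P : M → F, ∑ f, Φ (Function.update P m f) (P m) = ∑ P : M → F, ∑ f, Φ P f := by
  classical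
  rw [← Fintype.sum_prod_type', ← Fintype.sum_prod_type']
  exact Equiv.sum_comp (invo m) (fun q => Φ q.1 q.2)

lemma resample (w w' : M → F → ℝ) (m0 : M) (hoff : ∀ m, m ≠ m0 → w m = w' m)
    (hw' : ∑ f, w' m0 f = 1) (Φ : (M → F) → ℝ) :
    ∑ P : M → F, (∏ m, w m (P m)) * Φ P =
      ∑ P : M → F, (∏ m, w' m (P m)) * ∑ f, w m0 f * Φ (Function.update P m0 f) := by
  classical
  have h1 : ∑ P : M → F, (∏ m, w' m (P m)) * ∑ f, w m0 f * Φ (Function.update P m0 f) =
      ∑ P : M → F, ∑ f, (∏ m, w' m (Function.update P m0 f m)) * (w m0 (P m0) * Φ P) := by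
    rw [← sum_invo m0]
    refine Finset.sum_congr rfl fun P _ => ?_
    rw [Finset.mul_sum]
    refine Finset.sum_congr rfl fun f _ => ?_
    simp
  rw [h1]
  refine Finset.sum_congr rfl fun P _ => ?_
  rw [← Finset.sum_mul]
  have h2 : ∀ f, ∏ m, w' m (Function.update P m0 f m) =
      w' m0 f * ∏ m ∈ Finset.univ.erase m0, w' m (P m) := by
    intro f
    rw [← Finset.mul_prod_erase _ _ (Finset.mem_univ m0)]
    congr 1
    · simp
    · refine Finset.prod_congr rfl fun m hm => ?_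
      rw [Function.update_of_ne (Finset.ne_of_mem_erase hm)]
  simp only [h2]
  rw [← Finset.sum_mul, hw', one_mul, ← Finset.mul_prod_erase _ _ (Finset.mem_univ m0)]
  have h3 : ∏ m ∈ Finset.univ.erase m0, w m (P m) = ∏ m ∈ Finset.univ.erase m0, w' m (P m) :=
    Finset.prod_congr rfl fun m hm => by rw [hoff m (Finset.ne_of_mem_erase hm)]
  rw [h3]
  ring

lemma marginal (w : M → F → ℝ) (hw : ∀ m, ∑ f, w m f = 1) (m0 : M) (g : F → ℝ) :
    ∑ P : M → F, (∏ m, w m (P m)) * g (P m0) = ∑ f, w m0 f * g f := by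
  rw [resample w w m0 (fun _ _ => rfl) (hw m0) (fun P => g (P m0))]
  simp only [Function.update_self]
  rw [← Finset.sum_mul, total w hw, one_mul]

lemma hybrid_swap (w w' : M → F → ℝ) (hw0 : ∀ m f, 0 ≤ w m f) (hw1 : ∀ m, ∑ f, w m f = 1)
    (hw0' : ∀ m f, 0 ≤ w' m f) (hw1' : ∀ m, ∑ f, w' m f = 1) (Φ : (M → F) → ℝ) (A : M → ℝ)
    (hA : ∀ m P, ∑ f, (w m f - w' m f) * Φ (Function.update P m f) ≤ A m) :
    ∑ P : M → F, (∏ m, w m (P m)) * Φ P ≤
      ∑ P : M → F, (∏ m, w' m (P m)) * Φ P + ∑ m, A m := by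
  classical
  have key : ∀ S : Finset M,
      ∑ P : M → F, (∏ m, (if m ∈ S then w m else w' m) (P m)) * Φ P ≤
      ∑ P : M → F, (∏ m, w' m (P m)) * Φ P + ∑ m ∈ S, A m := by
    intro S
    induction S using Finset.induction_on with
    | empty => simp
    | insert m0 S hm0 ih =>
      set W : M → F → ℝ := fun m => if m ∈ S then w m else w' m with hW
      have hW0 : ∀ m f, 0 ≤ W m f := by
        intro m f
        simp only [hW]
        split_ifs
        · exact hw0 m f
        · exact hw0' m f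
      have hW1 : ∀ m, ∑ f, W m f = 1 := by
        intro m
        simp only [hW]
        split_ifs
        · exact hw1 m
        · exact hw1' m
      have hWm : W m0 = w' m0 := by simp [hW, hm0]
      have e1 := resample (fun m => if m ∈ insert m0 S then w m else w' m) W m0
        (fun m hm => by simp [hW, hm]) (hW1 m0) Φ
      have e2 := resample W W m0 (fun _ _ => rfl) (hW1 m0) Φ
      simp only [Finset.mem_insert, true_or, if_true] at e1
      rw [hWm] at e2
      have e3 : ∑ P : M → F, (∏ m, W m (P m)) * ∑ f, w m0 f * Φ (Function.update P m0 f) -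
          ∑ P : M → F, (∏ m, W m (P m)) * ∑ f, w' m0 f * Φ (Function.update P m0 f) ≤ A m0 := by
        rw [← Finset.sum_sub_distrib]
        calc _ = ∑ P : M → F, (∏ m, W m (P m)) *
              ∑ f, (w m0 f - w' m0 f) * Φ (Function.update P m0 f) := by
              refine Finset.sum_congr rfl fun P _ => ?_
              rw [← mul_sub, ← Finset.sum_sub_distrib]
              congr 1
              exact Finset.sum_congr rfl fun f _ => by ring
          _ ≤ ∑ P : M → F, (∏ m, W m (P m)) * A m0 :=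
              Finset.sum_le_sum fun P _ => mul_le_mul_of_nonneg_left (hA m0 P)
                (Finset.prod_nonneg fun m _ => hW0 m (P m))
          _ = A m0 := by rw [← Finset.sum_mul, total W hW1, one_mul]
      rw [Finset.sum_insert hm0]
      simp only [Finset.mem_insert]
      linarith
  have := key Finset.univ
  simpa using this

end weights

/-! ### Inputs -/
section inputs
variable {n k L w : ℕ}

/-- an input given by planes, killer flags and memory -/
def inp (P : Z n × Fin L → (Pl k n → Bool)) (fl : Z n → Z n → Bool)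
    (mem : (Fin L → Bool) × CellIx n k L × Fin w → Bool) : Ix n k L w → Bool
  | Sum.inl (c, ℓ, p) => P (c, ℓ) p
  | Sum.inr (Sum.inl (c, r)) => fl c r
  | Sum.inr (Sum.inr q) => mem q

/-- every column has one killer -/
def fl0 (ρ : Z n → Z n) (c r : Z n) : Bool := decide (r = ρ c)

/-- every column but `b` has one killer -/
def fl1 (b : Z n) (ρ : Z n → Z n) (c r : Z n) : Bool := decide (c ≠ b ∧ r = ρ c)

/-- the bits of the cell `a` -/
def Sa (a : Fin L → Bool) : Ix n k L w → Bool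
  | Sum.inr (Sum.inr (a', _, _)) => decide (a' = a)
  | _ => false

/-- the bits of the column `b` -/
def Sb (b : Z n) : Ix n k L w → Bool
  | Sum.inl (c, _, _) => decide (c = b)
  | Sum.inr (Sum.inl (c, _)) => decide (c = b)
  | _ => false

/-- the block of the plane `ℓ` of the column `b` -/
def blk (b : Z n) (ℓ : Fin L) : Ix n k L w → Option (Pl k n)
  | Sum.inl (c, ℓ', p) => if c = b ∧ ℓ' = ℓ then some p else none
  | _ => none

lemma Sa_disj (i : Ix n k L w) (a a' : Fin L → Bool) (h : Sa a i = true) (h' : Sa a' i = true) :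
    a = a' := by
  rcases i with ⟨c, ℓ, p⟩ | ⟨c, r⟩ | ⟨a'', u, t⟩
  · simp [Sa] at h
  · simp [Sa] at h
  · simp only [Sa, decide_eq_true_eq] at h h'
    rw [← h, ← h']

lemma Sb_disj (i : Ix n k L w) (b b' : Z n) (h : Sb b i = true) (h' : Sb b' i = true) :
    b = b' := by
  rcases i with ⟨c, ℓ, p⟩ | ⟨c, r⟩ | ⟨a'', u, t⟩
  · simp only [Sb, decide_eq_true_eq] at h h'
    rw [← h, ← h']
  · simp only [Sb, decide_eq_true_eq] at h h'
    rw [← h, ← h']
  · simp [Sb] at h

lemma blk_spec (a : Fin L → Bool) (b : Z n) (ℓ : Fin L) (i : Ix n k L w) (j : Pl k n)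
    (h : blk b ℓ i = some j) : Sb b i = true ∧ Sa a i = false := by
  rcases i with ⟨c, ℓ', p⟩ | ⟨c, r⟩ | ⟨a'', u, t⟩
  · simp only [blk] at h
    split_ifs at h with hc
    simp [Sb, Sa, hc.1]
  · simp [blk] at h
  · simp [blk] at h

lemma inp_update (P : Z n × Fin L → (Pl k n → Bool)) (fl : Z n → Z n → Bool)
    (mem : (Fin L → Bool) × CellIx n k L × Fin w → Bool) (b : Z n) (ℓ : Fin L)
    (f : Pl k n → Bool) :
    inp (Function.update P (b, ℓ) f) fl mem = fun i => match blk b ℓ i with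
      | some j => f j
      | none => inp P fl mem i := by
  funext i
  rcases i with ⟨c, ℓ', p⟩ | ⟨c, r⟩ | ⟨a'', u, t⟩
  · by_cases h : c = b ∧ ℓ' = ℓ
    · obtain ⟨rfl, rfl⟩ := h
      simp [blk, inp]
    · have h' : ((c, ℓ') : Z n × Fin L) ≠ (b, ℓ) := fun e => h (by simpa using e)
      rw [show inp (Function.update P (b, ℓ) f) fl mem (Sum.inl (c, ℓ', p)) =
        Function.update P (b, ℓ) f (c, ℓ') p from rfl, Function.update_of_ne h']
      simp [blk, inp, h]
  · simp [blk, inp]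
  · simp [blk, inp]

open Classical in
lemma inp_killer (P : Z n × Fin L → (Pl k n → Bool)) (b : Z n) (ρ : Z n → Z n) (r : Z n)
    (mem : (Fin L → Bool) × CellIx n k L × Fin w → Bool) :
    inp P (fl0 (Function.update ρ b r)) mem =
      Function.update (inp P (fl1 b ρ) mem) (Sum.inr (Sum.inl (b, r))) true := by
  funext i
  rcases i with ⟨c, ℓ', p⟩ | ⟨c, r'⟩ | ⟨a'', u, t⟩
  · rw [Function.update_of_ne (by simp)]
    rfl
  · by_cases h : c = b
    · subst h
      by_cases hr : r' = r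
      · subst hr
        rw [Function.update_self]
        simp [inp, fl0]
      · rw [Function.update_of_ne (by simp [hr])]
        simp [inp, fl0, fl1, hr]
    · rw [Function.update_of_ne (by simp [h])]
      simp [inp, fl0, fl1, h]
  · rw [Function.update_of_ne (by simp)]
    rfl

lemma fl1_update (b : Z n) (ρ : Z n → Z n) (r : Z n) :
    fl1 b (Function.update ρ b r) = fl1 b ρ := by
  funext c r'
  by_cases h : c = b
  · simp [fl1, h]
  · simp [fl1, h]

lemma FF_zero (C : Codec n k w) (θ₁ θ₀ : ℝ) (hL : 1 ≤ L)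
    (P : Z n × Fin L → (Pl k n → Bool)) (fl : Z n → Z n → Bool) :
    FF C θ₁ θ₀ (inp P fl fun _ => false) = false := by
  classical
  unfold FF
  apply decide_eq_false
  rintro ⟨b, a, hv⟩
  have h : C.decI (fun _ => false) =
      sgZ (P (b, ⟨0, hL⟩) ((0 : Fin (k + 1)), fun _ => false)) :=
    hv (Kx.base ⟨0, hL⟩ fun _ => false)
  rw [C.zero] at h
  unfold sgZ at h
  split_ifs at h
  all_goals norm_num at h

lemma FF_one (C : Codec n k w) (θ₁ θ₀ : ℝ) (b : Z n) (a : Fin L → Bool) (ρ : Z n → Z n) :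
    ∃ mem : (Z n × Fin L → (Pl k n → Bool)) → (Fin L → Bool) × CellIx n k L × Fin w → Bool,
      (∀ P a' u t, a' ≠ a → mem P (a', u, t) = false) ∧
      ∀ P, (∀ ℓ, if a ℓ then θ₁ ≤ Phi (P (b, ℓ)) ^ 2 else Phi (P (b, ℓ)) ^ 2 ≤ θ₀) →
        FF C θ₁ θ₀ (inp P (fl1 b ρ) (mem P)) = true := by
  classical
  choose tb htb1 htb2 htb3 htb4 using fun f : Pl k n → Bool => table_exists f
  choose cZ hcZ using C.surjZ
  choose cI' hcI' using C.surjI
  set cI : ℤ → (Fin w → Bool) := fun t => if h : |t| ≤ 2 ^ (n * (k + 2)) then cI' t h else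
    fun _ => false with hcIdef
  have hcI : ∀ t : ℤ, |t| ≤ 2 ^ (n * (k + 2)) → C.decI (cI t) = t := by
    intro t ht
    simp only [hcIdef, ht, dif_pos]
    exact hcI' t ht
  refine ⟨fun P q => if q.1 = a then (match q.2.1 with
    | Sum.inl c => cZ (ρ c) q.2.2
    | Sum.inr (ℓ, i, r, z) => cI (tb (P (b, ℓ)) i r z) q.2.2) else false, ?_, ?_⟩
  · intro P a' u t h
    simp [h]
  · intro P hP
    have htab : ∀ ℓ i r z, tab C (inp P (fl1 b ρ) fun q => if q.1 = a then (match q.2.1 with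
        | Sum.inl c => cZ (ρ c) q.2.2
        | Sum.inr (ℓ, i, r, z) => cI (tb (P (b, ℓ)) i r z) q.2.2) else false) a ℓ i r z =
        tb (P (b, ℓ)) i r z := by
      intro ℓ i r z
      have e : word (inp P (fl1 b ρ) fun q => if q.1 = a then (match q.2.1 with
          | Sum.inl c => cZ (ρ c) q.2.2
          | Sum.inr (ℓ, i, r, z) => cI (tb (P (b, ℓ)) i r z) q.2.2) else false) a
          (Sum.inr (ℓ, i, r, z)) = cI (tb (P (b, ℓ)) i r z) := by
        funext t
        simp [word, inp]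
      unfold tab
      rw [e]
      exact hcI _ (htb4 _ i r z)
    have hkrow : ∀ c, krow C (inp P (fl1 b ρ) fun q => if q.1 = a then (match q.2.1 with
        | Sum.inl c => cZ (ρ c) q.2.2
        | Sum.inr (ℓ, i, r, z) => cI (tb (P (b, ℓ)) i r z) q.2.2) else false) a c = ρ c := by
      intro c
      have e : word (inp P (fl1 b ρ) fun q => if q.1 = a then (match q.2.1 with
          | Sum.inl c => cZ (ρ c) q.2.2
          | Sum.inr (ℓ, i, r, z) => cI (tb (P (b, ℓ)) i r z) q.2.2) else false) a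
          (Sum.inl c) = cZ (ρ c) := by
        funext t
        simp [word, inp]
      unfold krow
      rw [e]
      exact hcZ _
    unfold FF
    apply decide_eq_true
    refine ⟨b, a, fun κ => ?_⟩
    cases κ with
    | noflag r => simp [chk, flag, inp, fl1]
    | killer c =>
      intro hc
      rw [hkrow]
      simp [flag, inp, fl1, hc]
    | base ℓ z =>
      simp only [chk, htab]
      exact htb1 (P (b, ℓ)) z
    | fly ℓ i r z =>
      simp only [chk, htab]
      exact htb2 (P (b, ℓ)) i r z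
    | link ℓ i z =>
      simp only [chk, htab]
      exact htb3 (P (b, ℓ)) i z
    | final ℓ =>
      simp only [chk, htab]
      have hS := table_correct (P (b, ℓ)) (tb (P (b, ℓ))) (htb1 _) (htb2 _) (htb3 _)
      have hh := hP ℓ
      have hpos : (0 : ℝ) ≤ (2 ^ n) ^ (k + 2) := by positivity
      unfold finalOK
      split_ifs with ha
      · rw [hS]
        simp only [ha, if_true] at hh
        exact mul_le_mul_of_nonneg_right hh hpos
      · rw [hS]
        simp only [ha] at hh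
        exact mul_le_mul_of_nonneg_right hh hpos

end inputs

/-! ### The main estimate for one tree -/
section main
variable {n k L w : ℕ}

lemma unif_sum (I : Type) [Fintype I] [DecidableEq I] : ∑ _f : I → Bool, unif I = 1 := by
  rw [Finset.sum_const, Finset.card_univ, nsmul_eq_mul, unif, Fintype.card_fun,
    Fintype.card_bool]
  push_cast
  rw [← mul_pow]
  norm_num

lemma unif_nonneg (I : Type) [Fintype I] : 0 ≤ unif I := by
  unfold unif
  positivity

/-- weights of the planes -/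
noncomputable def wt (ν : (Pl k n → Bool) → ℝ) (b : Z n) (a : Fin L → Bool)
    (m : Z n × Fin L) : (Pl k n → Bool) → ℝ :=
  if m.1 = b ∧ a m.2 = true then ν else fun _ => unif (Pl k n)

noncomputable def W1 (ν : (Pl k n → Bool) → ℝ) (b : Z n) (a : Fin L → Bool)
    (P : Z n × Fin L → (Pl k n → Bool)) : ℝ := ∏ m, wt ν b a m (P m)

noncomputable def W0 (P : Z n × Fin L → (Pl k n → Bool)) : ℝ :=
  ∏ m, (fun (_ : Z n × Fin L) (_ : Pl k n → Bool) => unif (Pl k n)) m (P m)

lemma wt_nonneg {ν : (Pl k n → Bool) → ℝ} (h0 : ∀ f, 0 ≤ ν f) (b : Z n) (a : Fin L → Bool)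
    (m : Z n × Fin L) (f : Pl k n → Bool) : 0 ≤ wt ν b a m f := by
  unfold wt
  split_ifs
  · exact h0 f
  · exact unif_nonneg _

lemma wt_sum {ν : (Pl k n → Bool) → ℝ} (h1 : ∑ f, ν f = 1) (b : Z n) (a : Fin L → Bool)
    (m : Z n × Fin L) : ∑ f, wt ν b a m f = 1 := by
  unfold wt
  split_ifs
  · exact h1
  · exact unif_sum _

lemma W1_nonneg {ν : (Pl k n → Bool) → ℝ} (h0 : ∀ f, 0 ≤ ν f) (b : Z n) (a : Fin L → Bool)
    (P : Z n × Fin L → (Pl k n → Bool)) : 0 ≤ W1 ν b a P :=
  Finset.prod_nonneg fun m _ => wt_nonneg h0 b a m (P m)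

lemma W0_nonneg (P : Z n × Fin L → (Pl k n → Bool)) : 0 ≤ W0 P :=
  Finset.prod_nonneg fun _ _ => unif_nonneg _

lemma W1_sum {ν : (Pl k n → Bool) → ℝ} (h1 : ∑ f, ν f = 1) (b : Z n) (a : Fin L → Bool) :
    ∑ P : Z n × Fin L → (Pl k n → Bool), W1 ν b a P = 1 :=
  total (wt ν b a) (wt_sum h1 b a)

lemma W0_sum : ∑ P : Z n × Fin L → (Pl k n → Bool), W0 P = 1 :=
  total (fun (_ : Z n × Fin L) (_ : Pl k n → Bool) => unif (Pl k n)) fun _ => unif_sum _

lemma step12 (ν : (Pl k n → Bool) → ℝ) (h0 : ∀ f, 0 ≤ ν f) (h1 : ∑ f, ν f = 1) (d : ℕ) (A : ℝ)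
    (hA : ∀ T : GTree (Pl k n) Bool, T.depth ≤ d →
      |∑ f, (ν f - unif (Pl k n)) * (if T.eval f then 1 else 0)| ≤ A)
    (T : GTree (Ix n k L w) Bool) (b : Z n) (a : Fin L → Bool) (ρ : Z n → Z n)
    (mem : (Z n × Fin L → (Pl k n → Bool)) → (Fin L → Bool) × CellIx n k L × Fin w → Bool)
    (hmem : ∀ P a' u t, a' ≠ a → mem P (a', u, t) = false) :
    ∑ P, W1 ν b a P * (if T.eval (inp P (fl1 b ρ) (mem P)) = true then 1 else 0) ≤
      ∑ P, W0 P * (if T.pr (Sa a) (Sb b) (inp P (fl1 b ρ) fun _ => false) d = true then 1 else 0) +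
        L * A := by
  classical
  have hA0 : 0 ≤ A := le_trans (abs_nonneg _) (hA (GTree.leaf true) (Nat.zero_le d))
  have s1 : ∑ P, W1 ν b a P * (if T.eval (inp P (fl1 b ρ) (mem P)) = true then (1 : ℝ) else 0) ≤
      ∑ P, W1 ν b a P *
        (if T.pr (Sa a) (Sb b) (inp P (fl1 b ρ) fun _ => false) d = true then 1 else 0) := by
    refine Finset.sum_le_sum fun P _ => mul_le_mul_of_nonneg_left ?_ (W1_nonneg h0 b a P)
    split_ifs with hT hT'
    · exact le_rfl
    · exfalso
      apply hT'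
      refine GTree.pr_of_eval (Sa a) (Sb b) _ _ ?_ T d hT
      intro i hi
      rcases i with ⟨c, ℓ, p⟩ | ⟨c, r⟩ | ⟨a', u, t⟩
      · rfl
      · rfl
      · simp only [Sa, decide_eq_false_iff_not] at hi
        exact hmem P a' u t hi
    · exact zero_le_one
    · exact le_rfl
  have s2 := hybrid_swap (wt ν b a) (fun (_ : Z n × Fin L) (_ : Pl k n → Bool) => unif (Pl k n))
    (wt_nonneg h0 b a) (wt_sum h1 b a) (fun _ _ => unif_nonneg _) (fun _ => unif_sum _)
    (fun P => if T.pr (Sa a) (Sb b) (inp P (fl1 b ρ) fun _ => false) d = true then (1 : ℝ) else 0)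
    (fun m => if m.1 = b then A else 0) (by
      rintro ⟨c, ℓ⟩ P
      by_cases hc : c = b ∧ a ℓ = true
      · obtain ⟨rfl, ha⟩ := hc
        obtain ⟨T', hT'd, hT'⟩ := GTree.pr_swap (Sa a) (Sb c) (blk c ℓ) (blk_spec a c ℓ)
          (inp P (fl1 c ρ) fun _ => false) T d
        have e : wt ν c a (c, ℓ) = ν := by simp [wt, ha]
        have hT'' : ∀ f, T'.eval f = T.pr (Sa a) (Sb c)
            (inp (Function.update P (c, ℓ) f) (fl1 c ρ) fun _ => false) d := by
          intro f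
          rw [hT' f]
          refine congrArg (fun y => T.pr (Sa a) (Sb c) y d) ?_
          funext i
          rw [inp_update]
          beta_reduce
          cases blk c ℓ i <;> rfl
        simp only [e, if_true]
        refine le_trans (le_of_eq ?_) (le_of_abs_le (hA T' hT'd))
        refine Finset.sum_congr rfl fun f _ => ?_
        rw [hT'' f]
      · have e : wt ν b a (c, ℓ) = fun _ => unif (Pl k n) := by simp [wt, hc]
        simp only [e, sub_self, zero_mul, Finset.sum_const_zero]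
        split_ifs
        · exact hA0
        · exact le_rfl)
  have s3 : ∑ m : Z n × Fin L, (if m.1 = b then A else 0) = L * A := by
    rw [Fintype.sum_prod_type, Finset.sum_comm]
    simp
  rw [s3] at s2
  exact le_trans s1 s2

lemma step3 (T : GTree (Ix n k L w) Bool) (d : ℕ) (b : Z n) (a : Fin L → Bool)
    (P : Z n × Fin L → (Pl k n → Bool)) :
    ∑ ρ : Z n → Z n,
        (if T.pr (Sa a) (Sb b) (inp P (fl1 b ρ) fun _ => false) d = true then (1 : ℝ) else 0) ≤
      ∑ ρ : Z n → Z n,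
        (if T.pr (Sa a) (Sb b) (inp P (fl0 ρ) fun _ => false) d = true then (1 : ℝ) else 0) +
      Fintype.card (Z n → Z n) * (d / 2 ^ n) := by
  classical
  set U : (Z n → Z n) → ℝ := fun ρ =>
    if T.pr (Sa a) (Sb b) (inp P (fl1 b ρ) fun _ => false) d = true then (1 : ℝ) else 0 with hU
  set V : (Z n → Z n) → ℝ := fun ρ =>
    if T.pr (Sa a) (Sb b) (inp P (fl0 ρ) fun _ => false) d = true then (1 : ℝ) else 0 with hV
  have h : ∑ ρ, ∑ r : Z n, V (Function.update ρ b r) = ∑ ρ : Z n → Z n, ∑ _r : Z n, V ρ :=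
    sum_invo b (fun ρ _ => V ρ)
  have h2 : ∀ ρ, ∑ _r : Z n, U ρ ≤ (∑ r : Z n, V (Function.update ρ b r)) + d := by
    intro ρ
    have := GTree.pr_killer (Sa a) (Sb b) (inp P (fl1 b ρ) fun _ => false)
      (fun r : Z n => (Sum.inr (Sum.inl (b, r)) : Ix n k L w))
      (fun r r' e => by simpa using e) (fun r => by simp [Sb]) T d
    simp only [hU, hV, inp_killer]
    exact this
  have h3 : ∑ ρ : Z n → Z n, ∑ _r : Z n, U ρ ≤
      ∑ ρ : Z n → Z n, ∑ _r : Z n, V ρ + Fintype.card (Z n → Z n) * d := by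
    rw [← h]
    calc _ ≤ ∑ ρ : Z n → Z n, ((∑ r : Z n, V (Function.update ρ b r)) + d) :=
          Finset.sum_le_sum fun ρ _ => h2 ρ
      _ = _ := by
          rw [Finset.sum_add_distrib, Finset.sum_const, Finset.card_univ, nsmul_eq_mul]
  have hc : (Fintype.card (Z n) : ℝ) = 2 ^ n := by simp
  simp only [Finset.sum_const, Finset.card_univ, nsmul_eq_mul, hc, ← Finset.mul_sum] at h3
  have hp : (0 : ℝ) < 2 ^ n := by positivity
  have h4 : (2 : ℝ) ^ n * ∑ ρ, U ρ ≤
      2 ^ n * (∑ ρ, V ρ + Fintype.card (Z n → Z n) * (d / 2 ^ n)) := by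
    refine le_trans h3 (le_of_eq ?_)
    field_simp
  exact le_of_mul_le_mul_left h4 hp

lemma step4 (T : GTree (Ix n k L w) Bool) (d r : ℕ) (hT : T.depth ≤ r)
    (x : Ix n k L w → Bool) :
    ∑ b : Z n, ∑ a : Fin L → Bool,
        (if T.pr (Sa a) (Sb b) x d = true then (1 : ℝ) else 0) ≤
      ∑ _b : Z n, ∑ _a : Fin L → Bool, (if T.eval x = true then (1 : ℝ) else 0) +
        (2 ^ n * r + 2 ^ L * (r / (d + 1))) := by
  classical
  have hlen : ((T.path x).length : ℝ) ≤ r := by
    exact_mod_cast le_trans (GTree.path_length x T) hT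
  have h1 : ∀ (b : Z n) (a : Fin L → Bool),
      (if T.pr (Sa a) (Sb b) x d = true then (1 : ℝ) else 0) ≤
      (if T.eval x = true then (1 : ℝ) else 0) +
        ((if ∃ i ∈ T.path x, Sa a i = true then (1 : ℝ) else 0) +
          (if d + 1 ≤ ((T.path x).filter fun i => Sb b i).length then (1 : ℝ) else 0)) := by
    intro b a
    by_cases hp : T.pr (Sa a) (Sb b) x d = true
    · rcases GTree.pr_final (Sa a) (Sb b) x T d hp with h | h | h
      · rw [if_pos hp, if_pos h]
        have : (0 : ℝ) ≤ (if ∃ i ∈ T.path x, Sa a i = true then (1 : ℝ) else 0) +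
          (if d + 1 ≤ ((T.path x).filter fun i => Sb b i).length then (1 : ℝ) else 0) := by
          split_ifs <;> norm_num
        linarith
      · rw [if_pos hp, if_pos h]
        have h5 : (0 : ℝ) ≤ (if T.eval x = true then (1 : ℝ) else 0) := by split_ifs <;> norm_num
        have h6 : (0 : ℝ) ≤
          (if d + 1 ≤ ((T.path x).filter fun i => Sb b i).length then (1 : ℝ) else 0) := by
          split_ifs <;> norm_num
        linarith
      · rw [if_pos hp, if_pos h]
        have h5 : (0 : ℝ) ≤ (if T.eval x = true then (1 : ℝ) else 0) := by split_ifs <;> norm_num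
        have h6 : (0 : ℝ) ≤ (if ∃ i ∈ T.path x, Sa a i = true then (1 : ℝ) else 0) := by
          split_ifs <;> norm_num
        linarith
    · rw [if_neg hp]
      split_ifs <;> norm_num
  have h2 : ∑ a : Fin L → Bool, (if ∃ i ∈ T.path x, Sa a i = true then (1 : ℝ) else 0) ≤ r :=
    le_trans (GTree.sum_hit (T.path x) (fun a => Sa a) (fun i a a' => Sa_disj i a a')) hlen
  have h3 : ∑ b : Z n, (if d + 1 ≤ ((T.path x).filter fun i => Sb b i).length then (1 : ℝ)
      else 0) ≤ r / (d + 1) :=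
    le_trans (GTree.sum_many (T.path x) (fun b => Sb b) (fun i b b' => Sb_disj i b b') d)
      (div_le_div_of_nonneg_right hlen (by positivity))
  have hcZ : (Fintype.card (Z n) : ℝ) = 2 ^ n := by simp
  have hcA : (Fintype.card (Fin L → Bool) : ℝ) = 2 ^ L := by simp
  calc ∑ b : Z n, ∑ a : Fin L → Bool,
        (if T.pr (Sa a) (Sb b) x d = true then (1 : ℝ) else 0)
      ≤ ∑ b : Z n, ∑ a : Fin L → Bool, ((if T.eval x = true then (1 : ℝ) else 0) +
        ((if ∃ i ∈ T.path x, Sa a i = true then (1 : ℝ) else 0) +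
          (if d + 1 ≤ ((T.path x).filter fun i => Sb b i).length then (1 : ℝ) else 0))) :=
        Finset.sum_le_sum fun b _ => Finset.sum_le_sum fun a _ => h1 b a
    _ = ∑ _b : Z n, ∑ _a : Fin L → Bool, (if T.eval x = true then (1 : ℝ) else 0) +
        (2 ^ n * (∑ a : Fin L → Bool, (if ∃ i ∈ T.path x, Sa a i = true then (1 : ℝ) else 0)) +
          2 ^ L * ∑ b : Z n, (if d + 1 ≤ ((T.path x).filter fun i => Sb b i).length then (1 : ℝ)
            else 0)) := by
        simp only [Finset.sum_add_distrib, Finset.sum_const, Finset.card_univ, nsmul_eq_mul,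
          hcZ, hcA, ← Finset.mul_sum]
    _ ≤ _ := by gcongr

lemma tree_bound (ν : (Pl k n → Bool) → ℝ) (h0 : ∀ f, 0 ≤ ν f) (h1 : ∑ f, ν f = 1) (d r : ℕ)
    (A : ℝ)
    (hA : ∀ T : GTree (Pl k n) Bool, T.depth ≤ d →
      |∑ f, (ν f - unif (Pl k n)) * (if T.eval f then 1 else 0)| ≤ A)
    (T : GTree (Ix n k L w) Bool) (hT : T.depth ≤ r)
    (mem : Z n → (Fin L → Bool) → (Z n → Z n) → (Z n × Fin L → (Pl k n → Bool)) →
      (Fin L → Bool) × CellIx n k L × Fin w → Bool)
    (hmem : ∀ b a ρ P a' u t, a' ≠ a → mem b a ρ P (a', u, t) = false) :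
    ∑ b, ∑ a, ∑ ρ, ∑ P, W1 ν b a P *
        (if T.eval (inp P (fl1 b ρ) (mem b a ρ P)) = true then (1 : ℝ) else 0) ≤
      ∑ _b : Z n, ∑ _a : Fin L → Bool, ∑ ρ, ∑ P, W0 P *
        (if T.eval (inp P (fl0 ρ) fun _ => false) = true then (1 : ℝ) else 0) +
      2 ^ n * 2 ^ L * Fintype.card (Z n → Z n) *
        (L * A + d / 2 ^ n + r / 2 ^ L + r / (2 ^ n * (d + 1))) := by
  classical
  have hcZ : (Fintype.card (Z n) : ℝ) = 2 ^ n := by simp
  have hcA : (Fintype.card (Fin L → Bool) : ℝ) = 2 ^ L := by simp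
  set Q : ℝ := ((Fintype.card (Z n → Z n) : ℕ) : ℝ) with hQ
  -- first two steps
  have a1 : ∑ b, ∑ a, ∑ ρ, ∑ P, W1 ν b a P *
        (if T.eval (inp P (fl1 b ρ) (mem b a ρ P)) = true then (1 : ℝ) else 0) ≤
      ∑ b : Z n, ∑ a : Fin L → Bool, ∑ ρ : Z n → Z n, (∑ P, W0 P *
        (if T.pr (Sa a) (Sb b) (inp P (fl1 b ρ) fun _ => false) d = true then (1 : ℝ) else 0) +
          L * A) :=
    Finset.sum_le_sum fun b _ => Finset.sum_le_sum fun a _ => Finset.sum_le_sum fun ρ _ =>
      step12 ν h0 h1 d A hA T b a ρ (mem b a ρ) (hmem b a ρ)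
  -- third step
  have a2 : ∀ (b : Z n) (a : Fin L → Bool), ∑ ρ : Z n → Z n, (∑ P, W0 P *
        (if T.pr (Sa a) (Sb b) (inp P (fl1 b ρ) fun _ => false) d = true then (1 : ℝ) else 0) +
          L * A) ≤
      ∑ ρ : Z n → Z n, ∑ P, W0 P *
        (if T.pr (Sa a) (Sb b) (inp P (fl0 ρ) fun _ => false) d = true then (1 : ℝ) else 0) +
          (Q * (d / 2 ^ n) + Q * (L * A)) := by
    intro b a
    rw [Finset.sum_add_distrib, Finset.sum_const, Finset.card_univ, nsmul_eq_mul, ← hQ,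
      ← add_assoc]
    gcongr ?_ + _
    rw [Finset.sum_comm, Finset.sum_comm (s := (Finset.univ : Finset (Z n → Z n)))]
    calc ∑ P : Z n × Fin L → (Pl k n → Bool), ∑ ρ : Z n → Z n, W0 P *
          (if T.pr (Sa a) (Sb b) (inp P (fl1 b ρ) fun _ => false) d = true then (1 : ℝ) else 0)
        = ∑ P : Z n × Fin L → (Pl k n → Bool), W0 P * ∑ ρ : Z n → Z n,
          (if T.pr (Sa a) (Sb b) (inp P (fl1 b ρ) fun _ => false) d = true then (1 : ℝ) else 0) := by
          simp only [Finset.mul_sum]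
      _ ≤ ∑ P : Z n × Fin L → (Pl k n → Bool), W0 P * (∑ ρ : Z n → Z n,
          (if T.pr (Sa a) (Sb b) (inp P (fl0 ρ) fun _ => false) d = true then (1 : ℝ) else 0) +
            Q * (d / 2 ^ n)) :=
          Finset.sum_le_sum fun P _ => mul_le_mul_of_nonneg_left (step3 T d b a P) (W0_nonneg P)
      _ = _ := by
          simp only [mul_add, Finset.sum_add_distrib, ← Finset.sum_mul, W0_sum, one_mul,
            Finset.mul_sum]
  -- fourth step
  have a3 : ∑ b : Z n, ∑ a : Fin L → Bool, ∑ ρ : Z n → Z n, ∑ P, W0 P *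
        (if T.pr (Sa a) (Sb b) (inp P (fl0 ρ) fun _ => false) d = true then (1 : ℝ) else 0) ≤
      ∑ _b : Z n, ∑ _a : Fin L → Bool, ∑ ρ : Z n → Z n, ∑ P, W0 P *
        (if T.eval (inp P (fl0 ρ) fun _ => false) = true then (1 : ℝ) else 0) +
        Q * (2 ^ n * r + 2 ^ L * (r / (d + 1))) := by
    have e : ∀ g : Z n → (Fin L → Bool) → (Z n → Z n) → (Z n × Fin L → (Pl k n → Bool)) → ℝ,
        ∑ b, ∑ a, ∑ ρ, ∑ P, W0 P * g b a ρ P = ∑ ρ, ∑ P, W0 P * ∑ b, ∑ a, g b a ρ P := by
      intro g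
      simp only [Finset.mul_sum]
      calc _ = ∑ b, ∑ ρ, ∑ a, ∑ P, W0 P * g b a ρ P :=
            Finset.sum_congr rfl fun b _ => Finset.sum_comm
        _ = ∑ ρ, ∑ b, ∑ a, ∑ P, W0 P * g b a ρ P := Finset.sum_comm
        _ = ∑ ρ, ∑ b, ∑ P, ∑ a, W0 P * g b a ρ P :=
            Finset.sum_congr rfl fun ρ _ => Finset.sum_congr rfl fun b _ => Finset.sum_comm
        _ = ∑ ρ, ∑ P, ∑ b, ∑ a, W0 P * g b a ρ P :=
            Finset.sum_congr rfl fun ρ _ => Finset.sum_comm
    rw [e, e]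
    calc ∑ ρ : Z n → Z n, ∑ P, W0 P * ∑ b : Z n, ∑ a : Fin L → Bool,
          (if T.pr (Sa a) (Sb b) (inp P (fl0 ρ) fun _ => false) d = true then (1 : ℝ) else 0)
        ≤ ∑ ρ : Z n → Z n, ∑ P, W0 P * (∑ _b : Z n, ∑ _a : Fin L → Bool,
          (if T.eval (inp P (fl0 ρ) fun _ => false) = true then (1 : ℝ) else 0) +
            (2 ^ n * r + 2 ^ L * (r / (d + 1)))) :=
          Finset.sum_le_sum fun ρ _ => Finset.sum_le_sum fun P _ =>
            mul_le_mul_of_nonneg_left (step4 T d r hT _) (W0_nonneg P)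
      _ = _ := by
          have : ∀ ρ : Z n → Z n, ∑ P : Z n × Fin L → (Pl k n → Bool),
              W0 P * (∑ _b : Z n, ∑ _a : Fin L → Bool,
              (if T.eval (inp P (fl0 ρ) fun _ => false) = true then (1 : ℝ) else 0) +
              (2 ^ n * r + 2 ^ L * (r / (d + 1)))) = ∑ P : Z n × Fin L → (Pl k n → Bool),
              W0 P * (∑ _b : Z n, ∑ _a : Fin L → Bool,
              (if T.eval (inp P (fl0 ρ) fun _ => false) = true then (1 : ℝ) else 0)) +
              (2 ^ n * r + 2 ^ L * (r / (d + 1))) := by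
            intro ρ
            simp only [mul_add, Finset.sum_add_distrib]
            rw [← Finset.sum_mul, ← Finset.sum_mul, W0_sum]
            ring
          simp only [this]
          rw [Finset.sum_add_distrib, Finset.sum_const, Finset.card_univ, nsmul_eq_mul]
  calc _ ≤ _ := a1
    _ ≤ ∑ b : Z n, ∑ a : Fin L → Bool, (∑ ρ : Z n → Z n, ∑ P, W0 P *
        (if T.pr (Sa a) (Sb b) (inp P (fl0 ρ) fun _ => false) d = true then (1 : ℝ) else 0) +
          (Q * (d / 2 ^ n) + Q * (L * A))) :=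
        Finset.sum_le_sum fun b _ => Finset.sum_le_sum fun a _ => a2 b a
    _ = ∑ b : Z n, ∑ a : Fin L → Bool, ∑ ρ : Z n → Z n, ∑ P, W0 P *
        (if T.pr (Sa a) (Sb b) (inp P (fl0 ρ) fun _ => false) d = true then (1 : ℝ) else 0) +
          2 ^ n * (2 ^ L * (Q * (d / 2 ^ n) + Q * (L * A))) := by
        simp only [Finset.sum_add_distrib, Finset.sum_const, Finset.card_univ, nsmul_eq_mul,
          hcZ, hcA]
        ring
    _ ≤ ∑ _b : Z n, ∑ _a : Fin L → Bool, ∑ ρ : Z n → Z n, ∑ P, W0 P *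
        (if T.eval (inp P (fl0 ρ) fun _ => false) = true then (1 : ℝ) else 0) +
        Q * (2 ^ n * r + 2 ^ L * (r / (d + 1))) +
          2 ^ n * (2 ^ L * (Q * (d / 2 ^ n) + Q * (L * A))) := by gcongr
    _ = _ := by
        field_simp
        ring

end main

/-! ### From randomized algorithms to trees -/

/-- translation of decision trees -/
def toG {N : ℕ} {I : Type} (e : Fin N → I) : DTree N → GTree I Bool
  | .answer b => .leaf b
  | .read i t₀ t₁ => .node (e i) fun b => if b then toG e t₁ else toG e t₀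

lemma toG_eval {N : ℕ} {I : Type} (e : Fin N → I) (y : I → Bool) (T : DTree N) :
    (toG e T).eval y = T.eval fun i => y (e i) := by
  induction T with
  | answer b => rfl
  | read i t₀ t₁ ih₀ ih₁ =>
    cases h : y (e i)
    · simp [toG, GTree.eval, DTree.eval, h, ih₀]
    · simp [toG, GTree.eval, DTree.eval, h, ih₁]

lemma toG_depth {N : ℕ} {I : Type} (e : Fin N → I) (T : DTree N) :
    (toG e T).depth = T.depth := by
  induction T with
  | answer b => rfl
  | read i t₀ t₁ ih₀ ih₁ => simp [toG, GTree.depth, DTree.depth, ih₀, ih₁]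

lemma sum_comm5 {J B A R P : Type} [Fintype J] [Fintype B] [Fintype A] [Fintype R] [Fintype P]
    (G : J → B → A → R → P → ℝ) :
    ∑ j, ∑ b, ∑ a, ∑ ρ, ∑ q, G j b a ρ q = ∑ b, ∑ a, ∑ ρ, ∑ q, ∑ j, G j b a ρ q := by
  rw [Finset.sum_comm]
  refine Finset.sum_congr rfl fun b _ => ?_
  rw [Finset.sum_comm]
  refine Finset.sum_congr rfl fun a _ => ?_
  rw [Finset.sum_comm]
  refine Finset.sum_congr rfl fun ρ _ => ?_
  rw [Finset.sum_comm]

lemma avg_swap {J B A R P : Type} [Fintype J] [Fintype B] [Fintype A] [Fintype R] [Fintype P]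
    (p : J → ℝ) (W : B → A → R → P → ℝ) (g : J → B → A → R → P → ℝ) :
    ∑ j, p j * ∑ b, ∑ a, ∑ ρ, ∑ q, W b a ρ q * g j b a ρ q =
      ∑ b, ∑ a, ∑ ρ, ∑ q, W b a ρ q * ∑ j, p j * g j b a ρ q := by
  simp only [Finset.mul_sum]
  rw [sum_comm5]
  refine Finset.sum_congr rfl fun b _ => Finset.sum_congr rfl fun a _ =>
    Finset.sum_congr rfl fun ρ _ => Finset.sum_congr rfl fun q _ =>
    Finset.sum_congr rfl fun j _ => by ring

end HybAux

open HybAux in
theorem hybrid {n k L w : ℕ} (C : Codec n k w) (θ₁ θ₀ η A : ℝ) (d r : ℕ) (hL : 1 ≤ L)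
    (ν : (Pl k n → Bool) → ℝ) (h0 : ∀ f, 0 ≤ ν f) (h1 : ∑ f, ν f = 1)
    (hA : ∀ T : GTree (Pl k n) Bool, T.depth ≤ d →
      |∑ f, (ν f - unif (Pl k n)) * (if T.eval f then 1 else 0)| ≤ A)
    (hν : ∑ f : Pl k n → Bool, ν f * (if Phi f ^ 2 < θ₁ then 1 else 0) ≤ η)
    (hu : ∑ f : Pl k n → Bool, unif (Pl k n) * (if θ₀ < Phi f ^ 2 then 1 else 0) ≤ η)
    (hR : RandomizedComputes (fun x : Fin (Fintype.card (Ix n k L w)) → Bool =>
        FF C θ₁ θ₀ (fun i => x (Fintype.equivFin _ i))) r) :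
    1 / 3 ≤ 2 * L * η + r / 2 ^ L + r / (2 ^ n * (d + 1)) + (d + 1) / 2 ^ n + L * A := by
  classical
  obtain ⟨s, p, T', hp0, hp1, hTd', hT'⟩ := hR
  set e : Fin (Fintype.card (Ix n k L w)) → Ix n k L w :=
    fun i => (Fintype.equivFin (Ix n k L w)).symm i with he
  set T : Fin s → GTree (Ix n k L w) Bool := fun j => toG e (T' j) with hTdef
  have hTd : ∀ j, (T j).depth ≤ r := fun j => by
    simp only [hTdef, toG_depth]
    exact hTd' j
  have hT : ∀ y, 2 / 3 ≤ ∑ j, if (T j).eval y = FF C θ₁ θ₀ y then p j else 0 := by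
    intro y
    have := hT' (fun i => y (e i))
    simpa [hTdef, toG_eval, he] using this
  set acc : (Ix n k L w → Bool) → ℝ := fun x =>
    ∑ j, p j * (if (T j).eval x = true then (1 : ℝ) else 0) with hacc
  have hacc0 : ∀ x, 0 ≤ acc x := fun x => Finset.sum_nonneg fun j _ =>
    mul_nonneg (hp0 j) (by split_ifs <;> norm_num)
  have hacc1 : ∀ x, FF C θ₁ θ₀ x = true → 2 / 3 ≤ acc x := by
    intro x hx
    refine le_trans (hT x) (le_of_eq ?_)
    refine Finset.sum_congr rfl fun j _ => ?_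
    rw [hx]
    simp
  have hacc2 : ∀ x, FF C θ₁ θ₀ x = false → acc x ≤ 1 / 3 := by
    intro x hx
    have h2 := hT x
    rw [hx] at h2
    have h3 : acc x + ∑ j, (if (T j).eval x = false then p j else 0) = 1 := by
      rw [← hp1, hacc, ← Finset.sum_add_distrib]
      refine Finset.sum_congr rfl fun j _ => ?_
      cases (T j).eval x <;> simp
    linarith
  choose mem hmem0 hmem1 using fun (b : Z n) (a : Fin L → Bool) (ρ : Z n → Z n) =>
    FF_one C θ₁ θ₀ b a ρ
  have hη : 0 ≤ η := le_trans (Finset.sum_nonneg fun f _ => mul_nonneg (h0 f)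
    (by split_ifs <;> norm_num)) hν
  set Q : ℝ := ((Fintype.card (Z n → Z n) : ℕ) : ℝ) with hQ
  have hQ0 : 0 < Q := by
    rw [hQ]
    exact_mod_cast Fintype.card_pos
  have hcZ : (Fintype.card (Z n) : ℝ) = 2 ^ n := by simp
  have hcA : (Fintype.card (Fin L → Bool) : ℝ) = 2 ^ L := by simp
  set B : ℝ := L * A + d / 2 ^ n + r / 2 ^ L + r / (2 ^ n * (d + 1)) with hB
  -- the two averages
  have key : ∑ b, ∑ a, ∑ ρ, ∑ P, W1 ν b a P * acc (inp P (fl1 b ρ) (mem b a ρ P)) ≤
      ∑ _b : Z n, ∑ _a : Fin L → Bool, ∑ ρ, ∑ P, W0 P * acc (inp P (fl0 ρ) fun _ => false) +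
        2 ^ n * 2 ^ L * Q * B := by
    have hj : ∀ j, p j * ∑ b, ∑ a, ∑ ρ, ∑ P, W1 ν b a P *
          (if (T j).eval (inp P (fl1 b ρ) (mem b a ρ P)) = true then (1 : ℝ) else 0) ≤
        p j * (∑ _b : Z n, ∑ _a : Fin L → Bool, ∑ ρ, ∑ P, W0 P *
          (if (T j).eval (inp P (fl0 ρ) fun _ => false) = true then (1 : ℝ) else 0) +
            2 ^ n * 2 ^ L * Q * B) := fun j =>
      mul_le_mul_of_nonneg_left (tree_bound ν h0 h1 d r A hA (T j) (hTd j) mem hmem0) (hp0 j)
    have hs := Finset.sum_le_sum fun j (_ : j ∈ Finset.univ) => hj j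
    have e1 : ∑ j, p j * ∑ b, ∑ a, ∑ ρ, ∑ P, W1 ν b a P *
          (if (T j).eval (inp P (fl1 b ρ) (mem b a ρ P)) = true then (1 : ℝ) else 0) =
        ∑ b, ∑ a, ∑ ρ, ∑ P, W1 ν b a P * acc (inp P (fl1 b ρ) (mem b a ρ P)) :=
      avg_swap p (fun b a _ P => W1 ν b a P) (fun j b a ρ P =>
        if (T j).eval (inp P (fl1 b ρ) (mem b a ρ P)) = true then (1 : ℝ) else 0)
    have e2 : ∑ j, p j * (∑ _b : Z n, ∑ _a : Fin L → Bool, ∑ ρ, ∑ P, W0 P *
          (if (T j).eval (inp P (fl0 ρ) fun _ => false) = true then (1 : ℝ) else 0) +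
            2 ^ n * 2 ^ L * Q * B) =
        ∑ _b : Z n, ∑ _a : Fin L → Bool, ∑ ρ, ∑ P, W0 P * acc (inp P (fl0 ρ) fun _ => false) +
          2 ^ n * 2 ^ L * Q * B := by
      have e3 := avg_swap p (fun (_ : Z n) (_ : Fin L → Bool) (_ : Z n → Z n)
        (P : Z n × Fin L → (Pl k n → Bool)) => W0 P) (fun j _ _ ρ P =>
        if (T j).eval (inp P (fl0 ρ) fun _ => false) = true then (1 : ℝ) else 0)
      have e4 : ∀ (X : Fin s → ℝ) (K : ℝ), ∑ j, p j * (X j + K) = ∑ j, p j * X j + K := by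
        intro X K
        simp only [mul_add, Finset.sum_add_distrib]
        rw [← Finset.sum_mul, hp1, one_mul]
      rw [e4, e3]
    rw [e1, e2] at hs
    exact hs
  have up : ∑ _b : Z n, ∑ _a : Fin L → Bool, ∑ ρ : Z n → Z n,
      ∑ P : Z n × Fin L → (Pl k n → Bool), W0 P * acc (inp P (fl0 ρ) fun _ => false) ≤
      2 ^ n * 2 ^ L * Q * (1 / 3) := by
    have h5 : ∀ ρ : Z n → Z n, ∑ P : Z n × Fin L → (Pl k n → Bool),
        W0 P * acc (inp P (fl0 ρ) fun _ => false) ≤ 1 / 3 := by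
      intro ρ
      calc _ ≤ ∑ P : Z n × Fin L → (Pl k n → Bool), W0 P * (1 / 3) :=
            Finset.sum_le_sum fun P _ => mul_le_mul_of_nonneg_left
              (hacc2 _ (FF_zero C θ₁ θ₀ hL P (fl0 ρ))) (W0_nonneg P)
        _ = 1 / 3 := by rw [← Finset.sum_mul, W0_sum, one_mul]
    calc _ ≤ ∑ _b : Z n, ∑ _a : Fin L → Bool, ∑ _ρ : Z n → Z n, (1 / 3 : ℝ) :=
          Finset.sum_le_sum fun _ _ => Finset.sum_le_sum fun _ _ =>
            Finset.sum_le_sum fun ρ _ => h5 ρ
      _ = _ := by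
          simp only [Finset.sum_const, Finset.card_univ, nsmul_eq_mul, hcZ, hcA, ← hQ]
          ring
  have low : 2 ^ n * 2 ^ L * Q * (2 / 3 * (1 - L * η)) ≤
      ∑ b, ∑ a, ∑ ρ, ∑ P, W1 ν b a P * acc (inp P (fl1 b ρ) (mem b a ρ P)) := by
    have h5 : ∀ (b : Z n) (a : Fin L → Bool) (ρ : Z n → Z n), 2 / 3 * (1 - L * η) ≤
        ∑ P, W1 ν b a P * acc (inp P (fl1 b ρ) (mem b a ρ P)) := by
      intro b a ρ
      set bad : Fin L → (Pl k n → Bool) → ℝ := fun ℓ f =>
        if a ℓ = true then (if Phi f ^ 2 < θ₁ then 1 else 0)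
        else (if θ₀ < Phi f ^ 2 then 1 else 0) with hbad
      have hbad0 : ∀ ℓ f, 0 ≤ bad ℓ f := by
        intro ℓ f
        simp only [hbad]
        split_ifs <;> norm_num
      have h6 : ∀ P : Z n × Fin L → (Pl k n → Bool),
          2 / 3 * (1 - ∑ ℓ, bad ℓ (P (b, ℓ))) ≤ acc (inp P (fl1 b ρ) (mem b a ρ P)) := by
        intro P
        by_cases hgood : ∀ ℓ, if a ℓ then θ₁ ≤ Phi (P (b, ℓ)) ^ 2 else Phi (P (b, ℓ)) ^ 2 ≤ θ₀
        · have h7 := hacc1 _ (hmem1 b a ρ P hgood)
          have h8 : 0 ≤ ∑ ℓ, bad ℓ (P (b, ℓ)) := Finset.sum_nonneg fun ℓ _ => hbad0 ℓ _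
          linarith
        · obtain ⟨ℓ, hℓ⟩ := not_forall.1 hgood
          have h8 : 1 ≤ ∑ ℓ, bad ℓ (P (b, ℓ)) := by
            refine le_trans ?_ (Finset.single_le_sum (f := fun ℓ => bad ℓ (P (b, ℓ)))
              (fun ℓ _ => hbad0 ℓ _) (Finset.mem_univ ℓ))
            simp only [hbad]
            by_cases ha : a ℓ = true
            · rw [if_pos ha, not_le] at hℓ
              rw [if_pos ha, if_pos hℓ]
            · rw [if_neg ha, not_le] at hℓ
              rw [if_neg ha, if_pos hℓ]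
          have := hacc0 (inp P (fl1 b ρ) (mem b a ρ P))
          linarith
      have h9 : ∀ ℓ, ∑ P, W1 ν b a P * bad ℓ (P (b, ℓ)) ≤ η := by
        intro ℓ
        have := marginal (wt ν b a) (wt_sum h1 b a) (b, ℓ) (bad ℓ)
        unfold W1
        rw [this]
        by_cases ha : a ℓ = true
        · have e1 : wt ν b a (b, ℓ) = ν := by simp [wt, ha]
          simp only [e1, hbad, ha, if_true]
          exact hν
        · have e1 : wt ν b a (b, ℓ) = fun _ => unif (Pl k n) := by simp [wt, ha]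
          simp only [e1, hbad, ha]
          exact hu
      calc 2 / 3 * (1 - L * η) ≤ 2 / 3 * (1 - ∑ ℓ, ∑ P, W1 ν b a P * bad ℓ (P (b, ℓ))) := by
            have : ∑ ℓ, ∑ P, W1 ν b a P * bad ℓ (P (b, ℓ)) ≤ ∑ _ℓ : Fin L, η :=
              Finset.sum_le_sum fun ℓ _ => h9 ℓ
            rw [Finset.sum_const, Finset.card_univ, Fintype.card_fin, nsmul_eq_mul] at this
            linarith
        _ = ∑ P, W1 ν b a P * (2 / 3 * (1 - ∑ ℓ, bad ℓ (P (b, ℓ)))) := by
            have : ∀ P : Z n × Fin L → (Pl k n → Bool),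
                W1 ν b a P * (2 / 3 * (1 - ∑ ℓ, bad ℓ (P (b, ℓ)))) =
                2 / 3 * W1 ν b a P - 2 / 3 * ∑ ℓ, W1 ν b a P * bad ℓ (P (b, ℓ)) := by
              intro P
              rw [← Finset.mul_sum]
              ring
            simp only [this]
            rw [Finset.sum_sub_distrib, ← Finset.mul_sum, ← Finset.mul_sum, W1_sum h1,
              Finset.sum_comm]
            ring
        _ ≤ _ := Finset.sum_le_sum fun P _ => mul_le_mul_of_nonneg_left (h6 P)
            (W1_nonneg h0 b a P)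
    calc 2 ^ n * 2 ^ L * Q * (2 / 3 * (1 - L * η))
        = ∑ _b : Z n, ∑ _a : Fin L → Bool, ∑ _ρ : Z n → Z n, (2 / 3 * (1 - L * η)) := by
          simp only [Finset.sum_const, Finset.card_univ, nsmul_eq_mul, hcZ, hcA, ← hQ]
          ring
      _ ≤ _ := Finset.sum_le_sum fun b _ => Finset.sum_le_sum fun a _ =>
          Finset.sum_le_sum fun ρ _ => h5 b a ρ
  have hK : (0 : ℝ) < 2 ^ n * 2 ^ L * Q := by positivity
  have h10 : 2 ^ n * 2 ^ L * Q * (2 / 3 * (1 - L * η)) ≤ 2 ^ n * 2 ^ L * Q * (1 / 3 + B) := by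
    rw [mul_add]
    linarith
  have h11 := le_of_mul_le_mul_left h10 hK
  have hLη : 0 ≤ L * η := mul_nonneg (Nat.cast_nonneg L) hη
  have h12 : (d : ℝ) / 2 ^ n ≤ (d + 1) / 2 ^ n :=
    div_le_div_of_nonneg_right (by linarith) (by positivity)
  rw [hB] at h11
  nlinarith

end Crest.Agent.QGap
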