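import Mathlib
import Crest.Agent.QGap.Defs
import Crest.Agent.QGap.Gauss

/-!
# S0554, module L3: interpolation (owner helper7)
-/

set_option autoImplicit false

namespace Crest.Agent.QGap

open Matrix BigOperators Crest.MathPhysics.Query MeasureTheory ProbabilityTheory Finset

namespace L3

section fourier

variable {I : Type} [Fintype I] [DecidableEq I]

/-- Fourier coefficient -/
noncomputable def fhat (g : (I → Bool) → ℝ) (S : Finset I) : ℝ :=
  (1 / 2 : ℝ) ^ Fintype.card I * ∑ f, g f * ∏ i ∈ S, sg (f i)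

theorem ext_eq_dext (g : (I → Bool) → ℝ) (b : I → ℝ) : ext g b = dext g ∅ b := by
  simp [ext, dext, mu]

theorem dext_fourier (g : (I → Bool) → ℝ) (U : Finset I) (b : I → ℝ) :
    dext g U b = ∑ W ∈ Uᶜ.powerset, fhat g (U ∪ W) * ∏ i ∈ W, b i := by
  have h1 : ∀ f : I → Bool, (∏ i ∈ U, sg (f i) / 2) * ∏ i ∈ Uᶜ, (1 + b i * sg (f i)) / 2 =
      ∑ W ∈ Uᶜ.powerset, (1 / 2 : ℝ) ^ Fintype.card I * (∏ i ∈ U ∪ W, sg (f i)) *
        ∏ i ∈ W, b i := by
    intro f
    have h2 : ∏ i ∈ U, sg (f i) / 2 = (∏ i ∈ U, sg (f i)) * (1 / 2) ^ U.card := by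
      rw [← prod_const, ← prod_mul_distrib]
      exact prod_congr rfl fun i _ => by ring
    have h3 : ∏ i ∈ Uᶜ, (1 + b i * sg (f i)) / 2 =
        (∑ W ∈ Uᶜ.powerset, ∏ i ∈ W, b i * sg (f i)) * (1 / 2) ^ (Uᶜ).card := by
      rw [← prod_one_add, ← prod_const, ← prod_mul_distrib]
      exact prod_congr rfl fun i _ => by ring
    have h4 : (1 / 2 : ℝ) ^ Fintype.card I = (1 / 2) ^ U.card * (1 / 2) ^ (Uᶜ).card := by
      rw [← pow_add, card_add_card_compl]
    rw [h2, h3, h4, sum_mul, mul_sum]
    refine sum_congr rfl fun W hW => ?_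
    rw [mem_powerset] at hW
    have hd : Disjoint U W := by
      rw [disjoint_left]
      intro i hi hi'
      exact (mem_compl.1 (hW hi')) hi
    rw [prod_union hd, prod_mul_distrib]
    ring
  unfold dext fhat
  simp only [h1]
  simp only [mul_sum, sum_mul]
  rw [sum_comm]
  refine sum_congr rfl fun W _ => ?_
  refine sum_congr rfl fun f _ => ?_
  ring

/-- sum over supersets -/
theorem dext_fourier' (g : (I → Bool) → ℝ) (U : Finset I) (b : I → ℝ) :
    dext g U b = ∑ S : Finset I, if U ⊆ S then fhat g S * ∏ i ∈ S \ U, b i else 0 := by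
  rw [dext_fourier, ← sum_filter]
  refine sum_bij' (fun W _ => U ∪ W) (fun S _ => S \ U) ?_ ?_ ?_ ?_ ?_
  · intro W _
    rw [mem_filter]
    exact ⟨mem_univ _, subset_union_left⟩
  · intro S _
    rw [mem_powerset]
    intro i hi
    rw [mem_sdiff] at hi
    exact mem_compl.2 hi.2
  · intro W hW
    rw [mem_powerset] at hW
    ext i
    rw [mem_sdiff, mem_union]
    constructor
    · rintro ⟨h1 | h1, h2⟩
      · exact absurd h1 h2
      · exact h1
    · intro h
      exact ⟨Or.inr h, mem_compl.1 (hW h)⟩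
  · intro S hS
    rw [mem_filter] at hS
    exact union_sdiff_of_subset hS.2
  · intro W hW
    rw [mem_powerset] at hW
    congr 1
    refine prod_congr ?_ fun _ _ => rfl
    ext i
    rw [mem_sdiff, mem_union]
    constructor
    · intro h
      exact ⟨Or.inr h, mem_compl.1 (hW h)⟩
    · rintro ⟨h1 | h1, h2⟩
      · exact absurd h1 h2
      · exact h1

theorem ext_fourier (g : (I → Bool) → ℝ) (b : I → ℝ) :
    ext g b = ∑ S : Finset I, fhat g S * ∏ i ∈ S, b i := by
  rw [ext_eq_dext, dext_fourier']
  refine sum_congr rfl fun S _ => ?_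
  simp

end fourier

section chain

variable {n : ℕ}

/-- the iterated recursion for the link moments, first point fixed -/
theorem chain_sum_aux : ∀ (k : ℕ) (A : Fin (k + 1) → Finset (Z n)) (a : Z n), a ∈ A 0 →
    ∑ x : Fin k → Z n, (if ∀ i, x i ∈ A i.succ then
      ∏ i : Fin k, (H ((Fin.cons a x : Fin (k + 1) → Z n) i.castSucc) (x i) *
        mm ((A i.castSucc).erase ((Fin.cons a x : Fin (k + 1) → Z n) i.castSucc))
          ((A i.succ).erase (x i))) else 0) =
      ∏ i : Fin k, mm (A i.castSucc) (A i.succ) := by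
  intro k
  induction k with
  | zero =>
    intro A a _
    simp
  | succ k ih =>
    intro A a ha
    rw [← (Fin.consEquiv fun _ : Fin (k + 1) => Z n).sum_comp, Fintype.sum_prod_type]
    have h1 : ∀ b : Z n, ∑ y : Fin k → Z n,
        (if ∀ i, (Fin.consEquiv fun _ : Fin (k + 1) => Z n) (b, y) i ∈ A i.succ then
          ∏ i : Fin (k + 1),
            (H ((Fin.cons a ((Fin.consEquiv fun _ : Fin (k + 1) => Z n) (b, y)) :
                Fin (k + 2) → Z n) i.castSucc)
              ((Fin.consEquiv fun _ : Fin (k + 1) => Z n) (b, y) i) *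
            mm ((A i.castSucc).erase
                ((Fin.cons a ((Fin.consEquiv fun _ : Fin (k + 1) => Z n) (b, y)) :
                  Fin (k + 2) → Z n) i.castSucc))
              ((A i.succ).erase ((Fin.consEquiv fun _ : Fin (k + 1) => Z n) (b, y) i))) else 0) =
        if b ∈ A 1 then H a b * mm ((A 0).erase a) ((A 1).erase b) *
          ∏ i : Fin k, mm (A i.castSucc.succ) (A i.succ.succ) else 0 := by
      intro b
      by_cases hb : b ∈ A 1
      · rw [if_pos hb]
        have h2 := ih (fun i => A i.succ) b hb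
        rw [← h2, mul_sum]
        refine sum_congr rfl fun y _ => ?_
        have h3 : (∀ i, (Fin.consEquiv fun _ : Fin (k + 1) => Z n) (b, y) i ∈ A i.succ) ↔
            ∀ i : Fin k, y i ∈ A i.succ.succ := by
          rw [Fin.forall_fin_succ]
          simp only [Fin.consEquiv_apply, Fin.cons_zero, Fin.cons_succ]
          exact ⟨fun h => h.2, fun h => ⟨hb, h⟩⟩
        by_cases h4 : ∀ i : Fin k, y i ∈ A i.succ.succ
        · rw [if_pos (h3.2 h4), if_pos h4, Fin.prod_univ_succ]
          rfl
        · rw [if_neg (fun h => h4 (h3.1 h)), if_neg h4, mul_zero]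
      · rw [if_neg hb]
        refine sum_eq_zero fun y _ => ?_
        rw [if_neg]
        intro h
        exact hb (h 0)
    simp only [h1]
    rw [← sum_filter, ← sum_mul, Fin.prod_univ_succ]
    congr 1
    rw [Fin.castSucc_zero, Fin.succ_zero_eq_one, mm_rec _ _ a ha]
    refine sum_congr ?_ fun _ _ => rfl
    ext b
    simp

theorem chain_sum (k : ℕ) (A : Fin (k + 1) → Finset (Z n)) :
    ∑ x : Fin (k + 1) → Z n, (if ∀ i, x i ∈ A i then
      ∏ i : Fin k, (H (x i.castSucc) (x i.succ) *
        mm ((A i.castSucc).erase (x i.castSucc)) ((A i.succ).erase (x i.succ))) else 0) =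
      (A 0).card * ∏ i : Fin k, mm (A i.castSucc) (A i.succ) := by
  rw [← (Fin.consEquiv fun _ : Fin (k + 1) => Z n).sum_comp, Fintype.sum_prod_type]
  have h1 : ∀ a : Z n, ∑ y : Fin k → Z n,
      (if ∀ i, (Fin.consEquiv fun _ : Fin (k + 1) => Z n) (a, y) i ∈ A i then
        ∏ i : Fin k,
          (H ((Fin.consEquiv fun _ : Fin (k + 1) => Z n) (a, y) i.castSucc)
            ((Fin.consEquiv fun _ : Fin (k + 1) => Z n) (a, y) i.succ) *
          mm ((A i.castSucc).erase ((Fin.consEquiv fun _ : Fin (k + 1) => Z n) (a, y) i.castSucc))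
            ((A i.succ).erase ((Fin.consEquiv fun _ : Fin (k + 1) => Z n) (a, y) i.succ)))
        else 0) =
      if a ∈ A 0 then ∏ i : Fin k, mm (A i.castSucc) (A i.succ) else 0 := by
    intro a
    by_cases ha : a ∈ A 0
    · rw [if_pos ha, ← chain_sum_aux k A a ha]
      refine sum_congr rfl fun y _ => ?_
      have h3 : (∀ i, (Fin.consEquiv fun _ : Fin (k + 1) => Z n) (a, y) i ∈ A i) ↔
          ∀ i : Fin k, y i ∈ A i.succ := by
        rw [Fin.forall_fin_succ]
        simp only [Fin.consEquiv_apply, Fin.cons_zero, Fin.cons_succ]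
        exact ⟨fun h => h.2, fun h => ⟨ha, h⟩⟩
      by_cases h4 : ∀ i : Fin k, y i ∈ A i.succ
      · rw [if_pos (h3.2 h4), if_pos h4]
        rfl
      · rw [if_neg (fun h => h4 (h3.1 h)), if_neg h4]
    · rw [if_neg ha]
      refine sum_eq_zero fun y _ => ?_
      rw [if_neg]
      intro h
      exact ha (h 0)
  simp only [h1]
  rw [← sum_filter, sum_const, nsmul_eq_mul]
  congr 3
  ext b
  simp

end chain

section main

variable {k n : ℕ}

theorem mem_slice {S : Finset (Pl k n)} {i : Fin (k + 1)} {z : Z n} :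
    z ∈ slice S i ↔ (i, z) ∈ S := by
  simp [slice]

theorem chainSet_subset {x : Fin (k + 1) → Z n} {S : Finset (Pl k n)} :
    chainSet x ⊆ S ↔ ∀ i, x i ∈ slice S i := by
  simp only [mem_slice, chainSet]
  constructor
  · intro h i
    exact h (mem_image.2 ⟨i, mem_univ _, rfl⟩)
  · intro h p hp
    obtain ⟨i, -, rfl⟩ := mem_image.1 hp
    exact h i

theorem slice_sdiff {x : Fin (k + 1) → Z n} {S : Finset (Pl k n)} (i : Fin (k + 1)) :
    slice (S \ chainSet x) i = (slice S i).erase (x i) := by
  ext z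
  rw [mem_slice, mem_sdiff, mem_erase, mem_slice, and_comm]
  refine and_congr_left fun _ => not_congr ?_
  simp only [chainSet, mem_image, mem_univ, true_and, Prod.mk.injEq]
  constructor
  · rintro ⟨j, h1, h2⟩
    subst h1
    exact h2.symm
  · intro h
    exact ⟨i, rfl, h.symm⟩

/-- the moment of a monomial as a function of `lam` -/
noncomputable def QQ (ε lam : ℝ) (S : Finset (Pl k n)) : ℝ :=
  lam ^ (slice S 0).card *
    ∏ i : Fin k, ε ^ ((slice S i.castSucc).card + (slice S i.succ).card) *
      mm (slice S i.castSucc) (slice S i.succ)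

theorem integral_ext (g : (Pl k n → Bool) → ℝ) (ε lam : ℝ) :
    ∫ α : Fin k × Z n → ℝ, ext g (bvec ε lam α) ∂(gam (Fin k × Z n)) =
      ∑ S : Finset (Pl k n), fhat g S * QQ ε lam S := by
  simp only [ext_fourier]
  rw [integral_finsetSum]
  · refine sum_congr rfl fun S _ => ?_
    rw [integral_const_mul, integral_monomial]
    rfl
  · intro S _
    exact (integrable_monomial ε lam S).const_mul _

theorem integral_dext (g : (Pl k n → Bool) → ℝ) (ε lam : ℝ) (U : Finset (Pl k n)) :
    Integrable (fun α : Fin k × Z n → ℝ => dext g U (bvec ε lam α)) (gam (Fin k × Z n)) ∧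
    ∫ α : Fin k × Z n → ℝ, dext g U (bvec ε lam α) ∂(gam (Fin k × Z n)) =
      ∑ S : Finset (Pl k n), if U ⊆ S then fhat g S * QQ ε lam (S \ U) else 0 := by
  simp only [dext_fourier']
  have hint : ∀ S : Finset (Pl k n), Integrable (fun α : Fin k × Z n → ℝ =>
      if U ⊆ S then fhat g S * ∏ i ∈ S \ U, bvec ε lam α i else 0) (gam (Fin k × Z n)) := by
    intro S
    by_cases h : U ⊆ S
    · simp only [if_pos h]
      exact (integrable_monomial ε lam _).const_mul _
    · simp only [if_neg h]
      exact integrable_zero _ _ _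
  refine ⟨integrable_finsetSum _ fun S _ => hint S, ?_⟩
  rw [integral_finsetSum _ fun S _ => hint S]
  refine sum_congr rfl fun S _ => ?_
  by_cases h : U ⊆ S
  · simp only [if_pos h]
    rw [integral_const_mul, integral_monomial]
    rfl
  · simp only [if_neg h]
    simp

theorem integral_Lam (g : (Pl k n → Bool) → ℝ) (ε lam : ℝ) :
    ∫ α : Fin k × Z n → ℝ, Lam g (bvec ε lam α) ∂(gam (Fin k × Z n)) =
      ∑ S : Finset (Pl k n), fhat g S * ∑ x : Fin (k + 1) → Z n,
        (if ∀ i, x i ∈ slice S i then linkW x * QQ ε lam (S \ chainSet x) else 0) := by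
  unfold Lam
  rw [integral_finsetSum]
  · simp only [integral_const_mul, (integral_dext g ε lam _).2, mul_sum]
    rw [sum_comm]
    refine sum_congr rfl fun S _ => sum_congr rfl fun x _ => ?_
    simp only [chainSet_subset]
    split_ifs
    · ring
    · ring
  · intro x _
    exact (integral_dext g ε lam _).1.const_mul _

theorem QQ_deriv (ε lam : ℝ) (S : Finset (Pl k n)) :
    ε ^ (2 * k) * ∑ x : Fin (k + 1) → Z n,
        (if ∀ i, x i ∈ slice S i then linkW x * QQ ε lam (S \ chainSet x) else 0) =
      (slice S 0).card * lam ^ ((slice S 0).card - 1) *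
        ∏ i : Fin k, ε ^ ((slice S i.castSucc).card + (slice S i.succ).card) *
          mm (slice S i.castSucc) (slice S i.succ) := by
  have h1 : ((slice S 0).card : ℝ) * lam ^ ((slice S 0).card - 1) *
        ∏ i : Fin k, ε ^ ((slice S i.castSucc).card + (slice S i.succ).card) *
          mm (slice S i.castSucc) (slice S i.succ) =
      lam ^ ((slice S 0).card - 1) *
        (∏ i : Fin k, ε ^ ((slice S i.castSucc).card + (slice S i.succ).card)) *
        ((slice S 0).card * ∏ i : Fin k, mm (slice S i.castSucc) (slice S i.succ)) := by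
    rw [prod_mul_distrib]
    ring
  rw [h1, ← chain_sum k fun i => slice S i, mul_sum, mul_sum]
  refine sum_congr rfl fun x _ => ?_
  by_cases h : ∀ i, x i ∈ slice S i
  · rw [if_pos h, if_pos h]
    unfold QQ linkW
    simp only [slice_sdiff, card_erase_of_mem (h _)]
    have h2 : ∀ i : Fin k, ε ^ ((slice S i.castSucc).card + (slice S i.succ).card) =
        ε ^ 2 * ε ^ ((slice S i.castSucc).card - 1 + ((slice S i.succ).card - 1)) := by
      intro i
      rw [← pow_add]
      congr 1
      have h3 : 0 < (slice S i.castSucc).card := card_pos.2 ⟨_, h _⟩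
      have h4 : 0 < (slice S i.succ).card := card_pos.2 ⟨_, h _⟩
      omega
    simp only [h2, prod_mul_distrib, prod_const, card_univ, Fintype.card_fin, ← pow_mul]
    ring
  · rw [if_neg h, if_neg h]
    ring

theorem QQ_hasDeriv (ε lam : ℝ) (S : Finset (Pl k n)) :
    HasDerivAt (fun lam => QQ ε lam S) ((slice S 0).card * lam ^ ((slice S 0).card - 1) *
        ∏ i : Fin k, ε ^ ((slice S i.castSucc).card + (slice S i.succ).card) *
          mm (slice S i.castSucc) (slice S i.succ)) lam :=
  (hasDerivAt_pow _ _).mul_const _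

theorem QQ_zero (ε : ℝ) (S : Finset (Pl k n)) : QQ ε 0 S = if S = ∅ then 1 else 0 := by
  by_cases hS : S = ∅
  · subst hS
    rw [if_pos rfl]
    have : ∀ i, slice (∅ : Finset (Pl k n)) i = ∅ := fun i => by simp [slice]
    simp [QQ, this, mm_empty]
  · rw [if_neg hS]
    by_contra hne
    apply hS
    have h0 : slice S 0 = ∅ := by
      by_contra h0
      apply hne
      unfold QQ
      rw [zero_pow, zero_mul]
      rw [Ne, card_eq_zero]
      exact h0
    have hprod : ∀ i : Fin k, mm (slice S i.castSucc) (slice S i.succ) ≠ 0 := by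
      intro i hi
      apply hne
      unfold QQ
      rw [prod_eq_zero (mem_univ i) (by rw [hi, mul_zero]), mul_zero]
    have hall : ∀ i : Fin (k + 1), slice S i = ∅ := by
      intro i
      induction i using Fin.induction with
      | zero => exact h0
      | succ i ih =>
        by_contra hi
        apply hprod i
        rw [ih]
        exact mm_left_empty _ (nonempty_iff_ne_empty.2 hi)
    rw [eq_empty_iff_forall_notMem]
    rintro ⟨i, z⟩ hp
    have : z ∈ slice S i := mem_slice.2 hp
    rw [hall] at this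
    simp at this

end main

end L3

open L3 in
theorem interp {k n : ℕ} (hk : 1 ≤ k) (g : (Pl k n → Bool) → ℝ) (ε B : ℝ) (hε : 0 ≤ ε)
    (hB : ∀ lam : ℝ, 0 ≤ lam → lam ≤ 1 →
      |∫ α : Fin k × Z n → ℝ, Lam g (bvec ε lam α) ∂(gam (Fin k × Z n))| ≤ B) :
    |∫ α : Fin k × Z n → ℝ, ext g (bvec ε 1 α) ∂(gam (Fin k × Z n)) - ext g 0| ≤
      ε ^ (2 * k) * B := by
  have hG0 : ext g 0 = ∑ S : Finset (Pl k n), fhat g S * QQ ε 0 S := by
    rw [ext_fourier]
    refine sum_congr rfl fun S _ => ?_
    rw [QQ_zero]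
    by_cases hS : S = ∅
    · subst hS; simp
    · rw [if_neg hS]
      obtain ⟨p, hp⟩ := nonempty_iff_ne_empty.2 hS
      rw [prod_eq_zero hp rfl]
  rw [integral_ext, hG0]
  have hder : ∀ lam ∈ Set.Icc (0 : ℝ) 1, HasDerivWithinAt
      (fun lam => ∑ S : Finset (Pl k n), fhat g S * QQ ε lam S)
      (ε ^ (2 * k) * ∫ α : Fin k × Z n → ℝ, Lam g (bvec ε lam α) ∂(gam (Fin k × Z n)))
      (Set.Icc 0 1) lam := by
    intro lam _
    apply HasDerivAt.hasDerivWithinAt
    rw [integral_Lam, mul_sum]
    apply HasDerivAt.fun_sum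
    intro S _
    have h1 : ε ^ (2 * k) * (fhat g S * ∑ x : Fin (k + 1) → Z n,
        (if ∀ i, x i ∈ slice S i then linkW x * QQ ε lam (S \ chainSet x) else 0)) =
        fhat g S * ((slice S 0).card * lam ^ ((slice S 0).card - 1) *
        ∏ i : Fin k, ε ^ ((slice S i.castSucc).card + (slice S i.succ).card) *
          mm (slice S i.castSucc) (slice S i.succ)) := by
      rw [← QQ_deriv]
      ring
    rw [h1]
    exact (QQ_hasDeriv ε lam S).const_mul _
  have := norm_image_sub_le_of_norm_deriv_le_segment_01' hder (C := ε ^ (2 * k) * B) ?_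
  · simpa [Real.norm_eq_abs] using this
  · intro lam hlam
    rw [Real.norm_eq_abs, abs_mul, abs_of_nonneg (by positivity)]
    exact mul_le_mul_of_nonneg_left (hB lam hlam.1 hlam.2.le) (by positivity)



end Crest.Agent.QGap
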