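import Mathlib
import Crest.Agent.QGap.Defs
import Crest.Agent.QGap.Gauss
import Crest.Agent.QGap.Tail
import Crest.Agent.QGap.Adv
import Crest.Agent.QGap.Interp

/-!
# S0554, module L6: moments of the forrelation (owner helper7)
-/

set_option autoImplicit false

namespace Crest.Agent.QGap

open Matrix BigOperators Crest.MathPhysics.Query MeasureTheory ProbabilityTheory Finset

namespace L6

open L3

section ext'

variable {I : Type} [Fintype I] [DecidableEq I]

theorem sg_mul_self (v : Bool) : sg v * sg v = 1 := by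
  cases v <;> simp [sg]

theorem ext_sum' {ι : Type} (s : Finset ι) (g : ι → (I → Bool) → ℝ) (b : I → ℝ) :
    ext (fun f => ∑ j ∈ s, g j f) b = ∑ j ∈ s, ext (g j) b := by
  unfold ext
  rw [sum_comm]
  exact sum_congr rfl fun f _ => sum_mul _ _ _

theorem ext_mul' (c : ℝ) (g : (I → Bool) → ℝ) (b : I → ℝ) :
    ext (fun f => c * g f) b = c * ext g b := by
  unfold ext
  rw [mul_sum]
  exact sum_congr rfl fun f _ => by ring

theorem ext_add' (g g' : (I → Bool) → ℝ) (b : I → ℝ) :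
    ext (fun f => g f + g' f) b = ext g b + ext g' b := by
  unfold ext
  rw [← sum_add_distrib]
  exact sum_congr rfl fun f _ => by ring

theorem ext_char (S : Finset I) (b : I → ℝ) :
    ext (fun f => ∏ p ∈ S, sg (f p)) b = ∏ p ∈ S, b p := by
  unfold ext mu
  have h1 : ∀ f : I → Bool, (∏ p ∈ S, sg (f p)) * ∏ i, (1 + b i * sg (f i)) / 2 =
      ∏ i, ((if i ∈ S then sg (f i) else 1) * ((1 + b i * sg (f i)) / 2)) := by
    intro f
    rw [prod_mul_distrib, prod_ite_mem, univ_inter]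
  simp only [h1]
  have h2 := (Finset.prod_univ_sum (fun _ : I => (univ : Finset Bool))
    (fun (i : I) (v : Bool) => (if i ∈ S then sg v else 1) * ((1 + b i * sg v) / 2))).symm
  rw [Fintype.piFinset_univ] at h2
  rw [h2]
  have h3 : ∀ i : I, ∑ v : Bool, (if i ∈ S then sg v else 1) * ((1 + b i * sg v) / 2) =
      if i ∈ S then b i else 1 := by
    intro i
    rw [Fintype.sum_bool]
    by_cases hi : i ∈ S
    · simp only [if_pos hi, sg]; norm_num; ring
    · simp only [if_neg hi, sg]; norm_num; ring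
  simp only [h3]
  rw [prod_ite_mem, univ_inter]

theorem ext_one (b : I → ℝ) : ext (fun _ => 1) b = 1 := by
  have := ext_char (∅ : Finset I) b
  simpa using this

theorem char_mul (A B : Finset I) (s : I → ℝ) (hs : ∀ i, s i * s i = 1) :
    (∏ i ∈ A, s i) * ∏ i ∈ B, s i = ∏ i ∈ symmDiff A B, s i := by
  have hA : ∏ i ∈ A, s i = (∏ i ∈ A \ B, s i) * ∏ i ∈ A ∩ B, s i := by
    rw [← prod_union (disjoint_sdiff_inter A B), sdiff_union_inter]
  have hB : ∏ i ∈ B, s i = (∏ i ∈ B \ A, s i) * ∏ i ∈ A ∩ B, s i := by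
    rw [inter_comm, ← prod_union (disjoint_sdiff_inter B A), sdiff_union_inter]
  have hD : ∏ i ∈ symmDiff A B, s i = (∏ i ∈ A \ B, s i) * ∏ i ∈ B \ A, s i := by
    rw [← prod_union]
    · rfl
    · exact disjoint_sdiff_sdiff
  have hI : (∏ i ∈ A ∩ B, s i) * ∏ i ∈ A ∩ B, s i = 1 := by
    rw [← prod_mul_distrib]
    exact prod_eq_one fun i _ => hs i
  rw [hA, hB, hD]
  calc _ = ((∏ i ∈ A \ B, s i) * ∏ i ∈ B \ A, s i) *
      ((∏ i ∈ A ∩ B, s i) * ∏ i ∈ A ∩ B, s i) := by ring
    _ = _ := by rw [hI, mul_one]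

end ext'

section phi

variable {k n : ℕ}

theorem prod_chainSet (s : Pl k n → ℝ) (x : Fin (k + 1) → Z n) :
    ∏ p ∈ chainSet x, s p = ∏ i, s (i, x i) := by
  unfold chainSet
  rw [prod_image]
  intro i _ j _ h
  exact (Prod.mk.inj h).1

theorem Phi_eq (f : Pl k n → Bool) : Phi f =
    ∑ x : Fin (k + 1) → Z n, (1 / (2 : ℝ) ^ n * linkW x) * ∏ p ∈ chainSet x, sg (f p) := by
  unfold Phi
  rw [mul_sum]
  refine sum_congr rfl fun x _ => ?_
  rw [prod_chainSet fun p => sg (f p)]
  ring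

theorem Phi_sq (f : Pl k n → Bool) : Phi f ^ 2 =
    ∑ x : Fin (k + 1) → Z n, ∑ x' : Fin (k + 1) → Z n,
      (1 / ((2 : ℝ) ^ n) ^ 2 * (linkW x * linkW x')) *
        ∏ p ∈ symmDiff (chainSet x) (chainSet x'), sg (f p) := by
  rw [sq, Phi_eq, sum_mul_sum]
  refine sum_congr rfl fun x _ => sum_congr rfl fun x' _ => ?_
  rw [← char_mul _ _ _ fun i => sg_mul_self _]
  ring

theorem linkW_sq (x : Fin (k + 1) → Z n) : linkW x * linkW x = (1 / 2 ^ n) ^ k := by
  unfold linkW
  rw [← prod_mul_distrib]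
  simp only [← sq, H_sq, prod_const, card_univ, Fintype.card_fin]

theorem card_chains : (Fintype.card (Fin (k + 1) → Z n) : ℝ) = (2 ^ n) ^ (k + 1) := by
  rw [Fintype.card_fun, Fintype.card_fin, Fintype.card_fun, Fintype.card_fin, Fintype.card_bool]
  push_cast
  rfl

theorem sum_linkW_sq : ∑ x : Fin (k + 1) → Z n, linkW x * linkW x = 2 ^ n := by
  simp only [linkW_sq]
  rw [sum_const, card_univ, nsmul_eq_mul, card_chains, pow_succ, one_div, inv_pow]
  field_simp

theorem abs_linkW_le (x : Fin (k + 1) → Z n) : |linkW x| ≤ 1 := by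
  have h := linkW_sq x
  have h2 : linkW x * linkW x ≤ 1 := by
    rw [h]
    refine pow_le_one₀ (by positivity) ?_
    rw [div_le_one (by positivity)]
    exact one_le_pow₀ (by norm_num)
  rw [abs_le]
  constructor <;> nlinarith

theorem abs_sg (v : Bool) : |sg v| = 1 := by
  cases v <;> simp [sg]

theorem abs_Phi_le (f : Pl k n → Bool) : |Phi f| ≤ (2 ^ n) ^ k := by
  rw [Phi_eq]
  calc |∑ x : Fin (k + 1) → Z n, (1 / (2 : ℝ) ^ n * linkW x) * ∏ p ∈ chainSet x, sg (f p)|
      ≤ ∑ x : Fin (k + 1) → Z n, |(1 / (2 : ℝ) ^ n * linkW x) * ∏ p ∈ chainSet x, sg (f p)| :=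
        abs_sum_le_sum_abs _ _
    _ ≤ ∑ _x : Fin (k + 1) → Z n, 1 / (2 : ℝ) ^ n := by
        refine sum_le_sum fun x _ => ?_
        rw [abs_mul, abs_prod]
        simp only [abs_sg, prod_const_one, mul_one]
        rw [abs_mul, abs_of_pos (by positivity)]
        exact mul_le_of_le_one_right (by positivity) (abs_linkW_le x)
    _ = (2 ^ n) ^ k := by
        rw [sum_const, card_univ, nsmul_eq_mul, card_chains, pow_succ]
        field_simp

/-- orthogonality of characters under the uniform measure -/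
theorem unif_char (S : Finset (Pl k n)) :
    ∑ f : Pl k n → Bool, unif (Pl k n) * ∏ p ∈ S, sg (f p) = if S = ∅ then 1 else 0 := by
  have h := ext_char S (0 : Pl k n → ℝ)
  unfold ext mu at h
  have h1 : ∀ f : Pl k n → Bool, ∏ i : Pl k n, (1 + (0 : Pl k n → ℝ) i * sg (f i)) / 2 =
      unif (Pl k n) := by
    intro f
    simp [unif]
  simp only [h1] at h
  have h2 : ∑ f : Pl k n → Bool, unif (Pl k n) * ∏ p ∈ S, sg (f p) = ∏ p ∈ S, (0 : ℝ) := by
    rw [← show ∏ p ∈ S, (0 : Pl k n → ℝ) p = ∏ p ∈ S, (0 : ℝ) from rfl, ← h]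
    exact sum_congr rfl fun f _ => mul_comm _ _
  rw [h2]
  by_cases hS : S = ∅
  · subst hS; simp
  · rw [if_neg hS]
    obtain ⟨p, hp⟩ := nonempty_iff_ne_empty.2 hS
    exact prod_eq_zero hp rfl

theorem chainSet_injective : Function.Injective (chainSet : (Fin (k + 1) → Z n) → _) := by
  intro x x' h
  funext i
  have : (i, x i) ∈ chainSet x' := by
    rw [← h]
    exact mem_image.2 ⟨i, mem_univ _, rfl⟩
  obtain ⟨j, -, hj⟩ := mem_image.1 this
  have h1 := (Prod.mk.inj hj).1
  have h2 := (Prod.mk.inj hj).2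
  rw [← h2, h1]

theorem unif_Phi_sq : ∑ f : Pl k n → Bool, unif (Pl k n) * Phi f ^ 2 = 1 / 2 ^ n := by
  simp only [Phi_sq, mul_sum]
  rw [sum_comm]
  have h1 : ∀ x : Fin (k + 1) → Z n, ∑ f : Pl k n → Bool, ∑ x' : Fin (k + 1) → Z n,
      unif (Pl k n) * ((1 / ((2 : ℝ) ^ n) ^ 2 * (linkW x * linkW x')) *
        ∏ p ∈ symmDiff (chainSet x) (chainSet x'), sg (f p)) =
      1 / ((2 : ℝ) ^ n) ^ 2 * (linkW x * linkW x) := by
    intro x
    rw [sum_comm]
    have h2 : ∀ x' : Fin (k + 1) → Z n, ∑ f : Pl k n → Bool,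
        unif (Pl k n) * ((1 / ((2 : ℝ) ^ n) ^ 2 * (linkW x * linkW x')) *
          ∏ p ∈ symmDiff (chainSet x) (chainSet x'), sg (f p)) =
        if x' = x then 1 / ((2 : ℝ) ^ n) ^ 2 * (linkW x * linkW x') else 0 := by
      intro x'
      have h3 : ∑ f : Pl k n → Bool,
        unif (Pl k n) * ((1 / ((2 : ℝ) ^ n) ^ 2 * (linkW x * linkW x')) *
          ∏ p ∈ symmDiff (chainSet x) (chainSet x'), sg (f p)) =
          (1 / ((2 : ℝ) ^ n) ^ 2 * (linkW x * linkW x')) * ∑ f : Pl k n → Bool,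
          unif (Pl k n) * ∏ p ∈ symmDiff (chainSet x) (chainSet x'), sg (f p) := by
        rw [mul_sum]
        exact sum_congr rfl fun f _ => by ring
      rw [h3, unif_char]
      by_cases h4 : x' = x
      · subst h4
        rw [if_pos rfl, if_pos (by simp), mul_one]
      · rw [if_neg h4, if_neg, mul_zero]
        intro h5
        exact h4 (chainSet_injective (symmDiff_eq_bot.1 h5)).symm
    simp only [h2]
    rw [sum_ite_eq' univ x, if_pos (mem_univ _)]
  simp only [h1]
  rw [← mul_sum, sum_linkW_sq]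
  field_simp

theorem unif_phi' (t : ℝ) (ht : 0 < t) :
    ∑ f : Pl k n → Bool, unif (Pl k n) * (if t < Phi f ^ 2 then 1 else 0) ≤
      1 / (2 ^ n * t) := by
  have hu : 0 ≤ unif (Pl k n) := by unfold unif; positivity
  calc ∑ f : Pl k n → Bool, unif (Pl k n) * (if t < Phi f ^ 2 then 1 else 0)
      ≤ ∑ f : Pl k n → Bool, (1 / t) * (unif (Pl k n) * Phi f ^ 2) := by
        refine sum_le_sum fun f _ => ?_
        by_cases h : t < Phi f ^ 2
        · rw [if_pos h, mul_one]
          have h1 : 1 ≤ (1 / t) * Phi f ^ 2 := by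
            rw [one_div, ← div_eq_inv_mul, one_le_div ht]
            exact h.le
          calc unif (Pl k n) = unif (Pl k n) * 1 := (mul_one _).symm
            _ ≤ unif (Pl k n) * ((1 / t) * Phi f ^ 2) := mul_le_mul_of_nonneg_left h1 hu
            _ = _ := by ring
        · rw [if_neg h, mul_zero]
          positivity
    _ = _ := by
        rw [← mul_sum, unif_Phi_sq]
        field_simp

/-! ### first and second moment in the Gaussian model -/

theorem mm_single (x y : Z n) : mm {x} {y} = H x y := by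
  rw [mm_rec _ _ x (mem_singleton_self x), sum_singleton]
  simp [mm_empty]

theorem mm_pair {x x' y y' : Z n} (hx : x ≠ x') (hy : y ≠ y') :
    mm {x, x'} {y, y'} = H x y * H x' y' + H x y' * H x' y := by
  rw [mm_rec _ _ x (mem_insert_self _ _), sum_pair hy]
  have h1 : ({x, x'} : Finset (Z n)).erase x = {x'} := by
    rw [erase_insert]; simpa using hx
  have h2 : ({y, y'} : Finset (Z n)).erase y = {y'} := by
    rw [erase_insert]; simpa using hy
  have h3 : ({y, y'} : Finset (Z n)).erase y' = {y} := by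
    rw [pair_comm, erase_insert]; simpa using hy.symm
  rw [h1, h2, h3, mm_single, mm_single]

theorem mm_right_empty (A : Finset (Z n)) (hA : A.Nonempty) : mm A ∅ = 0 := by
  obtain ⟨x, hx⟩ := hA
  rw [mm_rec _ _ x hx, sum_empty]

theorem integral_ext_sum {ι : Type} [Fintype ι] (c : ι → ℝ) (S : ι → Finset (Pl k n)) (ε : ℝ) :
    ∫ α : Fin k × Z n → ℝ, ext (fun f => ∑ j, c j * ∏ p ∈ S j, sg (f p)) (bvec ε 1 α)
      ∂(gam (Fin k × Z n)) = ∑ j, c j * QQ ε 1 (S j) := by
  simp only [ext_sum', ext_mul', ext_char]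
  rw [integral_finsetSum]
  · refine sum_congr rfl fun j _ => ?_
    rw [integral_const_mul, integral_monomial]
    rfl
  · intro j _
    exact (integrable_monomial ε 1 _).const_mul _

theorem integrable_ext (g : (Pl k n → Bool) → ℝ) (ε lam : ℝ) :
    Integrable (fun α : Fin k × Z n → ℝ => ext g (bvec ε lam α)) (gam (Fin k × Z n)) := by
  simp only [ext_eq_dext]
  exact (integral_dext g ε lam ∅).1

theorem slice_chainSet (x : Fin (k + 1) → Z n) (i : Fin (k + 1)) :
    slice (chainSet x) i = {x i} := by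
  ext z
  rw [L3.mem_slice, mem_singleton]
  simp only [chainSet, mem_image, mem_univ, true_and, Prod.mk.injEq]
  constructor
  · rintro ⟨j, h1, h2⟩
    subst h1
    exact h2.symm
  · intro h
    exact ⟨i, rfl, h.symm⟩

theorem slice_symmDiff (x x' : Fin (k + 1) → Z n) (i : Fin (k + 1)) :
    slice (symmDiff (chainSet x) (chainSet x')) i = if x i = x' i then ∅ else {x i, x' i} := by
  have h : slice (symmDiff (chainSet x) (chainSet x')) i =
      symmDiff (slice (chainSet x) i) (slice (chainSet x') i) := by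
    ext z
    simp only [L3.mem_slice, mem_symmDiff]
  rw [h, slice_chainSet, slice_chainSet]
  by_cases h1 : x i = x' i
  · rw [if_pos h1, h1]
    simp
  · rw [if_neg h1]
    ext z
    simp only [mem_symmDiff, mem_singleton, mem_insert]
    constructor
    · rintro (⟨h2, -⟩ | ⟨h2, -⟩)
      · exact Or.inl h2
      · exact Or.inr h2
    · rintro (h2 | h2)
      · exact Or.inl ⟨h2, fun h3 => h1 (h2.symm.trans h3)⟩
      · exact Or.inr ⟨h2, fun h3 => h1 (h3.symm.trans h2)⟩

theorem first_moment (ε : ℝ) :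
    ∫ α : Fin k × Z n → ℝ, ext Phi (bvec ε 1 α) ∂(gam (Fin k × Z n)) = ε ^ (2 * k) := by
  have h1 : (Phi : (Pl k n → Bool) → ℝ) = fun f => ∑ x : Fin (k + 1) → Z n,
      (1 / (2 : ℝ) ^ n * linkW x) * ∏ p ∈ chainSet x, sg (f p) := by
    funext f
    exact Phi_eq f
  rw [h1, integral_ext_sum]
  have h2 : ∀ x : Fin (k + 1) → Z n, QQ ε 1 (chainSet x) = ε ^ (2 * k) * linkW x := by
    intro x
    unfold QQ linkW
    simp only [slice_chainSet, card_singleton, mm_single, one_pow, one_mul, prod_mul_distrib,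
      prod_const, card_univ, Fintype.card_fin, ← pow_mul]
  simp only [h2]
  calc ∑ x : Fin (k + 1) → Z n, 1 / (2 : ℝ) ^ n * linkW x * (ε ^ (2 * k) * linkW x)
      = ε ^ (2 * k) / 2 ^ n * ∑ x : Fin (k + 1) → Z n, linkW x * linkW x := by
        rw [mul_sum]
        exact sum_congr rfl fun x _ => by ring
    _ = _ := by
        rw [sum_linkW_sq]
        field_simp

/-- kernel of the pairs -/
noncomputable def KK (a b : Z n × Z n) : ℝ :=
  if a.1 ≠ a.2 ∧ b.1 ≠ b.2 then
    H a.1 b.1 * H a.2 b.2 * (H a.1 b.1 * H a.2 b.2 + H a.1 b.2 * H a.2 b.1) else 0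

theorem KK_nonneg (a b : Z n × Z n) : 0 ≤ KK a b := by
  unfold KK
  split_ifs
  · set u := H a.1 b.1 * H a.2 b.2
    set v := H a.1 b.2 * H a.2 b.1
    have hu : u ^ 2 = (1 / 2 ^ n) ^ 2 := by
      rw [mul_pow, H_sq, H_sq]; ring
    have hv : v ^ 2 = (1 / 2 ^ n) ^ 2 := by
      rw [mul_pow, H_sq, H_sq]; ring
    nlinarith [sq_nonneg (u + v)]
  · exact le_rfl

theorem KK_row (a : Z n × Z n) : ∑ b, KK a b ≤ 1 := by
  unfold KK
  by_cases ha : a.1 ≠ a.2
  · have h1 : ∀ b : Z n × Z n, (if a.1 ≠ a.2 ∧ b.1 ≠ b.2 then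
        H a.1 b.1 * H a.2 b.2 * (H a.1 b.1 * H a.2 b.2 + H a.1 b.2 * H a.2 b.1) else 0) ≤
        (1 / 2 ^ n) ^ 2 + (H a.1 b.1 * H a.2 b.1) * (H a.1 b.2 * H a.2 b.2) := by
      intro b
      have h2 : H a.1 b.1 * H a.2 b.2 * (H a.1 b.1 * H a.2 b.2 + H a.1 b.2 * H a.2 b.1) =
          (1 / 2 ^ n) ^ 2 + (H a.1 b.1 * H a.2 b.1) * (H a.1 b.2 * H a.2 b.2) := by
        have := H_sq a.1 b.1
        have := H_sq a.2 b.2
        calc _ = H a.1 b.1 ^ 2 * H a.2 b.2 ^ 2 +
            (H a.1 b.1 * H a.2 b.1) * (H a.1 b.2 * H a.2 b.2) := by ring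
          _ = _ := by rw [H_sq, H_sq]; ring
      split_ifs with h3
      · exact h2.le
      · have h4 := KK_nonneg a b
        by_cases h5 : b.1 = b.2
        · rw [h5, ← sq]; positivity
        · exact absurd ⟨ha, h5⟩ h3
    calc _ ≤ ∑ b : Z n × Z n, ((1 / 2 ^ n : ℝ) ^ 2 +
          (H a.1 b.1 * H a.2 b.1) * (H a.1 b.2 * H a.2 b.2)) := sum_le_sum fun b _ => h1 b
      _ = 1 := by
        rw [sum_add_distrib, Fintype.sum_prod_type
          (f := fun b : Z n × Z n => (H a.1 b.1 * H a.2 b.1) * (H a.1 b.2 * H a.2 b.2))]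
        simp only [← mul_sum, H_orth, if_neg ha, mul_zero, sum_const_zero, add_zero]
        rw [sum_const, card_univ, nsmul_eq_mul, Fintype.card_prod, Fintype.card_fun,
          Fintype.card_fin, Fintype.card_bool]
        push_cast
        field_simp
  · have : ∀ b : Z n × Z n, (if a.1 ≠ a.2 ∧ b.1 ≠ b.2 then
        H a.1 b.1 * H a.2 b.2 * (H a.1 b.1 * H a.2 b.2 + H a.1 b.2 * H a.2 b.1) else 0) = 0 :=
      fun b => if_neg fun h => ha h.1
    simp only [this, sum_const_zero]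
    norm_num

/-- chains of a substochastic kernel -/
theorem chain_le_aux {X : Type} [Fintype X] [DecidableEq X] (K : X → X → ℝ)
    (h0 : ∀ a b, 0 ≤ K a b) (h1 : ∀ a, ∑ b, K a b ≤ 1) : ∀ (k : ℕ) (a : X),
    ∑ y : Fin k → X, ∏ i : Fin k, K ((Fin.cons a y : Fin (k + 1) → X) i.castSucc) (y i) ≤ 1 := by
  intro k
  induction k with
  | zero => intro a; simp
  | succ k ih =>
    intro a
    rw [← (Fin.consEquiv fun _ : Fin (k + 1) => X).sum_comp, Fintype.sum_prod_type]
    calc _ = ∑ b : X, K a b * ∑ y : Fin k → X,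
          ∏ i : Fin k, K ((Fin.cons b y : Fin (k + 1) → X) i.castSucc) (y i) := by
          refine sum_congr rfl fun b _ => ?_
          rw [mul_sum]
          refine sum_congr rfl fun y _ => ?_
          rw [Fin.prod_univ_succ]
          rfl
      _ ≤ ∑ b : X, K a b * 1 := sum_le_sum fun b _ => mul_le_mul_of_nonneg_left (ih b) (h0 a b)
      _ ≤ 1 := by simpa using h1 a

theorem chain_le {X : Type} [Fintype X] [DecidableEq X] (K : X → X → ℝ)
    (h0 : ∀ a b, 0 ≤ K a b) (h1 : ∀ a, ∑ b, K a b ≤ 1) (k : ℕ) :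
    ∑ c : Fin (k + 1) → X, ∏ i : Fin k, K (c i.castSucc) (c i.succ) ≤ Fintype.card X := by
  rw [← (Fin.consEquiv fun _ : Fin (k + 1) => X).sum_comp, Fintype.sum_prod_type]
  calc _ = ∑ a : X, ∑ y : Fin k → X,
        ∏ i : Fin k, K ((Fin.cons a y : Fin (k + 1) → X) i.castSucc) (y i) := rfl
    _ ≤ ∑ _a : X, (1 : ℝ) := sum_le_sum fun a _ => chain_le_aux K h0 h1 k a
    _ = _ := by simp

theorem term_le (ε : ℝ) (x x' : Fin (k + 1) → Z n) :
    linkW x * linkW x' * QQ ε 1 (symmDiff (chainSet x) (chainSet x')) ≤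
      (if x' = x then linkW x * linkW x' else 0) +
        ε ^ (4 * k) * ∏ i : Fin k, KK (x i.castSucc, x' i.castSucc) (x i.succ, x' i.succ) := by
  have hK : 0 ≤ ε ^ (4 * k) *
      ∏ i : Fin k, KK (x i.castSucc, x' i.castSucc) (x i.succ, x' i.succ) := by
    refine mul_nonneg ?_ (prod_nonneg fun i _ => KK_nonneg _ _)
    rw [show 4 * k = 2 * (2 * k) by ring, pow_mul]
    exact pow_nonneg (sq_nonneg _) _
  by_cases hxx : x' = x
  · subst hxx
    rw [if_pos rfl]
    have : QQ ε 1 (symmDiff (chainSet x') (chainSet x')) = 1 := by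
      unfold QQ
      simp only [slice_symmDiff, if_true, card_empty, add_zero, pow_zero, one_mul, mm_empty,
        prod_const_one]
    rw [this, mul_one]
    linarith
  · rw [if_neg hxx, zero_add]
    by_cases hsame : ∀ i : Fin k, x i.castSucc = x' i.castSucc ↔ x i.succ = x' i.succ
    · have hall : ∀ i : Fin (k + 1), x i = x' i ↔ x 0 = x' 0 := by
        intro i
        induction i using Fin.induction with
        | zero => rfl
        | succ i ih => rw [← hsame i]; exact ih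
      have hne : ∀ i, x i ≠ x' i := by
        intro i hi
        apply hxx
        funext j
        exact ((hall j).2 ((hall i).1 hi)).symm
      have h1 : QQ ε 1 (symmDiff (chainSet x) (chainSet x')) = ε ^ (4 * k) * ∏ i : Fin k,
          (H (x i.castSucc) (x i.succ) * H (x' i.castSucc) (x' i.succ) +
            H (x i.castSucc) (x' i.succ) * H (x' i.castSucc) (x i.succ)) := by
        unfold QQ
        simp only [slice_symmDiff, if_neg (hne _), one_pow, one_mul, mm_pair (hne _) (hne _),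
          card_pair (hne _), prod_mul_distrib, prod_const, card_univ, Fintype.card_fin,
          ← pow_mul]
      rw [h1]
      refine le_of_eq ?_
      unfold linkW KK
      simp only [ne_eq, hne, not_false_eq_true, and_self, if_true, prod_mul_distrib]
      ring
    · push Not at hsame
      obtain ⟨i, hi⟩ := hsame
      have h1 : QQ ε 1 (symmDiff (chainSet x) (chainSet x')) = 0 := by
        unfold QQ
        rw [prod_eq_zero (mem_univ i), mul_zero]
        simp only [slice_symmDiff]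
        rcases hi with ⟨h1, h2⟩ | ⟨h1, h2⟩
        · rw [if_pos h1, if_neg h2, mm_left_empty _ (insert_nonempty _ _), mul_zero]
        · rw [if_neg h1, if_pos h2, mm_right_empty _ (insert_nonempty _ _), mul_zero]
      rw [h1, mul_zero]
      exact hK

theorem second_moment (ε : ℝ) :
    ∫ α : Fin k × Z n → ℝ, ext (fun f => Phi f ^ 2) (bvec ε 1 α) ∂(gam (Fin k × Z n)) ≤
      1 / 2 ^ n + ε ^ (4 * k) := by
  have h1 : (fun f : Pl k n → Bool => Phi f ^ 2) = fun f =>
      ∑ q : (Fin (k + 1) → Z n) × (Fin (k + 1) → Z n),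
      (1 / ((2 : ℝ) ^ n) ^ 2 * (linkW q.1 * linkW q.2)) *
        ∏ p ∈ symmDiff (chainSet q.1) (chainSet q.2), sg (f p) := by
    funext f
    rw [Phi_sq, Fintype.sum_prod_type]
  rw [h1, integral_ext_sum, Fintype.sum_prod_type]
  have h2 : ∀ x x' : Fin (k + 1) → Z n,
      1 / ((2 : ℝ) ^ n) ^ 2 * (linkW x * linkW x') *
        QQ ε 1 (symmDiff (chainSet x) (chainSet x')) ≤
      1 / ((2 : ℝ) ^ n) ^ 2 * ((if x' = x then linkW x * linkW x' else 0) +
        ε ^ (4 * k) * ∏ i : Fin k, KK (x i.castSucc, x' i.castSucc) (x i.succ, x' i.succ)) := by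
    intro x x'
    rw [mul_assoc]
    exact mul_le_mul_of_nonneg_left (term_le ε x x') (by positivity)
  have h3 : ∑ x : Fin (k + 1) → Z n, ∑ x' : Fin (k + 1) → Z n,
      ∏ i : Fin k, KK (x i.castSucc, x' i.castSucc) (x i.succ, x' i.succ) ≤ ((2 : ℝ) ^ n) ^ 2 := by
    have h4 := chain_le (KK : Z n × Z n → Z n × Z n → ℝ) KK_nonneg KK_row k
    rw [← (Equiv.arrowProdEquivProdArrow (Fin (k + 1)) (fun _ => Z n)
      (fun _ => Z n)).symm.sum_comp, Fintype.sum_prod_type] at h4
    refine le_trans (le_of_eq ?_) (h4.trans (le_of_eq ?_))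
    · rfl
    · rw [Fintype.card_prod, Fintype.card_fun, Fintype.card_fin, Fintype.card_bool]
      push_cast
      ring
  have hε : 0 ≤ ε ^ (4 * k) := by
    rw [show 4 * k = 2 * (2 * k) by ring, pow_mul]
    exact pow_nonneg (sq_nonneg _) _
  calc _ ≤ ∑ x : Fin (k + 1) → Z n, ∑ x' : Fin (k + 1) → Z n,
        1 / ((2 : ℝ) ^ n) ^ 2 * ((if x' = x then linkW x * linkW x' else 0) +
        ε ^ (4 * k) * ∏ i : Fin k, KK (x i.castSucc, x' i.castSucc) (x i.succ, x' i.succ)) :=
        sum_le_sum fun x _ => sum_le_sum fun x' _ => h2 x x'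
    _ = 1 / ((2 : ℝ) ^ n) ^ 2 * (∑ x : Fin (k + 1) → Z n, linkW x * linkW x) +
        1 / ((2 : ℝ) ^ n) ^ 2 * (ε ^ (4 * k) * ∑ x : Fin (k + 1) → Z n,
          ∑ x' : Fin (k + 1) → Z n,
          ∏ i : Fin k, KK (x i.castSucc, x' i.castSucc) (x i.succ, x' i.succ)) := by
        simp only [← mul_sum, sum_add_distrib, mul_add]
        congr 2
        refine sum_congr rfl fun x _ => ?_
        rw [sum_ite_eq' univ x, if_pos (mem_univ _)]
    _ ≤ 1 / ((2 : ℝ) ^ n) ^ 2 * (2 ^ n) +
        1 / ((2 : ℝ) ^ n) ^ 2 * (ε ^ (4 * k) * ((2 : ℝ) ^ n) ^ 2) := by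
        rw [sum_linkW_sq]
        gcongr
    _ = _ := by field_simp

end phi

end L6

theorem unif_phi {k n : ℕ} (t : ℝ) (ht : 0 < t) :
    ∑ f : Pl k n → Bool, unif (Pl k n) * (if t < Phi f ^ 2 then 1 else 0) ≤
      1 / (2 ^ n * t) :=
  L6.unif_phi' t ht

open L3 L6 in
theorem nu_phi (k : ℕ) (hk : 1 ≤ k) : ∃ C₀ C₂ : ℝ, 1 ≤ C₀ ∧ 0 < C₂ ∧ ∀ n : ℕ, 1 ≤ n → ∀ ε : ℝ,
    0 < ε → ε ^ 2 * (C₀ * n) ≤ 1 →
    ∑ f : Pl k n → Bool, nu ε f * (if Phi f ^ 2 < (ε ^ (2 * k) / 2) ^ 2 then 1 else 0) ≤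
      C₂ / (ε ^ (4 * k) * 2 ^ n) := by
  classical
  obtain ⟨C₀, hC₀, htail⟩ := tail k (2 * k + 1)
  refine ⟨C₀, 36, hC₀, by norm_num, fun n hn ε hε hεC => ?_⟩
  have hn' : (1 : ℝ) ≤ n := by exact_mod_cast hn
  have hε1 : ε ≤ 1 := by
    by_contra h
    push Not at h
    have h1 : 1 < ε ^ 2 := by nlinarith
    have h2 : 1 ≤ C₀ * n := by nlinarith
    nlinarith
  set μ := ε ^ (2 * k) with hμ
  have hμ0 : 0 < μ := by positivity
  have hμ1 : μ ≤ 1 := pow_le_one₀ hε.le hε1
  set N : ℝ := 2 ^ n with hN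
  have hN1 : 1 ≤ N := one_le_pow₀ (by norm_num)
  have hN0 : 0 < N := by positivity
  -- the second moment of `Phi - μ`
  have hg : ∀ f : Pl k n → Bool, |(Phi f - μ) ^ 2| ≤ 4 * N ^ (2 * k) := by
    intro f
    have h1 := abs_Phi_le f
    have h2 : |Phi f - μ| ≤ 2 * N ^ k := by
      have h3 : 1 ≤ N ^ k := one_le_pow₀ hN1
      calc |Phi f - μ| ≤ |Phi f| + |μ| := abs_sub _ _
        _ ≤ N ^ k + 1 := add_le_add h1 (by rw [abs_of_pos hμ0]; exact hμ1)
        _ ≤ _ := by linarith
    rw [abs_pow]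
    calc |Phi f - μ| ^ 2 ≤ (2 * N ^ k) ^ 2 := pow_le_pow_left₀ (abs_nonneg _) h2 2
      _ = _ := by ring
  have h1 := nu_ext ε (4 * N ^ (2 * k)) (fun f : Pl k n → Bool => (Phi f - μ) ^ 2) hg
  have h2 := htail n hn ε hε hεC
  have h3 : ∫ α : Fin k × Z n → ℝ, ext (fun f => (Phi f - μ) ^ 2) (bvec ε 1 α)
      ∂(gam (Fin k × Z n)) ≤ 1 / N := by
    have h4 : ∀ b : Pl k n → ℝ, ext (fun f : Pl k n → Bool => (Phi f - μ) ^ 2) b =
        ext (fun f => Phi f ^ 2) b - 2 * μ * ext Phi b + μ ^ 2 := by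
      intro b
      have h5 : (fun f : Pl k n → Bool => (Phi f - μ) ^ 2) = fun f =>
          (Phi f ^ 2 + (-(2 * μ)) * Phi f) + μ ^ 2 * (fun _ => (1 : ℝ)) f := by
        funext f
        ring
      rw [h5, ext_add', ext_add', ext_mul', ext_mul', ext_one]
      ring
    simp only [h4]
    have hprob : IsProbabilityMeasure (gam (Fin k × Z n)) := by unfold gam; infer_instance
    rw [integral_add, integral_sub, integral_const_mul, first_moment]
    · have h6 := second_moment (k := k) (n := n) ε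
      have h7 : μ ^ 2 = ε ^ (4 * k) := by rw [hμ, ← pow_mul]; congr 1; ring
      simp only [integral_const, probReal_univ, smul_eq_mul, one_mul]
      rw [← hμ]
      nlinarith
    · exact integrable_ext _ _ _
    · exact (integrable_ext _ _ _).const_mul _
    · exact (integrable_ext _ _ _).sub ((integrable_ext _ _ _).const_mul _)
    · exact integrable_const _
  have h5 : ∑ f : Pl k n → Bool, nu ε f * (Phi f - μ) ^ 2 ≤ 9 / N := by
    have h6 := (abs_le.1 h1).2
    have h7 : 2 * (4 * N ^ (2 * k)) * ∫ α : Fin k × Z n → ℝ, (if good ε α then 0 else grow ε α)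
        ∂(gam (Fin k × Z n)) ≤ 8 / N := by
      calc _ ≤ 2 * (4 * N ^ (2 * k)) * (1 / N ^ (2 * k + 1)) :=
            mul_le_mul_of_nonneg_left h2 (by positivity)
        _ = 8 / N := by rw [pow_succ]; field_simp; norm_num
    have h8 : 9 / N = 1 / N + 8 / N := by ring
    rw [h8]
    linarith
  calc ∑ f : Pl k n → Bool, nu ε f * (if Phi f ^ 2 < (μ / 2) ^ 2 then 1 else 0)
      ≤ ∑ f : Pl k n → Bool, (4 / μ ^ 2) * (nu ε f * (Phi f - μ) ^ 2) := by
        refine sum_le_sum fun f _ => ?_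
        have hnn := nu_nonneg ε f
        by_cases h : Phi f ^ 2 < (μ / 2) ^ 2
        · rw [if_pos h, mul_one]
          have h9 : |Phi f| < μ / 2 := by
            have := abs_lt_of_sq_lt_sq h (by positivity)
            exact this
          have h10 : Phi f < μ / 2 := (abs_lt.1 h9).2
          have h11 : (μ / 2) ^ 2 ≤ (Phi f - μ) ^ 2 := by nlinarith
          have h12 : 1 ≤ (4 / μ ^ 2) * (Phi f - μ) ^ 2 := by
            rw [div_mul_eq_mul_div, one_le_div (by positivity)]
            nlinarith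
          calc nu ε f = nu ε f * 1 := (mul_one _).symm
            _ ≤ nu ε f * ((4 / μ ^ 2) * (Phi f - μ) ^ 2) := mul_le_mul_of_nonneg_left h12 hnn
            _ = _ := by ring
        · rw [if_neg h, mul_zero]
          positivity
    _ = (4 / μ ^ 2) * ∑ f : Pl k n → Bool, nu ε f * (Phi f - μ) ^ 2 := by rw [mul_sum]
    _ ≤ (4 / μ ^ 2) * (9 / N) := mul_le_mul_of_nonneg_left h5 (by positivity)
    _ = 36 / (ε ^ (4 * k) * 2 ^ n) := by
        have h7 : μ ^ 2 = ε ^ (4 * k) := by rw [hμ, ← pow_mul]; congr 1; ring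
        rw [h7, ← hN]
        field_simp
        norm_num

end Crest.Agent.QGap
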