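import Crest.Agent.QGap.Kernel
import Crest.Agent.QGap.Amplify

/-! # S0554, module K4: search with unknown success probability -/

set_option autoImplicit false
set_option linter.unusedSectionVars false

namespace Crest.Agent.QGap

open Matrix BigOperators

theorem amp_trig (θ : ℝ) (r : ℕ) :
    (amp (Real.sin θ ^ 2) r).1 * Real.cos θ = Real.cos ((2 * r + 1) * θ) ∧
    ((amp (Real.sin θ ^ 2) r).1 + (amp (Real.sin θ ^ 2) r).2) * Real.sin θ =
      Real.sin ((2 * r + 1) * θ) := by
  induction r with
  | zero => simp [amp]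
  | succ r ih =>
    obtain ⟨h1, h2⟩ := ih
    have hcs := Real.sin_sq_add_cos_sq θ
    have e : (2 * ((r + 1 : ℕ) : ℝ) + 1) * θ = (2 * r + 1) * θ + 2 * θ := by push_cast; ring
    rw [e, Real.cos_add, Real.sin_add, ← h1, ← h2, Real.cos_two_mul, Real.sin_two_mul]
    have hs : Real.cos θ ^ 2 = 1 - Real.sin θ ^ 2 := by linarith
    constructor
    · simp only [amp]
      rw [hs]; ring
    · simp only [amp]
      have hc3 : Real.cos θ ^ 2 = 1 - Real.sin θ ^ 2 := hs
      calc _ = Real.sin θ * (((amp (Real.sin θ ^ 2) r).1 + (amp (Real.sin θ ^ 2) r).2) *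
              (1 - 2 * Real.sin θ ^ 2) + 2 * (amp (Real.sin θ ^ 2) r).1 *
              (1 - Real.sin θ ^ 2)) := by ring
        _ = Real.sin θ * (((amp (Real.sin θ ^ 2) r).1 + (amp (Real.sin θ ^ 2) r).2) *
              (1 - 2 * (1 - Real.cos θ ^ 2)) + 2 * (amp (Real.sin θ ^ 2) r).1 *
              Real.cos θ ^ 2) := by rw [hs]; ring
        _ = _ := by ring

theorem sum_cos_odd (x : ℝ) (R : ℕ) :
    2 * Real.sin x * ∑ r ∈ Finset.range R, Real.cos ((2 * r + 1) * x) = Real.sin (2 * R * x) := by
  induction R with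
  | zero => simp
  | succ R ih =>
    rw [Finset.sum_range_succ, mul_add, ih]
    have e1 : (2 * ((R + 1 : ℕ) : ℝ) * x) = (2 * R + 1) * x + x := by push_cast; ring
    have e2 : 2 * (R : ℝ) * x = (2 * R + 1) * x - x := by ring
    rw [e1, e2, Real.sin_sub, Real.sin_add]
    ring

theorem avg_sin_sq (θ : ℝ) (R : ℕ) (p : ℝ) (hp : p = 2 * Real.sin θ ^ 2) (hp1 : p ≤ 1)
    (hs : 0 ≤ Real.sin θ) (hc : 0 ≤ Real.cos θ) (hR : 1 ≤ (R : ℝ) ^ 2 * p) (hR1 : 1 ≤ R) :
    1 / 4 ≤ (1 / (R : ℝ)) * ∑ r ∈ Finset.range R, Real.sin ((2 * r + 1) * θ) ^ 2 := by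
  have hRpos : (0 : ℝ) < R := by exact_mod_cast hR1
  have h1 : ∑ r ∈ Finset.range R, Real.sin ((2 * r + 1) * θ) ^ 2 =
      R / 2 - (∑ r ∈ Finset.range R, Real.cos ((2 * r + 1) * (2 * θ))) / 2 := by
    have : ∀ r ∈ Finset.range R, Real.sin ((2 * r + 1) * θ) ^ 2 =
        1 / 2 - Real.cos ((2 * r + 1) * (2 * θ)) / 2 := by
      intro r _
      have e : (2 * (r : ℝ) + 1) * (2 * θ) = 2 * ((2 * r + 1) * θ) := by ring
      rw [e, Real.cos_two_mul]
      have := Real.sin_sq_add_cos_sq ((2 * r + 1) * θ)
      linarith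
    rw [Finset.sum_congr rfl this, Finset.sum_sub_distrib, Finset.sum_const, Finset.card_range,
      nsmul_eq_mul, ← Finset.sum_div]
    ring
  have hcs := Real.sin_sq_add_cos_sq θ
  have hcos2 : 1 / 2 ≤ Real.cos θ ^ 2 := by nlinarith
  -- sin (2θ)^2 ≥ p
  have hsin2 : p ≤ Real.sin (2 * θ) ^ 2 := by
    rw [Real.sin_two_mul, hp]
    nlinarith [sq_nonneg (Real.sin θ)]
  have hsin2nn : 0 ≤ Real.sin (2 * θ) := by
    rw [Real.sin_two_mul]; positivity
  have hRs : 1 ≤ (R : ℝ) * Real.sin (2 * θ) := by
    have h2 : 1 ≤ ((R : ℝ) * Real.sin (2 * θ)) ^ 2 := by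
      rw [mul_pow]
      calc (1 : ℝ) ≤ (R : ℝ) ^ 2 * p := hR
        _ ≤ _ := by gcongr
    have h3 : 0 ≤ (R : ℝ) * Real.sin (2 * θ) := by positivity
    nlinarith
  have hspos : 0 < Real.sin (2 * θ) := by
    rcases hsin2nn.lt_or_eq with h | h
    · exact h
    · rw [← h] at hRs; norm_num at hRs
  have h4 := sum_cos_odd (2 * θ) R
  have h5 := Real.sin_le_one (2 * R * (2 * θ))
  have h6 : (∑ r ∈ Finset.range R, Real.cos ((2 * r + 1) * (2 * θ))) ≤ R / 2 := by
    have h7 : 2 * Real.sin (2 * θ) *
        (∑ r ∈ Finset.range R, Real.cos ((2 * r + 1) * (2 * θ))) ≤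
        2 * Real.sin (2 * θ) * (R / 2) := by
      rw [h4]; nlinarith
    exact le_of_mul_le_mul_left h7 (by positivity)
  rw [h1]
  calc (1 / 4 : ℝ) = (1 / (R : ℝ)) * (R / 4) := by field_simp
    _ ≤ _ := by
      apply mul_le_mul_of_nonneg_left _ (by positivity)
      linarith

theorem search {I Ω : Type} [Fintype I] [Fintype Ω] {q : ℕ} {D : (I → Bool) → Ω → ℝ}
    (h : QProc I q D) (S : Ω → Bool) (R R' : ℕ) (hR : 1 ≤ R) :
    ∃ A : (I → Bool) → ℝ, (∀ x, 0 ≤ A x ∧ A x ≤ 1) ∧
      (∀ x, 1 ≤ (R : ℝ) ^ 2 * (∑ ω, if S ω then D x ω else 0) → 1 - (3 / 4 : ℝ) ^ R' ≤ A x) ∧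
      QProc I (R' * (2 * R * q)) (fun x (o : Option Ω) => match o with
        | some ω => if S ω then D x ω / (∑ ω, if S ω then D x ω else 0) * A x else 0
        | none => 1 - if (∑ ω, if S ω then D x ω else 0) = 0 then 0 else A x) := by
  classical
  have hRpos : (0 : ℝ) < R := by exact_mod_cast hR
  set p : (I → Bool) → ℝ := fun x => ∑ ω, if S ω then D x ω else 0 with hp
  have hD0 : ∀ x ω, 0 ≤ D x ω := h.nonneg
  have hD1 : ∀ x, ∑ ω, D x ω = 1 := h.sum_one
  have hp0 : ∀ x, 0 ≤ p x := fun x => Finset.sum_nonneg fun ω _ => by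
    split_ifs; exacts [hD0 x ω, le_rfl]
  have hp1 : ∀ x, p x ≤ 1 := by
    intro x
    rw [← hD1 x]
    refine Finset.sum_le_sum fun ω _ => ?_
    split_ifs; exacts [le_rfl, hD0 x ω]
  set θ : (I → Bool) → ℝ := fun x => Real.arcsin (Real.sqrt (p x / 2)) with hθ
  have hsq1 : ∀ x, Real.sqrt (p x / 2) ≤ 1 := by
    intro x
    have := hp1 x
    exact Real.sqrt_le_iff.mpr ⟨by norm_num, by linarith⟩
  have hsin : ∀ x, Real.sin (θ x) = Real.sqrt (p x / 2) := by
    intro x
    rw [hθ]
    exact Real.sin_arcsin (by have := Real.sqrt_nonneg (p x / 2); linarith) (hsq1 x)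
  have hsinsq : ∀ x, Real.sin (θ x) ^ 2 = p x / 2 := by
    intro x; rw [hsin, Real.sq_sqrt]; have := hp0 x; positivity
  have hcos : ∀ x, 0 ≤ Real.cos (θ x) := by
    intro x; rw [hθ]; exact Real.cos_arcsin_nonneg _
  -- one attempt
  set A0 : (I → Bool) → ℝ := fun x =>
    (1 / (R : ℝ)) * ∑ r ∈ Finset.range R, Real.sin ((2 * r + 1) * θ x) ^ 2 with hA0
  have hA0nn : ∀ x, 0 ≤ A0 x := fun x => by
    apply mul_nonneg (by positivity)
    exact Finset.sum_nonneg fun r _ => sq_nonneg _
  have hA01 : ∀ x, A0 x ≤ 1 := by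
    intro x
    have : ∑ r ∈ Finset.range R, Real.sin ((2 * r + 1) * θ x) ^ 2 ≤ ∑ r ∈ Finset.range R, 1 :=
      Finset.sum_le_sum fun r _ => Real.sin_sq_le_one _
    rw [Finset.sum_const, Finset.card_range, nsmul_eq_mul, mul_one] at this
    rw [hA0]
    calc (1 / (R : ℝ)) * _ ≤ (1 / (R : ℝ)) * R := by gcongr
      _ = 1 := by field_simp
  set u : (I → Bool) → Ω → ℝ := fun x ω => if S ω then D x ω / p x else 0 with hu
  have hunn : ∀ x ω, 0 ≤ u x ω := by
    intro x ω; rw [hu]; simp only
    split_ifs
    · exact div_nonneg (hD0 x ω) (hp0 x)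
    · exact le_rfl
  have husum : ∀ x, ∑ ω, u x ω = if p x = 0 then 0 else 1 := by
    intro x
    have : ∑ ω, u x ω = p x / p x := by
      rw [hp, Finset.sum_div]
      refine Finset.sum_congr rfl fun ω _ => ?_
      rw [hu]; simp only [hp]; split_ifs <;> simp
    rw [this]
    split_ifs with h0
    · rw [h0]; simp
    · exact div_self h0
  have hDS : ∀ x, p x = 0 → ∀ ω, S ω = true → D x ω = 0 := by
    intro x h0 ω hω
    have h1 : D x ω ≤ p x := by
      have := Finset.single_le_sum (f := fun ω => if S ω then D x ω else 0)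
        (fun ω _ => by split_ifs; exacts [hD0 x ω, le_rfl]) (Finset.mem_univ ω)
      simpa [hω] using this
    exact le_antisymm (h0 ▸ h1) (hD0 x ω)
  have hone : QProc I (2 * R * q) (fun x (o : Option Ω) => match o with
      | some ω => u x ω * A0 x
      | none => 1 - (∑ ω, u x ω) * A0 x) := by
    -- diluted procedure
    have hdil : QProc I q (fun x (ωc : Ω × Bool) => D x ωc.1 * (1 / 2)) := by
      have h1 := h.bind (q' := 0) (D' := fun ω _ (ωc : Ω × Bool) =>
          if ωc.1 = ω then (1 / 2 : ℝ) else 0)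
        (fun ω => QProc.pure (I := I) (fun ωc : Ω × Bool => if ωc.1 = ω then (1 / 2 : ℝ) else 0)
          (fun ωc => by split_ifs <;> norm_num)
          (by rw [Fintype.sum_prod_type]; simp))
      rw [add_zero] at h1
      refine h1.congr fun x ωc => ?_
      rw [Finset.sum_eq_single ωc.1]
      · simp
      · intro ω _ hω; simp [Ne.symm hω]
      · simp
    set S' : Ω × Bool → Bool := fun ωc => S ωc.1 && ωc.2 with hS'
    have hpS' : ∀ x, (∑ ωc, if S' ωc then D x ωc.1 * (1 / 2) else 0) = p x / 2 := by
      intro x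
      rw [Fintype.sum_prod_type, hp, Finset.sum_div]
      refine Finset.sum_congr rfl fun ω _ => ?_
      rw [Fintype.sum_bool]
      simp only [hS']
      cases S ω <;> simp; ring
    -- random number of rounds
    have hR2 := (QProc.pure (I := I) (fun _ : Fin R => (1 : ℝ) / R) (fun _ => by positivity)
      (by simp [hRpos.ne'])).bind (fun r : Fin R => (amplify hdil S' r).mono
        (q' := 2 * R * q) (by
          have := r.isLt
          exact Nat.mul_le_mul_right q (by omega)))
    rw [zero_add] at hR2
    have h3 := hR2.map (fun ωc => if S' ωc then some ωc.1 else none)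
    have hcongr : ∀ x ω, (∑ ωc : Ω × Bool, if (if S' ωc then some ωc.1 else none) = some ω then
        (∑ r : Fin R, 1 / (R : ℝ) *
          ((if S' ωc then
              ((amp (∑ ω, if S' ω then D x ω.1 * (1 / 2) else 0) r).1 +
                (amp (∑ ω, if S' ω then D x ω.1 * (1 / 2) else 0) r).2) ^ 2
            else (amp (∑ ω, if S' ω then D x ω.1 * (1 / 2) else 0) r).1 ^ 2) *
            (D x ωc.1 * (1 / 2)))) else 0) = u x ω * A0 x := by
      intro x ω
      rw [Finset.sum_eq_single (ω, true)]
      · by_cases hSω : S ω = true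
        · have hS1 : S' (ω, true) = true := by simp [hS', hSω]
          rw [hS1]
          simp only [if_true]
          rw [hpS', ← hsinsq]
          by_cases h0 : p x = 0
          · rw [hDS x h0 ω hSω]
            simp [hu, hSω, hDS x h0 ω hSω]
          · have hsne : Real.sin (θ x) ≠ 0 := by
              intro hc
              have := hsinsq x
              rw [hc] at this
              apply h0
              have h9 : (0 : ℝ) ^ 2 = 0 := by norm_num
              linarith
            have h6 : ∀ r : Fin R, ((amp (Real.sin (θ x) ^ 2) r).1 +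
                (amp (Real.sin (θ x) ^ 2) r).2) ^ 2 =
                Real.sin ((2 * (r : ℕ) + 1) * θ x) ^ 2 / (p x / 2) := by
              intro r
              rw [← (amp_trig (θ x) r).2, mul_pow, ← hsinsq]
              field_simp
            simp only [h6]
            rw [hA0, hu]
            simp only [hSω, if_true]
            rw [Finset.mul_sum, Finset.mul_sum, ← Fin.sum_univ_eq_sum_range
              (fun r : ℕ => D x ω / p x * (1 / (R : ℝ) * Real.sin ((2 * (r : ℝ) + 1) * θ x) ^ 2)) R]
            refine Finset.sum_congr rfl fun r _ => ?_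
            field_simp
        · have hS1 : S' (ω, true) = false := by simp [hS', hSω]
          rw [hS1]
          simp [hu, hSω]
      · rintro ⟨ω', b⟩ _ hne
        rw [if_neg]
        intro hc
        by_cases hs' : S' (ω', b) = true
        · rw [if_pos hs'] at hc
          have h7 : ω' = ω := by simpa using hc
          have h8 : b = true := by
            simp [hS'] at hs'
            exact hs'.2
          exact hne (by rw [h7, h8])
        · rw [if_neg hs'] at hc
          exact absurd hc (by simp)
      · simp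
    have hs3 := h3.sum_one
    refine h3.congr fun x o => ?_
    cases o with
    | some ω => exact hcongr x ω
    | none =>
      have := hs3 x
      rw [Fintype.sum_option] at this
      simp only at this ⊢
      rw [Finset.sum_congr rfl (fun ω _ => hcongr x ω), ← Finset.sum_mul] at this
      linarith
  -- repetition
  have hrep : ∀ m : ℕ, QProc I (m * (2 * R * q)) (fun x (o : Option Ω) => match o with
      | some ω => u x ω * (1 - (1 - A0 x) ^ m)
      | none => 1 - (∑ ω, u x ω) * (1 - (1 - A0 x) ^ m)) := by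
    intro m
    induction m with
    | zero =>
      have h0 := QProc.pure (I := I) (fun o : Option Ω => match o with
        | some _ => (0 : ℝ) | none => 1) (fun o => by cases o <;> norm_num) (by
          rw [Fintype.sum_option]; simp)
      rw [Nat.zero_mul]
      refine h0.congr fun x o => ?_
      cases o <;> simp
    | succ m ih =>
      have h1 := ih.bind (q' := 2 * R * q) (D' := fun o x (o' : Option Ω) => match o with
          | some ω => if o' = some ω then (1 : ℝ) else 0
          | none => (match o' with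
            | some ω => u x ω * A0 x
            | none => 1 - (∑ ω, u x ω) * A0 x))
        (fun o => by
          cases o with
          | none => exact hone
          | some ω => exact (QProc.pure (I := I) (fun o' : Option Ω =>
              if o' = some ω then (1 : ℝ) else 0) (fun o' => by split_ifs <;> norm_num)
              (by simp)).mono (Nat.zero_le _))
      have e : m * (2 * R * q) + 2 * R * q = (m + 1) * (2 * R * q) := by ring
      rw [e] at h1
      refine h1.congr fun x o' => ?_
      rw [Fintype.sum_option]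
      by_cases h0 : p x = 0
      · have hz : ∀ ω, u x ω = 0 := by
          have hs := husum x
          rw [if_pos h0] at hs
          intro ω
          exact (Finset.sum_eq_zero_iff_of_nonneg (fun ω _ => hunn x ω)).mp hs ω
            (Finset.mem_univ ω)
        cases o' <;> simp [hz]
      · have hs : ∑ ω, u x ω = 1 := by rw [husum, if_neg h0]
        cases o' with
        | none =>
          simp [hs]; ring
        | some ω =>
          simp only [hs]
          rw [Finset.sum_eq_single ω]
          · simp; ring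
          · intro ω' _ hω'
            simp [Ne.symm hω']
          · simp
  refine ⟨fun x => 1 - (1 - A0 x) ^ R', fun x => ⟨?_, ?_⟩, fun x hx => ?_, ?_⟩
  · have : (1 - A0 x) ^ R' ≤ 1 := pow_le_one₀ (by linarith [hA01 x]) (by linarith [hA0nn x])
    linarith
  · have : 0 ≤ (1 - A0 x) ^ R' := pow_nonneg (by linarith [hA01 x]) _
    linarith
  · have h1 := avg_sin_sq (θ x) R (p x) (by rw [hsinsq]; ring) (hp1 x)
      (by rw [hsin]; exact Real.sqrt_nonneg _) (hcos x) hx hR
    have h2 : 1 / 4 ≤ A0 x := h1
    have : (1 - A0 x) ^ R' ≤ (3 / 4 : ℝ) ^ R' :=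
      pow_le_pow_left₀ (by linarith [hA01 x]) (by linarith) _
    linarith
  · refine (hrep R').congr fun x o => ?_
    cases o with
    | some ω =>
      simp only [hu]
      have e : (∑ ω, if S ω = true then D x ω else 0) = p x := rfl
      rw [e]
      by_cases hS : S ω = true
      · rw [if_pos hS, if_pos hS]
      · rw [if_neg hS, if_neg hS, zero_mul]
    | none =>
      simp only [husum]
      by_cases h0 : p x = 0
      · have h0' : (∑ ω, if S ω = true then D x ω else 0) = 0 := h0
        simp [h0, h0']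
      · have h0' : ¬ (∑ ω, if S ω = true then D x ω else 0) = 0 := h0
        simp [h0, h0']

end Crest.Agent.QGap
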