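import Crest.Agent.QGap.Defs
import Crest.Agent.QGap.Kernel
import Crest.Agent.QGap.Search

/-! # S0554, module K8: pairwise elimination game (helper20) -/

set_option autoImplicit false
set_option linter.unusedSectionVars false

namespace Crest.Agent.QGap

open Matrix BigOperators

namespace GameAux

variable {I : Type} [Fintype I]

lemma bern_mem {q : ℕ} {p : (I → Bool) → ℝ} (h : QProc I q (fun x => bern (p x)))
    (x : I → Bool) : 0 ≤ p x ∧ p x ≤ 1 := by
  have h1 := h.nonneg x true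
  have h2 := h.nonneg x false
  simp only [bern, if_true, Bool.false_eq_true, if_false] at h1 h2
  constructor <;> linarith

lemma constBern (a : ℝ) (h0 : 0 ≤ a) (h1 : a ≤ 1) : QProc I 0 (fun _ => bern a) := by
  refine QProc.pure (Ω := Bool) (bern a) ?_ ?_
  · intro ω
    cases ω <;> simp [bern] <;> linarith
  · simp [bern]

/-- run a procedure, then accept with a probability depending on the outcome -/
lemma bindBern {Ω : Type} [Fintype Ω] {q q' : ℕ} {D : (I → Bool) → Ω → ℝ} (h : QProc I q D)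
    {r : Ω → (I → Bool) → ℝ} (h' : ∀ ω, QProc I q' (fun x => bern (r ω x))) :
    QProc I (q + q') (fun x => bern (∑ ω, D x ω * r ω x)) := by
  have hb := QProc.bind (D' := fun ω x => bern (r ω x)) h h'
  have e : (fun (x : I → Bool) (ω' : Bool) => ∑ ω, D x ω * bern (r ω x) ω') =
      fun x => bern (∑ ω, D x ω * r ω x) := by
    funext x ω'
    cases ω'
    · have hs := h.sum_one x
      simp only [bern, Bool.false_eq_true, if_false, mul_sub, mul_one, Finset.sum_sub_distrib, hs]
    · simp only [bern, if_true]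
  rw [e] at hb
  exact hb

lemma andBern {q q' : ℕ} {p p' : (I → Bool) → ℝ} (h : QProc I q (fun x => bern (p x)))
    (h' : QProc I q' (fun x => bern (p' x))) :
    QProc I (q + q') (fun x => bern (p x * p' x)) := by
  have hb := bindBern (r := fun (b : Bool) x => if b then p' x else 0) h (q' := q') (by
    intro b
    cases b
    · simpa using (constBern (I := I) 0 le_rfl zero_le_one).mono (Nat.zero_le q')
    · simpa using h')
  simpa [bern] using hb

lemma notBern {q : ℕ} {p : (I → Bool) → ℝ} (h : QProc I q (fun x => bern (p x))) :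
    QProc I q (fun x => bern (1 - p x)) := by
  have hb := bindBern (r := fun (b : Bool) _ => if b then 0 else 1) h (q' := 0) (by
    intro b
    cases b
    · simpa using (constBern (I := I) 1 zero_le_one le_rfl)
    · simpa using (constBern (I := I) 0 le_rfl zero_le_one))
  simpa [bern] using hb

section sg
variable {Col : Type} [Fintype Col]

open Classical in
/-- `c` beats `c'` -/
noncomputable def sig (p : (I → Bool) → Col → Col → ℝ) (x : I → Bool) (c c' : Col) : ℝ :=
  if c = c' then 1 else p x c c' * (1 - p x c' c)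

/-- survival probability of `c` against the testers `τ` -/
noncomputable def sur (p : (I → Bool) → Col → Col → ℝ) (x : I → Bool) :
    List Col → Col → ℝ
  | [], _ => 1
  | c' :: τ, c => sig p x c c' * sur p x τ c

/-- expected number of survivors -/
noncomputable def tot (p : (I → Bool) → Col → Col → ℝ) (x : I → Bool) (τ : List Col) : ℝ :=
  ∑ c, sur p x τ c

variable {t : ℕ} {p : (I → Bool) → Col → Col → ℝ}

lemma sig_proc (hT : ∀ c c', QProc I t (fun x => bern (p x c c'))) (c c' : Col) :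
    QProc I (2 * t) (fun x => bern (sig p x c c')) := by
  by_cases h : c = c'
  · simpa [sig, h] using (constBern (I := I) 1 zero_le_one le_rfl).mono (Nat.zero_le (2 * t))
  · have := andBern (hT c c') (notBern (hT c' c))
    simpa [sig, h, two_mul] using this

lemma sur_proc (hT : ∀ c c', QProc I t (fun x => bern (p x c c'))) (τ : List Col) (c : Col) :
    QProc I (2 * t * τ.length) (fun x => bern (sur p x τ c)) := by
  induction τ with
  | nil => simpa [sur] using (constBern (I := I) 1 zero_le_one le_rfl)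
  | cons c' τ ih =>
    have := andBern (sig_proc hT c c') ih
    simpa [sur, mul_add, add_comm] using this

lemma sig_mem (hp : ∀ x c c', 0 ≤ p x c c' ∧ p x c c' ≤ 1) (x : I → Bool) (c c' : Col) :
    0 ≤ sig p x c c' ∧ sig p x c c' ≤ 1 := by
  unfold sig
  split_ifs with h
  · exact ⟨zero_le_one, le_rfl⟩
  · have h1 := hp x c c'
    have h2 := hp x c' c
    constructor
    · exact mul_nonneg h1.1 (by linarith [h2.2])
    · exact mul_le_one₀ h1.2 (by linarith [h2.2]) (by linarith [h2.1])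

lemma sur_mem (hp : ∀ x c c', 0 ≤ p x c c' ∧ p x c c' ≤ 1) (x : I → Bool) (τ : List Col)
    (c : Col) : 0 ≤ sur p x τ c ∧ sur p x τ c ≤ 1 := by
  induction τ with
  | nil => simp [sur]
  | cons c' τ ih =>
    have h := sig_mem hp x c c'
    exact ⟨mul_nonneg h.1 ih.1, mul_le_one₀ h.2 ih.1 ih.2⟩

open Classical in
lemma sig_add (hp : ∀ x c c', 0 ≤ p x c c' ∧ p x c c' ≤ 1) (x : I → Bool) (c c' : Col) :
    sig p x c' c + sig p x c c' ≤ 1 + if c = c' then 1 else 0 := by
  by_cases h : c = c'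
  · simp only [sig, h, if_true]
    norm_num
  · have h' : c' ≠ c := fun e => h e.symm
    simp only [sig, h, h', if_false]
    have h1 := hp x c c'
    have h2 := hp x c' c
    nlinarith [mul_nonneg h1.1 h2.1, mul_nonneg (sub_nonneg.2 h1.2) (sub_nonneg.2 h2.2)]

/-- the main inequality: a random survivor used as a tester halves the expected number of
survivors -/
lemma halving (hp : ∀ x c c', 0 ≤ p x c c' ∧ p x c c' ≤ 1) (x : I → Bool) (τ : List Col) :
    ∑ c, sur p x τ c * tot p x (c :: τ) ≤ (tot p x τ ^ 2 + tot p x τ) / 2 := by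
  classical
  have e1 : ∑ c, sur p x τ c * tot p x (c :: τ) =
      ∑ c, ∑ c', sur p x τ c * sur p x τ c' * sig p x c' c := by
    refine Finset.sum_congr rfl fun c _ => ?_
    rw [tot, Finset.mul_sum]
    exact Finset.sum_congr rfl fun c' _ => by simp only [sur]; ring
  have e2 : ∑ c, ∑ c', sur p x τ c * sur p x τ c' * sig p x c' c =
      ∑ c, ∑ c', sur p x τ c * sur p x τ c' * sig p x c c' := by
    rw [Finset.sum_comm]
    exact Finset.sum_congr rfl fun c _ => Finset.sum_congr rfl fun c' _ => by ring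
  have e3 : ∑ c, ∑ c', sur p x τ c * sur p x τ c' * (sig p x c' c + sig p x c c') ≤
      ∑ c, ∑ c', sur p x τ c * sur p x τ c' * (1 + if c = c' then 1 else 0) := by
    refine Finset.sum_le_sum fun c _ => Finset.sum_le_sum fun c' _ => ?_
    exact mul_le_mul_of_nonneg_left (sig_add hp x c c')
      (mul_nonneg (sur_mem hp x τ c).1 (sur_mem hp x τ c').1)
  have e4 : ∑ c, ∑ c', sur p x τ c * sur p x τ c' * (1 + if c = c' then (1 : ℝ) else 0) =
      tot p x τ ^ 2 + ∑ c, sur p x τ c ^ 2 := by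
    rw [sq, tot, Finset.sum_mul_sum, ← Finset.sum_add_distrib]
    refine Finset.sum_congr rfl fun c _ => ?_
    simp only [mul_add, mul_one, Finset.sum_add_distrib, mul_ite, mul_zero,
      Finset.sum_ite_eq, Finset.mem_univ, if_true, sq]
  have e5 : ∑ c, sur p x τ c ^ 2 ≤ tot p x τ := by
    refine Finset.sum_le_sum fun c _ => ?_
    have := sur_mem hp x τ c
    nlinarith [this.1, this.2]
  have e6 : ∑ c, ∑ c', sur p x τ c * sur p x τ c' * (sig p x c' c + sig p x c c') =
      ∑ c, ∑ c', sur p x τ c * sur p x τ c' * sig p x c' c +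
      ∑ c, ∑ c', sur p x τ c * sur p x τ c' * sig p x c c' := by
    simp only [mul_add, Finset.sum_add_distrib]
  rw [e1]
  linarith

/-- the special column survives -/
lemma sur_special (hp : ∀ x c c', 0 ≤ p x c c' ∧ p x c c' ≤ 1) (x : I → Bool) (b : Col)
    (η : ℝ) (h1 : ∀ c, c ≠ b → 1 - η ≤ p x b c) (h2 : ∀ c, c ≠ b → p x c b = 0)
    (hη : 0 ≤ η) (τ : List Col) : 1 - η * τ.length ≤ sur p x τ b := by
  induction τ with
  | nil => simp [sur]
  | cons c τ ih =>
    have hs : 1 - η ≤ sig p x b c := by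
      unfold sig
      split_ifs with h
      · linarith
      · have h' : c ≠ b := fun e => h e.symm
        rw [h2 c h']
        simpa using h1 c h'
    have hs1 := (sig_mem hp x b c).2
    have ht1 := (sur_mem hp x τ b).2
    have : (sur p x (c :: τ) b) = sig p x b c * sur p x τ b := rfl
    rw [this]
    push_cast [List.length_cons]
    nlinarith [mul_nonneg (sub_nonneg.2 hs1) (sub_nonneg.2 ht1)]

lemma base_proc (hT : ∀ c c', QProc I t (fun x => bern (p x c c'))) (N : ℝ) (hN : 0 < N)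
    (hcard : (Fintype.card Col : ℝ) = N) (τ : List Col) :
    QProc I (2 * t * τ.length)
      (fun x (ω : Col × Bool) => (1 / N) * bern (sur p x τ ω.1) ω.2) := by
  classical
  have hu : QProc I 0 (fun (_ : I → Bool) (_ : Col) => 1 / N) := by
    refine QProc.pure (Ω := Col) (fun _ => 1 / N) (fun _ => by positivity) ?_
    rw [Finset.sum_const, Finset.card_univ, nsmul_eq_mul, hcard]
    field_simp
  have hm : ∀ c : Col, QProc I (2 * t * τ.length) (fun x (ω : Col × Bool) =>
      ∑ o : Bool, if (c, o) = ω then bern (sur p x τ c) o else 0) :=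
    fun c => QProc.map (sur_proc hT τ c) (fun o => (c, o))
  have hb := hu.bind hm
  have e : (fun (x : I → Bool) (ω : Col × Bool) => ∑ c, 1 / N * ∑ o : Bool,
      if (c, o) = ω then bern (sur p x τ c) o else 0) =
      fun x (ω : Col × Bool) => (1 / N) * bern (sur p x τ ω.1) ω.2 := by
    funext x ω
    obtain ⟨c0, o0⟩ := ω
    rw [Finset.sum_eq_single c0]
    · congr 1
      rw [Finset.sum_eq_single o0]
      · simp
      · intro o _ ho
        simp [ho]
      · simp
    · intro c _ hc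
      simp [hc]
    · simp
  rw [e, Nat.zero_add] at hb
  exact hb

/-- one round: sample a survivor, then continue -/
lemma step_proc (hT : ∀ c c', QProc I t (fun x => bern (p x c c'))) (N : ℝ) (hN : 0 < N)
    (hcard : (Fintype.card Col : ℝ) = N) (τ : List Col) (len R R' : ℕ) (hlen : τ.length ≤ len)
    (hR : 1 ≤ R) {q' : ℕ} {r : Col → (I → Bool) → ℝ}
    (h' : ∀ c, QProc I q' (fun x => bern (r c x))) :
    ∃ A : (I → Bool) → ℝ, (∀ x, 0 ≤ A x ∧ A x ≤ 1) ∧
      (∀ x, 1 ≤ (R : ℝ) ^ 2 * (tot p x τ / N) → 1 - (3 / 4 : ℝ) ^ R' ≤ A x) ∧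
      QProc I (R' * (2 * R * (2 * t * len)) + q')
        (fun x => bern (∑ c, sur p x τ c / tot p x τ * A x * r c x)) := by
  classical
  have hb := (base_proc hT N hN hcard τ).mono (Nat.mul_le_mul_left (2 * t) hlen)
  obtain ⟨A, hA0, hA1, hA⟩ := search hb (fun ω => ω.2) R R' hR
  have eP : ∀ x, (∑ ω : Col × Bool, if ω.2 then 1 / N * bern (sur p x τ ω.1) ω.2 else 0) =
      tot p x τ / N := by
    intro x
    rw [Fintype.sum_prod_type]
    simp only [Fintype.sum_bool, if_true, Bool.false_eq_true, if_false, add_zero, bern]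
    rw [← Finset.mul_sum, tot]
    ring
  simp only [eP] at hA1 hA
  refine ⟨A, hA0, hA1, ?_⟩
  have hfin := bindBern hA (q' := q') (r := fun (o : Option (Col × Bool)) x =>
    match o with
    | some ω => r ω.1 x
    | none => 0) (by
    intro o
    cases o with
    | none => exact (constBern (I := I) 0 le_rfl zero_le_one).mono (Nat.zero_le q')
    | some ω => exact h' ω.1)
  have e : ∀ x : I → Bool, ∑ c, sur p x τ c / tot p x τ * A x * r c x =
      ∑ c, ((1 / N * bern (sur p x τ c) true / (tot p x τ / N) * A x) * r c x) := by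
    intro x
    refine Finset.sum_congr rfl fun c _ => ?_
    simp only [bern, if_true]
    congr 2
    by_cases h0 : tot p x τ = 0
    · simp [h0]
    · field_simp
  simp only [e]
  convert hfin using 3 with x
  rw [Fintype.sum_option, Fintype.sum_prod_type]
  simp only [Fintype.sum_bool, mul_zero, zero_add, if_true, Bool.false_eq_true, if_false,
    zero_mul, add_zero]

end sg

section rec
variable {Col : Type} [Fintype Col]

/-- tangent line form of Jensen for `1/d` -/
lemma jensen_inv {ι : Type} [Fintype ι] (w d : ι → ℝ) (m : ℝ) (hm : 0 < m)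
    (hw : ∀ i, 0 ≤ w i) (hw1 : ∑ i, w i = 1) (hd : ∀ i, 0 < d i)
    (h : ∑ i, w i * d i ≤ m) : 1 / m ≤ ∑ i, w i * (1 / d i) := by
  have h1 : ∀ i, w i * ((2 * m - d i) / m ^ 2) ≤ w i * (1 / d i) := by
    intro i
    refine mul_le_mul_of_nonneg_left ?_ (hw i)
    rw [div_le_div_iff₀ (by positivity) (hd i)]
    nlinarith [sq_nonneg (d i - m)]
  have h2 : ∑ i, w i * ((2 * m - d i) / m ^ 2) = (2 * m - ∑ i, w i * d i) / m ^ 2 := by
    have : ∀ i, w i * ((2 * m - d i) / m ^ 2) = (2 * m * w i - w i * d i) / m ^ 2 := by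
      intro i; ring
    simp only [this]
    rw [← Finset.sum_div, Finset.sum_sub_distrib, ← Finset.mul_sum, hw1, mul_one]
  calc 1 / m = m / m ^ 2 := by field_simp
    _ ≤ (2 * m - ∑ i, w i * d i) / m ^ 2 := by
        apply div_le_div_of_nonneg_right _ (by positivity)
        linarith
    _ = ∑ i, w i * ((2 * m - d i) / m ^ 2) := h2.symm
    _ ≤ _ := Finset.sum_le_sum fun i _ => h1 i

lemma upper_step {w : Col → ℝ} {T A u : ℝ} {r : Col → ℝ} (hw : ∀ c, 0 ≤ w c)
    (hT : T = ∑ c, w c) (hA0 : 0 ≤ A) (hA1 : A ≤ 1) (hu : 0 ≤ u) (hr : ∀ c, r c ≤ u) :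
    ∑ c, w c / T * A * r c ≤ u := by
  have hT0 : 0 ≤ T := by rw [hT]; exact Finset.sum_nonneg fun c _ => hw c
  have h1 : ∀ c, w c / T * A * r c ≤ w c / T * u := by
    intro c
    have hwc : 0 ≤ w c / T := div_nonneg (hw c) hT0
    calc w c / T * A * r c ≤ w c / T * A * u :=
          mul_le_mul_of_nonneg_left (hr c) (mul_nonneg hwc hA0)
      _ = w c / T * (A * u) := by ring
      _ ≤ w c / T * u := by
          apply mul_le_mul_of_nonneg_left _ hwc
          nlinarith
  calc _ ≤ ∑ c, w c / T * u := Finset.sum_le_sum fun c _ => h1 c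
    _ = (∑ c, w c) / T * u := by rw [← Finset.sum_mul, Finset.sum_div]
    _ ≤ 1 * u := by
        apply mul_le_mul_of_nonneg_right _ hu
        rw [← hT]
        exact div_self_le_one T
    _ = u := one_mul u

theorem recursion (j t v : ℕ) (hcard : Fintype.card Col = 4 ^ j)
    (p : (I → Bool) → Col → Col → ℝ) (acc : (I → Bool) → Col → ℝ)
    (hT : ∀ c c', QProc I t (fun x => bern (p x c c')))
    (hV : ∀ c, QProc I v (fun x => bern (acc x c))) (i : ℕ) :
    ∀ τ : List Col, τ.length + i ≤ 2 * j + 4 →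
    ∃ A : (I → Bool) → ℝ,
      QProc I ((i + 1) * (50 * (j + 1) * (2 * 2 ^ (j + 1) * (2 * t * (2 * j + 4)))) + v)
        (fun x => bern (A x)) ∧
      (∀ x u, 0 ≤ u → (∀ c, acc x c ≤ u) → A x ≤ u) ∧
      (∀ x b η a₁, (∀ c, c ≠ b → 1 - η ≤ p x b c) → (∀ c, c ≠ b → p x c b = 0) →
        0 ≤ η → η * (2 * j + 5) ≤ 1 / 20 → 0 ≤ a₁ → a₁ ≤ acc x b →
        (19 / 20) * (1 - (3 / 4 : ℝ) ^ (50 * (j + 1))) ^ (i + 1) * a₁ *
          (1 / (1 + (tot p x τ - 1) / 2 ^ i)) ≤ A x) := by
  have hp : ∀ x c c', 0 ≤ p x c c' ∧ p x c c' ≤ 1 := fun x c c' => bern_mem (hT c c') x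
  have hacc : ∀ x c, 0 ≤ acc x c ∧ acc x c ≤ 1 := fun x c => bern_mem (hV c) x
  have hN : (0 : ℝ) < 4 ^ j := by positivity
  have hcard' : (Fintype.card Col : ℝ) = 4 ^ j := by rw [hcard]; push_cast; ring
  have hA00 : 0 ≤ 1 - (3 / 4 : ℝ) ^ (50 * (j + 1)) := by
    have : (3 / 4 : ℝ) ^ (50 * (j + 1)) ≤ 1 := pow_le_one₀ (by norm_num) (by norm_num)
    linarith
  -- survivors: the special column
  have hspec : ∀ x b η, (∀ c, c ≠ b → 1 - η ≤ p x b c) → (∀ c, c ≠ b → p x c b = 0) →
      0 ≤ η → η * (2 * j + 5) ≤ 1 / 20 → ∀ τ : List Col, τ.length ≤ 2 * j + 4 →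
      19 / 20 ≤ sur p x τ b ∧ 19 / 20 ≤ tot p x τ ∧
        1 ≤ ((2 ^ (j + 1) : ℕ) : ℝ) ^ 2 * (tot p x τ / 4 ^ j) := by
    intro x b η h1 h2 h3 h4 τ hτ
    have hs := sur_special hp x b η h1 h2 h3 τ
    have hlen : (τ.length : ℝ) ≤ 2 * j + 5 := by
      have : (τ.length : ℝ) ≤ ((2 * j + 4 : ℕ) : ℝ) := by exact_mod_cast hτ
      push_cast at this
      linarith
    have h5 : η * τ.length ≤ 1 / 20 := le_trans (mul_le_mul_of_nonneg_left hlen h3) h4
    have h6 : 19 / 20 ≤ sur p x τ b := by linarith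
    have h7 : sur p x τ b ≤ tot p x τ :=
      Finset.single_le_sum (f := fun c => sur p x τ c)
        (fun c _ => (sur_mem hp x τ c).1) (Finset.mem_univ b)
    refine ⟨h6, le_trans h6 h7, ?_⟩
    have e : ((2 ^ (j + 1) : ℕ) : ℝ) ^ 2 * (tot p x τ / 4 ^ j) = 4 * tot p x τ := by
      push_cast
      rw [← pow_mul, mul_comm (j + 1) 2, pow_mul]
      norm_num
      rw [pow_succ]
      field_simp
    rw [e]
    linarith
  induction i with
  | zero =>
    intro τ hτ
    obtain ⟨A, hA0, hA1, hA⟩ := step_proc hT (4 ^ j) hN hcard' τ (2 * j + 4) (2 ^ (j + 1))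
      (50 * (j + 1)) (by omega) Nat.one_le_two_pow hV
    refine ⟨fun x => ∑ c, sur p x τ c / tot p x τ * A x * acc x c, ?_, ?_, ?_⟩
    · simpa using hA
    · intro x u hu hac
      exact upper_step (fun c => (sur_mem hp x τ c).1) rfl (hA0 x).1 (hA0 x).2 hu hac
    · intro x b η a₁ h1 h2 h3 h4 h5 h6
      obtain ⟨hs, hΦ, hR⟩ := hspec x b η h1 h2 h3 h4 τ (by omega)
      have hAx := hA1 x hR
      have hΦ0 : 0 < tot p x τ := by linarith
      have hsingle : sur p x τ b / tot p x τ * A x * acc x b ≤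
          ∑ c, sur p x τ c / tot p x τ * A x * acc x c :=
        Finset.single_le_sum (f := fun c => sur p x τ c / tot p x τ * A x * acc x c)
          (fun c _ => mul_nonneg (mul_nonneg (div_nonneg (sur_mem hp x τ c).1 hΦ0.le)
            (hA0 x).1) (hacc x c).1) (Finset.mem_univ b)
      refine le_trans ?_ hsingle
      have e : 1 + (tot p x τ - 1) / 2 ^ 0 = tot p x τ := by ring
      rw [e, zero_add, pow_one]
      calc 19 / 20 * (1 - (3 / 4 : ℝ) ^ (50 * (j + 1))) * a₁ * (1 / tot p x τ)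
          = (19 / 20) / tot p x τ * (1 - (3 / 4 : ℝ) ^ (50 * (j + 1))) * a₁ := by ring
        _ ≤ sur p x τ b / tot p x τ * A x * acc x b := by
          have k1 : (19 / 20) / tot p x τ ≤ sur p x τ b / tot p x τ :=
            div_le_div_of_nonneg_right hs hΦ0.le
          have k2 : 0 ≤ (19 / 20 : ℝ) / tot p x τ := by positivity
          gcongr
          exact mul_nonneg (le_trans k2 k1) (hA0 x).1
  | succ i ih =>
    intro τ hτ
    have ih' : ∀ c : Col, _ := fun c => ih (c :: τ) (by simp only [List.length_cons]; omega)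
    choose r hr1 hr2 hr3 using ih'
    obtain ⟨A, hA0, hA1, hA⟩ := step_proc hT (4 ^ j) hN hcard' τ (2 * j + 4) (2 ^ (j + 1))
      (50 * (j + 1)) (by omega) Nat.one_le_two_pow hr1
    refine ⟨fun x => ∑ c, sur p x τ c / tot p x τ * A x * r c x, ?_, ?_, ?_⟩
    · have e : (i + 1 + 1) * (50 * (j + 1) * (2 * 2 ^ (j + 1) * (2 * t * (2 * j + 4)))) + v =
          50 * (j + 1) * (2 * 2 ^ (j + 1) * (2 * t * (2 * j + 4))) +
            ((i + 1) * (50 * (j + 1) * (2 * 2 ^ (j + 1) * (2 * t * (2 * j + 4)))) + v) := by ring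
      rw [e]
      exact hA
    · intro x u hu hac
      exact upper_step (fun c => (sur_mem hp x τ c).1) rfl (hA0 x).1 (hA0 x).2 hu
        (fun c => hr2 c x u hu hac)
    · intro x b η a₁ h1 h2 h3 h4 h5 h6
      obtain ⟨hs, hΦ, hR⟩ := hspec x b η h1 h2 h3 h4 τ (by omega)
      have hAx := hA1 x hR
      have hΦ0 : 0 < tot p x τ := by linarith
      have hc : ∀ c, 19 / 20 ≤ tot p x (c :: τ) := fun c =>
        (hspec x b η h1 h2 h3 h4 (c :: τ) (by simp only [List.length_cons]; omega)).2.1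
      set A0 := (1 - (3 / 4 : ℝ) ^ (50 * (j + 1))) with hA0def
      set K := (19 / 20) * A0 ^ (i + 1) * a₁ with hK
      have hK0 : 0 ≤ K := by rw [hK]; positivity
      have h2i : (1 : ℝ) ≤ 2 ^ i := one_le_pow₀ (by norm_num)
      have hd : ∀ c, 0 < 1 + (tot p x (c :: τ) - 1) / 2 ^ i := by
        intro c
        have : -(1 / 20) ≤ (tot p x (c :: τ) - 1) / 2 ^ i := by
          rw [le_div_iff₀ (by positivity)]
          nlinarith [hc c]
        linarith
      have hm : 0 < 1 + (tot p x τ - 1) / 2 ^ (i + 1) := by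
        have h2i' : (1 : ℝ) ≤ 2 ^ (i + 1) := one_le_pow₀ (by norm_num)
        have : -(1 / 20) ≤ (tot p x τ - 1) / 2 ^ (i + 1) := by
          rw [le_div_iff₀ (by positivity)]
          nlinarith
        linarith
      have hw1 : ∑ c, sur p x τ c / tot p x τ = 1 := by
        rw [← Finset.sum_div]
        exact div_self hΦ0.ne'
      have hwd : ∑ c, sur p x τ c / tot p x τ * (1 + (tot p x (c :: τ) - 1) / 2 ^ i) ≤
          1 + (tot p x τ - 1) / 2 ^ (i + 1) := by
        have e1 : ∑ c, sur p x τ c / tot p x τ * (1 + (tot p x (c :: τ) - 1) / 2 ^ i) =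
            1 + ((∑ c, sur p x τ c * tot p x (c :: τ)) / tot p x τ - 1) / 2 ^ i := by
          have : ∀ c, sur p x τ c / tot p x τ * (1 + (tot p x (c :: τ) - 1) / 2 ^ i) =
              sur p x τ c / tot p x τ + (sur p x τ c * tot p x (c :: τ) / tot p x τ -
                sur p x τ c / tot p x τ) / 2 ^ i := by
            intro c; ring
          simp only [this]
          rw [Finset.sum_add_distrib, hw1, ← Finset.sum_div, Finset.sum_sub_distrib, hw1,
            ← Finset.sum_div]
        rw [e1]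
        have hh := halving hp x τ
        have h8 : (∑ c, sur p x τ c * tot p x (c :: τ)) / tot p x τ ≤ (tot p x τ + 1) / 2 := by
          rw [div_le_iff₀ hΦ0]
          nlinarith
        have h9 : ((∑ c, sur p x τ c * tot p x (c :: τ)) / tot p x τ - 1) / 2 ^ i ≤
            ((tot p x τ + 1) / 2 - 1) / 2 ^ i :=
          div_le_div_of_nonneg_right (by linarith) (by positivity)
        have h10 : ((tot p x τ + 1) / 2 - 1) / 2 ^ i = (tot p x τ - 1) / 2 ^ (i + 1) := by
          rw [pow_succ]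
          field_simp
          ring
        linarith
      have hj := jensen_inv (fun c => sur p x τ c / tot p x τ)
        (fun c => 1 + (tot p x (c :: τ) - 1) / 2 ^ i) _ hm
        (fun c => div_nonneg (sur_mem hp x τ c).1 hΦ0.le) hw1 hd hwd
      have hterm : ∀ c, sur p x τ c / tot p x τ * A0 *
          (K * (1 / (1 + (tot p x (c :: τ) - 1) / 2 ^ i))) ≤
          sur p x τ c / tot p x τ * A x * r c x := by
        intro c
        have k0 : 0 ≤ sur p x τ c / tot p x τ := div_nonneg (sur_mem hp x τ c).1 hΦ0.le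
        have k1 : K * (1 / (1 + (tot p x (c :: τ) - 1) / 2 ^ i)) ≤ r c x :=
          hr3 c x b η a₁ h1 h2 h3 h4 h5 h6
        have k2 : 0 ≤ K * (1 / (1 + (tot p x (c :: τ) - 1) / 2 ^ i)) :=
          mul_nonneg hK0 (div_nonneg zero_le_one (hd c).le)
        exact mul_le_mul (mul_le_mul_of_nonneg_left hAx k0) k1 k2 (mul_nonneg k0 (hA0 x).1)
      calc (19 / 20) * A0 ^ (i + 1 + 1) * a₁ * (1 / (1 + (tot p x τ - 1) / 2 ^ (i + 1)))
          = A0 * K * (1 / (1 + (tot p x τ - 1) / 2 ^ (i + 1))) := by rw [hK]; ring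
        _ ≤ A0 * K * ∑ c, sur p x τ c / tot p x τ *
              (1 / (1 + (tot p x (c :: τ) - 1) / 2 ^ i)) :=
            mul_le_mul_of_nonneg_left hj (mul_nonneg hA00 hK0)
        _ = ∑ c, sur p x τ c / tot p x τ * A0 *
              (K * (1 / (1 + (tot p x (c :: τ) - 1) / 2 ^ i))) := by
            rw [Finset.mul_sum]
            exact Finset.sum_congr rfl fun c _ => by ring
        _ ≤ _ := Finset.sum_le_sum fun c _ => hterm c

end rec

lemma small_num (j : ℕ) : ((2 * j + 5 : ℕ) : ℝ) * (3 / 4 : ℝ) ^ (50 * (j + 1)) ≤ 1 / 199 := by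
  have h1 : (3 / 4 : ℝ) ^ (50 * (j + 1)) ≤ (1 / 1000) ^ (j + 1) := by
    rw [pow_mul]
    exact pow_le_pow_left₀ (by positivity) (by norm_num) _
  have h2 : (1 : ℝ) + (j + 1 : ℕ) * 999 ≤ 1000 ^ (j + 1) := by
    have := one_add_mul_le_pow (a := (999 : ℝ)) (by norm_num) (j + 1)
    norm_num at this ⊢
    linarith
  have h3 : (0 : ℝ) < 1000 ^ (j + 1) := by positivity
  calc ((2 * j + 5 : ℕ) : ℝ) * (3 / 4 : ℝ) ^ (50 * (j + 1))
      ≤ ((2 * j + 5 : ℕ) : ℝ) * (1 / 1000) ^ (j + 1) :=
        mul_le_mul_of_nonneg_left h1 (Nat.cast_nonneg _)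
    _ = ((2 * j + 5 : ℕ) : ℝ) / 1000 ^ (j + 1) := by rw [one_div, inv_pow, div_eq_mul_inv]
    _ ≤ 1 / 199 := by
        rw [div_le_div_iff₀ h3 (by norm_num)]
        push_cast at h2 ⊢
        have hj : (0 : ℝ) ≤ j := Nat.cast_nonneg j
        nlinarith

end GameAux

open GameAux in
theorem game {I Col : Type} [Fintype I] [Fintype Col] (j t v : ℕ)
    (hcard : Fintype.card Col = 4 ^ j)
    (p : (I → Bool) → Col → Col → ℝ) (acc : (I → Bool) → Col → ℝ)
    (hT : ∀ c c', QProc I t (fun x => bern (p x c c')))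
    (hV : ∀ c, QProc I v (fun x => bern (acc x c))) :
    ∃ (A : (I → Bool) → ℝ) (q : ℕ), QProc I q (fun x => bern (A x)) ∧
      q ≤ 10 ^ 4 * (j + 1) ^ 3 * 2 ^ j * t + v ∧
      (∀ x u, 0 ≤ u → (∀ c, acc x c ≤ u) → A x ≤ u) ∧
      (∀ x b η a₁, (∀ c, c ≠ b → 1 - η ≤ p x b c) → (∀ c, c ≠ b → p x c b = 0) →
        0 ≤ η → η * (2 * j + 5) ≤ 1 / 20 → 0 ≤ a₁ → a₁ ≤ acc x b → 0.8 * a₁ ≤ A x) := by
  obtain ⟨A, hA1, hA2, hA3⟩ := recursion j t v hcard p acc hT hV (2 * j + 4) [] (by simp)
  refine ⟨A, _, hA1, ?_, hA2, ?_⟩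
  · have h1 : (2 * j + 5) * (2 * j + 4) ≤ 20 * (j + 1) ^ 2 := by nlinarith
    calc (2 * j + 4 + 1) * (50 * (j + 1) * (2 * 2 ^ (j + 1) * (2 * t * (2 * j + 4)))) + v
        = (2 * j + 5) * (2 * j + 4) * (400 * (j + 1) * 2 ^ j * t) + v := by rw [pow_succ]; ring
      _ ≤ 20 * (j + 1) ^ 2 * (400 * (j + 1) * 2 ^ j * t) + v :=
          Nat.add_le_add_right (Nat.mul_le_mul_right _ h1) _
      _ = 8000 * ((j + 1) ^ 3 * 2 ^ j * t) + v := by ring
      _ ≤ 10000 * ((j + 1) ^ 3 * 2 ^ j * t) + v :=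
          Nat.add_le_add_right (Nat.mul_le_mul_right _ (by norm_num)) _
      _ = 10 ^ 4 * (j + 1) ^ 3 * 2 ^ j * t + v := by ring
  · intro x b η a₁ h1 h2 h3 h4 h5 h6
    refine le_trans ?_ (hA3 x b η a₁ h1 h2 h3 h4 h5 h6)
    have htot : tot p x [] = 4 ^ j := by
      simp only [tot, sur, Finset.sum_const, Finset.card_univ, nsmul_eq_mul, mul_one, hcard]
      push_cast
      ring
    rw [htot]
    have hsm := small_num j
    set z := (3 / 4 : ℝ) ^ (50 * (j + 1)) with hz
    have hz0 : 0 ≤ z := by positivity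
    have hz1 : z ≤ 1 := pow_le_one₀ (by norm_num) (by norm_num)
    have hB : 1 - 1 / 199 ≤ (1 - z) ^ (2 * j + 4 + 1) := by
      have := one_add_mul_le_pow (a := -z) (by linarith) (2 * j + 4 + 1)
      have e : (1 : ℝ) + -z = 1 - z := by ring
      rw [e] at this
      refine le_trans ?_ this
      have e2 : ((2 * j + 4 + 1 : ℕ) : ℝ) = ((2 * j + 5 : ℕ) : ℝ) := by push_cast; ring
      rw [e2]
      nlinarith
    have hden : 16 / 17 ≤ 1 / (1 + ((4 : ℝ) ^ j - 1) / 2 ^ (2 * j + 4)) := by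
      have e4 : (2 : ℝ) ^ (2 * j + 4) = 16 * 4 ^ j := by
        rw [pow_add, pow_mul]
        norm_num
        ring
      have h4 : (1 : ℝ) ≤ 4 ^ j := one_le_pow₀ (by norm_num)
      rw [e4]
      have h7 : ((4 : ℝ) ^ j - 1) / (16 * 4 ^ j) ≤ 1 / 16 := by
        rw [div_le_div_iff₀ (by positivity) (by norm_num)]
        linarith
      have h8 : 0 ≤ ((4 : ℝ) ^ j - 1) / (16 * 4 ^ j) := div_nonneg (by linarith) (by positivity)
      rw [div_le_div_iff₀ (by norm_num) (by linarith)]
      linarith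
    have k1 : (19 / 20) * (1 - 1 / 199) * a₁ * (16 / 17) ≤
        19 / 20 * (1 - z) ^ (2 * j + 4 + 1) * a₁ *
          (1 / (1 + ((4 : ℝ) ^ j - 1) / 2 ^ (2 * j + 4))) := by
      gcongr
    refine le_trans ?_ k1
    nlinarith

end Crest.Agent.QGap
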