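import Crest.Agent.QGap.Procs
import Crest.Agent.QGap.Search

/-! # S0554, module K7 -/

set_option autoImplicit false
set_option linter.unusedSectionVars false

namespace Crest.Agent.QGap

open Matrix BigOperators

theorem verify_all {I K : Type} [Fintype I] [Fintype K] [Nonempty K] (T : K → GTree I Bool)
    (t R : ℕ) (ht : ∀ κ, (T κ).depth ≤ t) (hR : Fintype.card K ≤ R ^ 2) :
    ∃ A : (I → Bool) → ℝ, QProc I (10 * R * t) (fun x => bern (A x)) ∧
      (∀ x, (∀ κ, (T κ).eval x = true) → A x = 1) ∧
      (∀ x, (∃ κ, (T κ).eval x = false) → A x ≤ 1 / 4) := by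
  classical
  have hcard : 0 < Fintype.card K := Fintype.card_pos
  have hcardR : (0 : ℝ) < Fintype.card K := by exact_mod_cast hcard
  have hR1 : 1 ≤ R := by
    rcases Nat.eq_zero_or_pos R with h | h
    · subst h; simp at hR
    · exact h
  -- uniform constraint, then run the tree
  have h1 := (QProc.pure (I := I) (fun _ : K => (1 : ℝ) / Fintype.card K)
    (fun _ => by positivity) (by simp [hcardR.ne'])).bind (q' := t)
    (D' := fun κ x (o : Bool) => if (T κ).eval x = o then (1 : ℝ) else 0)
    (fun κ => (gtree_proc (T κ)).mono (ht κ))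
  rw [zero_add] at h1
  obtain ⟨A, hA01, hA, hP⟩ := search h1 (fun o => !o) R 5 hR1
  set p : (I → Bool) → ℝ := fun x => ∑ ω : Bool, if (!ω) = true then
    ∑ κ, (1 : ℝ) / Fintype.card K * (if (T κ).eval x = ω then (1 : ℝ) else 0) else 0 with hp
  have hpval : ∀ x, p x = ∑ κ, (1 : ℝ) / Fintype.card K *
      (if (T κ).eval x = false then (1 : ℝ) else 0) := by
    intro x
    simp only [hp]
    rw [Fintype.sum_bool]
    simp
  refine ⟨fun x => 1 - if p x = 0 then 0 else A x, ?_, ?_, ?_⟩
  · have h2 := hP.map (fun o : Option Bool => o.isNone)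
    have e : 5 * (2 * R * t) = 10 * R * t := by ring
    rw [e] at h2
    have hs := hP.sum_one
    refine h2.congr fun x o => ?_
    have hsx := hs x
    rw [Fintype.sum_option] at hsx
    rw [Fintype.sum_option]
    have hpx : (∑ ω : Bool, if (!ω) = true then
      ∑ κ, (1 : ℝ) / Fintype.card K * (if (T κ).eval x = ω then (1 : ℝ) else 0) else 0) = p x := rfl
    rw [hpx] at hsx ⊢
    cases o
    · simp only [Option.isNone_none, Option.isNone_some, bern, Bool.false_eq_true, if_false,
        Bool.true_eq_false, if_true]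
      linarith
    · simp [bern]
  · intro x hx
    have : p x = 0 := by
      rw [hpval]
      refine Finset.sum_eq_zero fun κ _ => ?_
      rw [hx κ]; simp
    simp [this]
  · rintro x ⟨κ, hκ⟩
    have hpx : 1 / (Fintype.card K : ℝ) ≤ p x := by
      rw [hpval]
      have := Finset.single_le_sum (f := fun κ => (1 : ℝ) / Fintype.card K *
        (if (T κ).eval x = false then (1 : ℝ) else 0)) (fun κ _ => by positivity)
        (Finset.mem_univ κ)
      simpa [hκ] using this
    have hpos : 0 < p x := lt_of_lt_of_le (by positivity) hpx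
    have hRc : (Fintype.card K : ℝ) ≤ (R : ℝ) ^ 2 := by exact_mod_cast hR
    have h3 : 1 ≤ (R : ℝ) ^ 2 * p x := by
      calc (1 : ℝ) = (Fintype.card K : ℝ) * (1 / Fintype.card K) := by field_simp
        _ ≤ (R : ℝ) ^ 2 * p x := by
          apply mul_le_mul hRc hpx (by positivity) (by positivity)
    have h4 := hA x h3
    simp only [if_neg hpos.ne']
    norm_num at h4
    linarith

end Crest.Agent.QGap
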