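import Crest.Agent.QGap.Nums
import Crest.Agent.QGap.VerifyAll
import Crest.Agent.QGap.Game
import Crest.Agent.QGap.Column

/-! # S0554, module U2: the quantum upper bound, numbers (owner helper2) -/

set_option autoImplicit false

namespace Crest.Agent.QGap

open Matrix BigOperators Crest.MathPhysics.Query MeasureTheory ProbabilityTheory

namespace Upper

/-- verification of one column: decode, then verify the pair -/
theorem verify_col {n k L w : ℕ} (C : Codec n k w) (θ₁ θ₀ : ℝ) (Rt R : ℕ)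
    (hR : Fintype.card (Kx n k L) ≤ R ^ 2) (c : Z n) :
    ∃ acc : (Ix n k L w → Bool) → ℝ,
      QProc (Ix n k L w) (L * (Rt * (k + 1)) + 10 * R * (3 * w + 1)) (fun x => bern (acc x)) ∧
      (∀ x, (∀ a, ¬ Valid C θ₁ θ₀ x c a) → acc x ≤ 1 / 4) ∧
      (∀ x a, Valid C θ₁ θ₀ x c a → decP Rt x c a ≤ acc x) := by
  classical
  have : Nonempty (Kx n k L) := ⟨Kx.noflag fun _ => false⟩
  choose T hTd hTe using fun (a : Fin L → Bool) (κ : Kx n k L) => chk_tree C θ₁ θ₀ c a κ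
  choose A hA hA1 hA2 using fun a => verify_all (T a) (3 * w + 1) R (hTd a) hR
  have hdec := dec_proc (n := n) (k := k) (L := L) (w := w) Rt c
  have hnn : ∀ x a, 0 ≤ decP (n := n) (k := k) (L := L) (w := w) Rt x c a :=
    fun x a => hdec.nonneg x a
  have hAnn : ∀ x a, 0 ≤ A a x := by
    intro x a
    have := (hA a).nonneg x true
    simpa [bern] using this
  refine ⟨fun x => ∑ a, decP Rt x c a * A a x, ?_, ?_, ?_⟩
  · refine (hdec.bind (D' := fun a x => bern (A a x)) hA).congr ?_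
    intro x o
    have hs := hdec.sum_one x
    cases o with
    | true => simp [bern]
    | false =>
      simp only [bern, Bool.false_eq_true, if_false]
      rw [← hs, ← Finset.sum_sub_distrib]
      refine Finset.sum_congr rfl fun a _ => ?_
      rw [hs]
      ring
  · intro x hx
    have h1 : ∀ a, A a x ≤ 1 / 4 := by
      intro a
      apply hA2
      by_contra hcon
      push Not at hcon
      apply hx a
      intro κ
      have h2 := hcon κ
      rw [hTe] at h2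
      simpa using h2
    calc ∑ a, decP Rt x c a * A a x ≤ ∑ a, decP Rt x c a * (1 / 4) :=
          Finset.sum_le_sum fun a _ => mul_le_mul_of_nonneg_left (h1 a) (hnn x a)
      _ = 1 / 4 := by rw [← Finset.sum_mul, hdec.sum_one x, one_mul]
  · intro x a hv
    have h1 : A a x = 1 := by
      apply hA1
      intro κ
      rw [hTe]
      exact decide_eq_true (hv κ)
    calc decP Rt x c a = decP Rt x c a * A a x := by rw [h1, mul_one]
      _ ≤ ∑ a, decP Rt x c a * A a x :=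
        Finset.single_le_sum (f := fun a => decP Rt x c a * A a x)
          (fun a _ => mul_nonneg (hnn x a) (hAnn x a)) (Finset.mem_univ a)

theorem card_bound (k j : ℕ) (hj : 1 ≤ j) :
    Fintype.card (Kx (2 * j) k (5 * j)) ≤ ((15 * k + 22) * j * 2 ^ j) ^ 2 := by
  rw [card_Kx]
  have h1 : (2 : ℕ) ^ (2 * j) = (2 ^ j) ^ 2 := by rw [mul_comm, pow_mul]
  rw [h1]
  set M := (2 : ℕ) ^ j with hM
  have hM1 : 1 ≤ M ^ 2 := Nat.one_le_pow _ _ (by rw [hM]; positivity)
  have hj2 : j ≤ j ^ 2 := by nlinarith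
  have hj3 : 1 ≤ j ^ 2 := by nlinarith
  have hjM : j ≤ j ^ 2 * M ^ 2 := by nlinarith
  have hjM2 : j * M ^ 2 ≤ j ^ 2 * M ^ 2 := Nat.mul_le_mul_right _ hj2
  have hjM3 : M ^ 2 ≤ j ^ 2 * M ^ 2 := by nlinarith
  have e : ((15 * k + 22) * j * M) ^ 2 = (15 * k + 22) ^ 2 * (j ^ 2 * M ^ 2) := by ring
  rw [e]
  have h2 : M ^ 2 + M ^ 2 + 5 * j * M ^ 2 + 5 * j * (k + 1) * (2 * j) * M ^ 2 +
      5 * j * k * M ^ 2 + 5 * j ≤ (15 * k + 22) * (j ^ 2 * M ^ 2) := by
    have h3 : k * (j * M ^ 2) ≤ k * (j ^ 2 * M ^ 2) := Nat.mul_le_mul_left _ hjM2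
    nlinarith
  refine h2.trans (Nat.mul_le_mul_right _ ?_)
  nlinarith

end Upper

theorem upper (k : ℕ) (c₁ : ℝ) (hc : 0 < c₁) (hc' : c₁ ≤ 1) :
    ∃ (c₀ : ℝ) (K e : ℕ), 0 < c₀ ∧ ∀ j : ℕ, 1 ≤ j → ∀ C : Codec (2 * j) k (ww k j),
      ∃ (q : ℕ) (D : (Ix (2 * j) k (5 * j) (ww k j) → Bool) → Bool → ℝ),
        q ≤ K * 2 ^ j * j ^ e ∧ QProc (Ix (2 * j) k (5 * j) (ww k j)) q D ∧
        ∀ x, 2 / 3 ≤ D x (FF C (th1 k c₁ j) (th0 k c₀ j) x) := by
  classical
  set CR : ℕ := ⌈700 / c₁⌉₊ with hCR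
  have hCR1 : 700 / c₁ ≤ (CR : ℝ) := Nat.le_ceil _
  have hCR0 : (0 : ℝ) < CR := lt_of_lt_of_le (by positivity) hCR1
  have hCRc : 700 ≤ c₁ * CR := by
    have := mul_le_mul_of_nonneg_left hCR1 hc.le
    rwa [mul_div_cancel₀ _ hc.ne'] at this
  refine ⟨1 / (700 * CR), 80000 * (5 * CR * (k + 1) + 2 * (k + 2) + 4) + 5 * CR * (k + 1) +
    10 * (15 * k + 22) * (6 * (k + 2) + 10), 2 * k + 6, by positivity, ?_⟩
  intro j hj C
  set c₀ : ℝ := 1 / (700 * CR) with hc₀
  have hc₀0 : 0 < c₀ := by positivity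
  have hjR : (1 : ℝ) ≤ j := by exact_mod_cast hj
  have hjR0 : (0 : ℝ) < j := by linarith
  set L := 5 * j with hL
  set θ₁ := th1 k c₁ j with hθ₁
  set θ₀ := th0 k c₀ j with hθ₀
  set Rt := CR * j ^ (2 * k + 2) with hRt
  set R := (15 * k + 22) * j * 2 ^ j with hR
  set η : ℝ := 1 / (700 * (j : ℝ) ^ 2) with hη
  have hη0 : 0 < η := by positivity
  have hLη : (L : ℝ) * η = 1 / (140 * j) := by
    rw [hL, hη]; push_cast; field_simp; ring
  have hθ1 : θ₁ ≤ 1 := by
    rw [hθ₁, th1, div_le_one (by positivity)]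
    exact hc'.trans (one_le_pow₀ hjR)
  have hθ1' : 0 < θ₁ := by rw [hθ₁, th1]; positivity
  have hθ0' : 0 ≤ θ₀ := by rw [hθ₀, th0]; positivity
  have h1 : (1 - θ₁) ^ Rt ≤ η := by
    have ha : 1 - θ₁ ≤ Real.exp (-θ₁) := Real.one_sub_le_exp_neg θ₁
    have hb : (1 - θ₁) ^ Rt ≤ Real.exp (-θ₁) ^ Rt :=
      pow_le_pow_left₀ (by linarith) ha Rt
    have hx : 700 * (j : ℝ) ^ 2 ≤ θ₁ * Rt := by
      have e1 : θ₁ * Rt = c₁ * CR * (j : ℝ) ^ 2 := by
        rw [hθ₁, th1, hRt]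
        push_cast
        have e2 : (j : ℝ) ^ (2 * k + 2) = (j : ℝ) ^ (2 * k) * (j : ℝ) ^ 2 := by rw [pow_add]
        rw [e2]
        field_simp
      rw [e1]
      exact mul_le_mul_of_nonneg_right hCRc (by positivity)
    rw [← Real.exp_nat_mul] at hb
    have hc2 : Real.exp ((Rt : ℝ) * -θ₁) ≤ Real.exp (-(700 * (j : ℝ) ^ 2)) := by
      apply Real.exp_le_exp.2; nlinarith
    have hd : Real.exp (-(700 * (j : ℝ) ^ 2)) ≤ η := by
      rw [Real.exp_neg, hη, one_div]
      apply inv_anti₀ (by positivity)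
      have := Real.add_one_le_exp (700 * (j : ℝ) ^ 2)
      linarith
    exact hb.trans (hc2.trans hd)
  have h0 : (Rt : ℝ) * θ₀ ≤ η := by
    apply le_of_eq
    rw [hθ₀, th0, hRt, hη, hc₀]
    push_cast
    have e2 : (j : ℝ) ^ (2 * k + 4) = (j : ℝ) ^ (2 * k + 2) * (j : ℝ) ^ 2 := by rw [← pow_add]
    rw [e2]
    field_simp
  choose acc hacc hacc1 hacc2 using fun c =>
    Upper.verify_col (L := L) C θ₁ θ₀ Rt R (Upper.card_bound k j hj) c
  have hcard : Fintype.card (Z (2 * j)) = 4 ^ j := by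
    simp only [Fintype.card_fun, Fintype.card_bool, Fintype.card_fin]
    rw [pow_mul]; norm_num
  obtain ⟨A, q, hq, hqb, hA1, hA2⟩ := game j (L * (Rt * (k + 1)) + (ww k j + 1))
    (L * (Rt * (k + 1)) + 10 * R * (3 * ww k j + 1)) hcard (fun x c c' => pT C Rt x c c')
    (fun x c => acc c x) (fun c c' => test_proc C Rt c c') hacc
  refine ⟨q, fun x => bern (A x), ?_, hq, ?_⟩
  · refine hqb.trans ?_
    have hw' : ww k j = 2 * j * (k + 2) + 3 := rfl
    set M := (2 : ℕ) ^ j with hM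
    have hM1 : 1 ≤ M := Nat.one_le_pow _ _ (by norm_num)
    set J := j ^ (2 * k + 2) with hJ
    have hJ1 : 1 ≤ J := Nat.one_le_pow _ _ (by omega)
    have eJ : j ^ (2 * k + 6) = J * j ^ 4 := by rw [hJ, ← pow_add]
    have t1 : L * (Rt * (k + 1)) + (ww k j + 1) ≤ (5 * CR * (k + 1) + 2 * (k + 2) + 4) * (J * j) := by
      have a1 : j ≤ J * j := Nat.le_mul_of_pos_left _ (by omega)
      have a2 : 1 ≤ J * j := by nlinarith
      have e1 : L * (Rt * (k + 1)) = 5 * CR * (k + 1) * (J * j) := by rw [hL, hRt]; ring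
      rw [e1, hw']
      have a3 : 2 * j * (k + 2) ≤ 2 * (k + 2) * (J * j) := by
        have := Nat.mul_le_mul_left (2 * (k + 2)) a1
        linarith [this]
      have a4 : (5 * CR * (k + 1) + 2 * (k + 2) + 4) * (J * j) =
        5 * CR * (k + 1) * (J * j) + 2 * (k + 2) * (J * j) + 4 * (J * j) := by ring
      rw [a4]
      omega
    have t2 : (j + 1) ^ 3 ≤ 8 * j ^ 3 := by
      have : j + 1 ≤ 2 * j := by omega
      calc (j + 1) ^ 3 ≤ (2 * j) ^ 3 := Nat.pow_le_pow_left this 3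
        _ = 8 * j ^ 3 := by ring
    have t3 : 10 ^ 4 * (j + 1) ^ 3 * M * (L * (Rt * (k + 1)) + (ww k j + 1)) ≤
        80000 * (5 * CR * (k + 1) + 2 * (k + 2) + 4) * M * (J * j ^ 4) := by
      calc 10 ^ 4 * (j + 1) ^ 3 * M * (L * (Rt * (k + 1)) + (ww k j + 1))
          ≤ 10 ^ 4 * (8 * j ^ 3) * M * ((5 * CR * (k + 1) + 2 * (k + 2) + 4) * (J * j)) := by
            gcongr
        _ = 80000 * (5 * CR * (k + 1) + 2 * (k + 2) + 4) * M * (J * j ^ 4) := by ring
    have t4 : L * (Rt * (k + 1)) ≤ 5 * CR * (k + 1) * M * (J * j ^ 4) := by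
      have e1 : L * (Rt * (k + 1)) = 5 * CR * (k + 1) * (J * j) := by rw [hL, hRt]; ring
      rw [e1]
      have a1 : J * j ≤ M * (J * j ^ 4) := by
        have : j ≤ j ^ 4 := Nat.le_self_pow (by norm_num) j
        calc J * j ≤ J * j ^ 4 := Nat.mul_le_mul_left _ this
          _ ≤ M * (J * j ^ 4) := Nat.le_mul_of_pos_left _ (by omega)
      calc 5 * CR * (k + 1) * (J * j) ≤ 5 * CR * (k + 1) * (M * (J * j ^ 4)) :=
            Nat.mul_le_mul_left _ a1
        _ = 5 * CR * (k + 1) * M * (J * j ^ 4) := by ring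
    have t5 : 10 * R * (3 * ww k j + 1) ≤ 10 * (15 * k + 22) * (6 * (k + 2) + 10) * M * (J * j ^ 4) := by
      have a1 : 3 * ww k j + 1 ≤ (6 * (k + 2) + 10) * j := by
        rw [hw']; nlinarith
      have a2 : j ^ 2 ≤ J * j ^ 4 := by
        calc j ^ 2 ≤ j ^ 4 := Nat.pow_le_pow_right (by omega) (by norm_num)
          _ ≤ J * j ^ 4 := Nat.le_mul_of_pos_left _ (by omega)
      calc 10 * R * (3 * ww k j + 1) ≤ 10 * R * ((6 * (k + 2) + 10) * j) :=
            Nat.mul_le_mul_left _ a1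
        _ = 10 * (15 * k + 22) * (6 * (k + 2) + 10) * M * j ^ 2 := by rw [hR]; ring
        _ ≤ 10 * (15 * k + 22) * (6 * (k + 2) + 10) * M * (J * j ^ 4) :=
            Nat.mul_le_mul_left _ a2
    rw [eJ]
    calc _ ≤ 80000 * (5 * CR * (k + 1) + 2 * (k + 2) + 4) * M * (J * j ^ 4) +
          (5 * CR * (k + 1) * M * (J * j ^ 4) +
            10 * (15 * k + 22) * (6 * (k + 2) + 10) * M * (J * j ^ 4)) :=
          add_le_add t3 (add_le_add t4 t5)
      _ = _ := by ring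
  · intro x
    by_cases hF : ∃ b a, Valid C θ₁ θ₀ x b a
    · have hFF : FF C θ₁ θ₀ x = true := decide_eq_true hF
      rw [hFF]
      obtain ⟨b, a, hv⟩ := hF
      have hp := fun c hcb => pT_good C θ₁ θ₀ η Rt x b a hv h1 hθ1 h0 hθ0' c hcb
      have hd := dec_good C θ₁ θ₀ η Rt x b a hv h1 hθ1 h0 hθ0'
      rw [hLη] at hd
      have h140 : 1 / (140 * (j : ℝ)) ≤ 1 / 140 := by
        apply one_div_le_one_div_of_le (by norm_num)
        linarith
      have hfin := hA2 x b (L * η) (1 - 1 / (140 * j)) (fun c hcb => (hp c hcb).1)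
        (fun c hcb => (hp c hcb).2) (by positivity) (by
          rw [hLη]
          rw [one_div, inv_mul_le_iff₀ (by positivity)]
          linarith) (by linarith) (hd.trans (hacc2 b x a hv))
      simp only [bern, if_true]
      linarith
    · have hFF : FF C θ₁ θ₀ x = false := decide_eq_false hF
      rw [hFF]
      have hfin := hA1 x (1 / 4) (by norm_num) (fun c => hacc1 c x (fun a hv => hF ⟨c, a, hv⟩))
      simp only [bern, Bool.false_eq_true, if_false]
      linarith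

end Crest.Agent.QGap
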