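import Mathlib
import Crest.Agent.QGap.Defs
import Crest.Agent.QGap.Upper
import Crest.Agent.QGap.Adv
import Crest.Agent.QGap.Moments
import Crest.Agent.QGap.Hybrid

/-!
# S0554, module L8: the lower bound (owner helper7)
-/

set_option autoImplicit false

namespace Crest.Agent.QGap

open Matrix BigOperators Crest.MathPhysics.Query MeasureTheory ProbabilityTheory

namespace L8

open Filter Topology

theorem eventually_small (k : ℕ) (hk : 2 ≤ k) (a₁ a₂ a₃ : ℝ) :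
    ∀ᶠ j : ℕ in atTop, a₁ * ((j : ℝ) ^ (2 * k + 1) / 4 ^ j) +
      a₂ * ((j : ℝ) ^ (2 * k + 5) / 4 ^ j) +
      2 * ((4 : ℝ) ^ j) ^ (-(1 / (k : ℝ))) + a₃ * (j * ((4 : ℝ) ^ j) ^ (-(1 / (4 * (k : ℝ))))) <
      1 / 6 := by
  have hk0 : (0 : ℝ) < k := by
    have : 0 < k := by omega
    exact_mod_cast this
  have h1 := tendsto_pow_const_div_const_pow_of_one_lt (2 * k + 1) (r := (4 : ℝ)) (by norm_num)
  have h2 := tendsto_pow_const_div_const_pow_of_one_lt (2 * k + 5) (r := (4 : ℝ)) (by norm_num)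
  have hr : ∀ s : ℝ, 0 < s → 1 < (4 : ℝ) ^ s := fun s hs =>
    Real.one_lt_rpow (by norm_num) hs
  have hpow : ∀ (s : ℝ) (j : ℕ), ((4 : ℝ) ^ j) ^ (-s) = 1 / ((4 : ℝ) ^ s) ^ j := by
    intro s j
    rw [← Real.rpow_natCast 4 j, ← Real.rpow_mul (by norm_num), ← Real.rpow_natCast _ j,
      ← Real.rpow_mul (by norm_num), one_div, ← Real.rpow_neg (by norm_num)]
    congr 1
    ring
  have h3 : Tendsto (fun j : ℕ => ((4 : ℝ) ^ j) ^ (-(1 / (k : ℝ)))) atTop (𝓝 0) := by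
    have := tendsto_pow_const_div_const_pow_of_one_lt 0 (hr (1 / (k : ℝ)) (by positivity))
    refine this.congr fun j => ?_
    rw [hpow, pow_zero]
  have h4 : Tendsto (fun j : ℕ => (j : ℝ) * ((4 : ℝ) ^ j) ^ (-(1 / (4 * (k : ℝ))))) atTop
      (𝓝 0) := by
    have := tendsto_pow_const_div_const_pow_of_one_lt 1 (hr (1 / (4 * (k : ℝ))) (by positivity))
    refine this.congr fun j => ?_
    rw [hpow, pow_one, mul_one_div]
  have h5 := (((h1.const_mul a₁).add (h2.const_mul a₂)).add (h3.const_mul 2)).add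
    (h4.const_mul a₃)
  simp only [mul_zero, add_zero] at h5
  exact h5.eventually_lt_const (by norm_num)

end L8

open L8 in
theorem lower (k : ℕ) (hk : 2 ≤ k) : ∃ c₁ : ℝ, 0 < c₁ ∧ c₁ ≤ 1 ∧ ∀ c₀ : ℝ, 0 < c₀ →
    ∃ (c : ℝ) (j₀ : ℕ), 0 < c ∧ ∀ j : ℕ, j₀ ≤ j → ∀ C : Codec (2 * j) k (ww k j), ∀ r : ℕ,
      RandomizedComputes
        (fun x : Fin (Fintype.card (Ix (2 * j) k (5 * j) (ww k j))) → Bool =>
          FF C (th1 k c₁ j) (th0 k c₀ j) (fun i => x (Fintype.equivFin _ i))) r →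
      c * ((4 : ℝ) ^ j) ^ (2 - 1 / (k : ℝ)) ≤ r := by
  have hk1 : 1 ≤ k := by omega
  have hk0 : (0 : ℝ) < k := by exact_mod_cast (show 0 < k by omega)
  have hk2 : (2 : ℝ) ≤ k := by exact_mod_cast hk
  obtain ⟨Ca, C₁, hCa, hC₁, hadv⟩ := adv k hk1
  obtain ⟨Cb, C₂, hCb, hC₂, hphi⟩ := nu_phi k hk1
  set C₀ := max Ca Cb with hC₀def
  have hC₀ : 1 ≤ C₀ := hCa.trans (le_max_left _ _)
  have hC₀0 : 0 < C₀ := by linarith
  set c₁ : ℝ := (1 / (2 * C₀)) ^ (2 * k) / 4 with hc₁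
  have hc₁0 : 0 < c₁ := by positivity
  have hc₁1 : c₁ ≤ 1 := by
    have : (1 / (2 * C₀)) ^ (2 * k) ≤ 1 := by
      refine pow_le_one₀ (by positivity) ?_
      rw [div_le_one (by positivity)]
      linarith
    rw [hc₁]; linarith
  refine ⟨c₁, hc₁0, hc₁1, fun c₀ hc₀ => ?_⟩
  -- choose `j₀`
  obtain ⟨j₁, hj₁⟩ := Filter.eventually_atTop.1
    (eventually_small k hk (10 * (C₂ * (2 * C₀) ^ (2 * k))) (10 * (1 / c₀)) (5 * C₁))
  refine ⟨1 / 12, max j₁ 1, by norm_num, fun j hj C r hR => ?_⟩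
  have hj1 : 1 ≤ j := (le_max_right _ _).trans hj
  have hjr : (1 : ℝ) ≤ j := by exact_mod_cast hj1
  have hj0 : (0 : ℝ) < j := by linarith
  have hsmall := hj₁ j ((le_max_left _ _).trans hj)
  -- notation
  set N : ℝ := (4 : ℝ) ^ j with hN
  have hN2 : (2 : ℝ) ^ (2 * j) = N := by rw [hN, pow_mul]; norm_num
  have hN4 : 4 ≤ N := by
    calc (4 : ℝ) = 4 ^ 1 := by norm_num
      _ ≤ 4 ^ j := pow_le_pow_right₀ (by norm_num) hj1
  have hN0 : 0 < N := by linarith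
  set ε : ℝ := Real.sqrt (1 / (2 * C₀ * j)) with hε
  have hε0 : 0 < ε := Real.sqrt_pos.2 (by positivity)
  have hε2 : ε ^ 2 = 1 / (2 * C₀ * j) := Real.sq_sqrt (by positivity)
  have hεa : ε ^ 2 * (Ca * ((2 * j : ℕ) : ℝ)) ≤ 1 := by
    rw [hε2]; push_cast
    rw [div_mul_eq_mul_div, one_mul, div_le_one (by positivity)]
    have : Ca ≤ C₀ := le_max_left _ _
    nlinarith
  have hεb : ε ^ 2 * (Cb * ((2 * j : ℕ) : ℝ)) ≤ 1 := by
    rw [hε2]; push_cast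
    rw [div_mul_eq_mul_div, one_mul, div_le_one (by positivity)]
    have : Cb ≤ C₀ := le_max_right _ _
    nlinarith
  have hε2k : ε ^ (2 * k) = (1 / (2 * C₀ * j)) ^ k := by rw [pow_mul, hε2]
  have hth1 : (ε ^ (2 * k) / 2) ^ 2 = th1 k c₁ j := by
    rw [hε2k, th1, hc₁, div_pow, ← pow_mul, mul_comm k 2, one_div, one_div, inv_pow, inv_pow,
      mul_pow]
    field_simp
    norm_num
  -- the bounds
  set η : ℝ := C₂ * (2 * C₀) ^ (2 * k) * ((j : ℝ) ^ (2 * k) / N) +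
    (1 / c₀) * ((j : ℝ) ^ (2 * k + 4) / N) with hη
  have hη1 : ∑ f : Pl k (2 * j) → Bool, nu ε f * (if Phi f ^ 2 < th1 k c₁ j then 1 else 0) ≤
      η := by
    have h := hphi (2 * j) (by omega) ε hε0 hεb
    rw [hth1] at h
    refine h.trans ?_
    have h2 : C₂ / (ε ^ (4 * k) * 2 ^ (2 * j)) =
        C₂ * (2 * C₀) ^ (2 * k) * ((j : ℝ) ^ (2 * k) / N) := by
      rw [hN2, show 4 * k = 2 * (2 * k) by ring, pow_mul, hε2, one_div, inv_pow, mul_pow]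
      field_simp
    rw [h2, hη]
    have : 0 ≤ (1 / c₀) * ((j : ℝ) ^ (2 * k + 4) / N) := by positivity
    linarith
  have hη2 : ∑ f : Pl k (2 * j) → Bool, unif (Pl k (2 * j)) *
      (if th0 k c₀ j < Phi f ^ 2 then 1 else 0) ≤ η := by
    have hth0 : 0 < th0 k c₀ j := by unfold th0; positivity
    refine (unif_phi _ hth0).trans ?_
    have h2 : 1 / (2 ^ (2 * j) * th0 k c₀ j) = (1 / c₀) * ((j : ℝ) ^ (2 * k + 4) / N) := by
      rw [hN2, th0]
      field_simp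
    rw [h2, hη]
    have : 0 ≤ C₂ * (2 * C₀) ^ (2 * k) * ((j : ℝ) ^ (2 * k) / N) := by positivity
    linarith
  -- the depth
  have hexp0 : 0 ≤ 1 - 1 / (k : ℝ) := by
    have : 1 / (k : ℝ) ≤ 1 := by rw [div_le_one hk0]; linarith
    linarith
  set D : ℝ := N ^ (1 - 1 / (k : ℝ)) with hD
  have hD1 : 1 ≤ D := Real.one_le_rpow (by linarith) hexp0
  set d : ℕ := ⌊D⌋₊ with hd
  have hd1 : 1 ≤ d := by rw [hd]; exact Nat.le_floor (by simpa using hD1)
  have hdD : (d : ℝ) ≤ D := Nat.floor_le (by linarith)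
  have hDd : D ≤ d + 1 := (Nat.lt_floor_add_one D).le
  have hA : ∀ T : GTree (Pl k (2 * j)) Bool, T.depth ≤ d →
      |∑ f, (nu ε f - unif (Pl k (2 * j))) * (if T.eval f then 1 else 0)| ≤
        C₁ * N ^ (-(1 / (4 * (k : ℝ)))) := by
    intro T hT
    have h := hadv (2 * j) (by omega) ε hε0 hεa d T hT hd1 (by rw [hN2]; exact hdD)
    rwa [hN2] at h
  have hhyb := hybrid C (th1 k c₁ j) (th0 k c₀ j) η (C₁ * N ^ (-(1 / (4 * (k : ℝ))))) d r
    (by omega) (nu ε) (nu_nonneg ε) (nu_sum ε) hA hη1 hη2 hR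
  rw [hN2] at hhyb
  -- the small terms
  have hDN : D / N = N ^ (-(1 / (k : ℝ))) := by
    rw [hD, Real.rpow_sub hN0, Real.rpow_one, Real.rpow_neg hN0.le]
    field_simp
  have hd2 : (d + 1 : ℝ) / N ≤ 2 * N ^ (-(1 / (k : ℝ))) := by
    rw [← hDN, ← mul_div_assoc]
    gcongr
    linarith
  have hη3 : 2 * ((5 * j : ℕ) : ℝ) * η =
      10 * (C₂ * (2 * C₀) ^ (2 * k)) * ((j : ℝ) ^ (2 * k + 1) / N) +
        10 * (1 / c₀) * ((j : ℝ) ^ (2 * k + 5) / N) := by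
    rw [hη]; push_cast; ring
  have hA3 : ((5 * j : ℕ) : ℝ) * (C₁ * N ^ (-(1 / (4 * (k : ℝ))))) =
      5 * C₁ * (j * N ^ (-(1 / (4 * (k : ℝ))))) := by
    push_cast; ring
  have hmain : 1 / 6 ≤ (r : ℝ) / 2 ^ (5 * j) + r / (N * (d + 1)) := by
    rw [hη3, hA3] at hhyb
    linarith
  -- 2 ^ (5 j) ≥ N (d + 1)
  have hDN' : D ≤ N := by
    rw [hD]
    calc N ^ (1 - 1 / (k : ℝ)) ≤ N ^ (1 : ℝ) := by
          refine Real.rpow_le_rpow_of_exponent_le (by linarith) ?_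
          have : 0 < 1 / (k : ℝ) := by positivity
          linarith
      _ = N := Real.rpow_one _
  have h32 : N * (d + 1) ≤ (2 : ℝ) ^ (5 * j) := by
    have h1 : (d + 1 : ℝ) ≤ 2 * N := by linarith
    have h2 : (2 : ℝ) ^ (5 * j) = N * N * 2 ^ j := by
      rw [← hN2, ← pow_add, ← pow_add]
      congr 1
      ring
    have h3 : (2 : ℝ) ≤ 2 ^ j := by
      calc (2 : ℝ) = 2 ^ 1 := by norm_num
        _ ≤ 2 ^ j := pow_le_pow_right₀ (by norm_num) hj1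
    rw [h2]
    calc N * (d + 1) ≤ N * (2 * N) := mul_le_mul_of_nonneg_left h1 hN0.le
      _ = N * N * 2 := by ring
      _ ≤ _ := mul_le_mul_of_nonneg_left h3 (by positivity)
  have hr0 : (0 : ℝ) ≤ r := Nat.cast_nonneg _
  have hpos : 0 < N * (d + 1 : ℝ) := by positivity
  have h7 : (r : ℝ) / 2 ^ (5 * j) ≤ r / (N * (d + 1)) := by
    gcongr
  have h8 : 1 / 6 ≤ 2 * ((r : ℝ) / (N * (d + 1))) := by linarith
  have h9 : N * (d + 1) ≤ 12 * r := by
    rw [← mul_div_assoc, le_div_iff₀ hpos] at h8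
    linarith
  have h10 : N ^ (2 - 1 / (k : ℝ)) = N * D := by
    rw [hD, show (2 : ℝ) - 1 / k = 1 + (1 - 1 / k) by ring, Real.rpow_add hN0, Real.rpow_one]
  rw [h10]
  have h11 : N * D ≤ N * (d + 1) := mul_le_mul_of_nonneg_left hDd hN0.le
  linarith

end Crest.Agent.QGap
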