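import Crest.Agent.QGap.Defs
import Crest.Agent.QGap.Kernel

/-! # S0554, module K2: kernels are realised by a quantum query algorithm -/

set_option autoImplicit false

namespace Crest.Agent.QGap

open Matrix BigOperators Crest.MathPhysics.Query MeasureTheory ProbabilityTheory

namespace Realize

theorem sg_true : sg true = -1 := by simp [sg]
theorem sg_false : sg false = 1 := by simp [sg]

open scoped MatrixOrder in
/-- a positive semidefinite kernel is a Gram kernel -/
theorem exists_gram {Y : Type} [Fintype Y] {K : Matrix Y Y ℝ} (hK : K.PosSemidef) :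
    ∃ B : Y → Y → ℝ, ∀ y y', ∑ z, B z y * B z y' = K y y' := by
  classical
  obtain ⟨B, rfl⟩ := CStarAlgebra.nonneg_iff_eq_star_mul_self.mp hK.nonneg
  refine ⟨fun z y => B z y, fun y y' => ?_⟩
  simp [Matrix.mul_apply, Matrix.star_apply]

/-- two families with the same Gram matrix are related by a linear isometry -/
theorem exists_isometry {Y : Type} [Fintype Y] {E : Type} [NormedAddCommGroup E]
    [InnerProductSpace ℝ E] [FiniteDimensional ℝ E] (v v' : Y → E)
    (h : ∀ y y', inner ℝ (v y) (v y') = inner ℝ (v' y) (v' y')) :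
    ∃ U : E →ₗᵢ[ℝ] E, ∀ y, U (v y) = v' y := by
  classical
  let T : (Y → ℝ) →ₗ[ℝ] E := Fintype.linearCombination ℝ v
  let T' : (Y → ℝ) →ₗ[ℝ] E := Fintype.linearCombination ℝ v'
  have hnorm : ∀ c, ‖T' c‖ = ‖T c‖ := by
    intro c
    have h2 : ‖T' c‖ ^ 2 = ‖T c‖ ^ 2 := by
      rw [← real_inner_self_eq_norm_sq, ← real_inner_self_eq_norm_sq]
      simp only [T, T', Fintype.linearCombination_apply, inner_sum, sum_inner, inner_smul_left,
        inner_smul_right, h]
    exact (sq_eq_sq₀ (norm_nonneg _) (norm_nonneg _)).mp h2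
  have hker : LinearMap.ker T ≤ LinearMap.ker T' := by
    intro c hc
    rw [LinearMap.mem_ker] at hc ⊢
    rw [← norm_eq_zero, hnorm, hc, norm_zero]
  let L0 : LinearMap.range T →ₗ[ℝ] E :=
    ((LinearMap.ker T).liftQ T' hker).comp (T.quotKerEquivRange.symm : LinearMap.range T →ₗ[ℝ] _)
  have hL0 : ∀ c, L0 ⟨T c, LinearMap.mem_range_self T c⟩ = T' c := by
    intro c
    have e : T.quotKerEquivRange.symm ⟨T c, LinearMap.mem_range_self T c⟩ =
        (LinearMap.ker T).mkQ c := by
      rw [LinearEquiv.symm_apply_eq]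
      rfl
    show ((LinearMap.ker T).liftQ T' hker) (T.quotKerEquivRange.symm _) = _
    rw [e]
    simp
  let L : LinearMap.range T →ₗᵢ[ℝ] E :=
    { toLinearMap := L0
      norm_map' := by
        rintro ⟨_, c, rfl⟩
        rw [hL0 c, hnorm]
        rfl }
  refine ⟨L.extend, fun y => ?_⟩
  have hy : T (Pi.single y 1) = v y := by simp [T, Fintype.linearCombination_apply_single]
  have hy' : T' (Pi.single y 1) = v' y := by simp [T', Fintype.linearCombination_apply_single]
  have e1 := L.extend_apply ⟨T (Pi.single y 1), LinearMap.mem_range_self T _⟩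
  have e2 : L ⟨T (Pi.single y 1), LinearMap.mem_range_self T _⟩ = T' (Pi.single y 1) :=
    hL0 (Pi.single y 1)
  rw [e2, hy'] at e1
  rw [← e1]
  simp only [hy]

/-- the same for real vectors and orthogonal matrices -/
theorem exists_orth {Y ι : Type} [Fintype Y] [Fintype ι] [DecidableEq ι] (v v' : Y → ι → ℝ)
    (h : ∀ y y', ∑ e, v y e * v y' e = ∑ e, v' y e * v' y' e) :
    ∃ A : Matrix ι ι ℝ, Aᵀ * A = 1 ∧ ∀ y, A.mulVec (v y) = v' y := by
  classical
  obtain ⟨U, hU⟩ := exists_isometry (E := EuclideanSpace ℝ ι)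
    (fun y => WithLp.toLp 2 (v y)) (fun y => WithLp.toLp 2 (v' y)) (by
      intro y y'
      have := h y y'
      simp only [PiLp.inner_apply, RCLike.inner_apply, conj_trivial]
      simpa [mul_comm] using this)
  let A : Matrix ι ι ℝ := Matrix.of fun i j => U (EuclideanSpace.single j (1 : ℝ)) i
  refine ⟨A, ?_, ?_⟩
  · ext i j
    have h1 := U.inner_map_map (EuclideanSpace.single i (1 : ℝ)) (EuclideanSpace.single j (1 : ℝ))
    rw [PiLp.inner_apply] at h1
    simp only [RCLike.inner_apply, conj_trivial] at h1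
    rw [Matrix.mul_apply]
    simp only [Matrix.transpose_apply, A, Matrix.of_apply]
    rw [show (∑ x, U (EuclideanSpace.single i (1 : ℝ)) x * U (EuclideanSpace.single j (1 : ℝ)) x)
      = ∑ x, U (EuclideanSpace.single j (1 : ℝ)) x * U (EuclideanSpace.single i (1 : ℝ)) x from
        Finset.sum_congr rfl fun x _ => mul_comm _ _, h1]
    simp [Matrix.one_apply, EuclideanSpace.inner_single_left]
  · intro y
    funext i
    have h1 : (WithLp.toLp 2 (v y) : EuclideanSpace ℝ ι) =
        ∑ j, v y j • EuclideanSpace.single j (1 : ℝ) := by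
      ext i
      simp [Pi.single_apply]
    have h2 := hU y
    rw [h1, map_sum] at h2
    have h3 := congrArg (fun f : EuclideanSpace ℝ ι => f i) h2
    simp only [map_smul] at h3
    simp only [Matrix.mulVec, dotProduct, A, Matrix.of_apply]
    rw [← h3]
    simp [mul_comm]

/-- the real oracle -/
def orR {n w : ℕ} (x : Fin n → Bool) (ψ : QIdx n w → ℝ) : QIdx n w → ℝ :=
  fun e => ψ (e.1, xor e.2.1 (x e.1), e.2.2)

/-- the real state -/
def stR {n w : ℕ} (U : ℕ → Matrix (QIdx n w) (QIdx n w) ℝ) (x : Fin n → Bool)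
    (ψ₀ : QIdx n w → ℝ) : ℕ → QIdx n w → ℝ
  | 0 => (U 0).mulVec ψ₀
  | t + 1 => (U (t + 1)).mulVec (orR x (stR U x ψ₀ t))

theorem stR_congr {n w : ℕ} {U U' : ℕ → Matrix (QIdx n w) (QIdx n w) ℝ} (x : Fin n → Bool)
    (ψ₀ : QIdx n w → ℝ) (q : ℕ) (h : ∀ t, t ≤ q → U t = U' t) :
    stR U x ψ₀ q = stR U' x ψ₀ q := by
  induction q with
  | zero => simp [stR, h 0 le_rfl]
  | succ q ih =>
    simp only [stR]
    rw [h (q + 1) le_rfl, ih fun t ht => h t (by omega)]

/-- the family used for a query -/
noncomputable def fam {I Y : Type} [Fintype I] [Fintype Y] {n w : ℕ} (eI : I ≃ Fin n)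
    (eY : Y ≃ Fin w) (i0 : Fin n) (p : Y → Y → ℝ) (m : I → Y → Y → ℝ) (y : Y) :
    QIdx n w → ℝ :=
  fun e => Real.sqrt (1 / 2) * (sg e.2.1 * m (eI.symm e.1) (eY.symm e.2.2) y +
    if e.1 = i0 then p (eY.symm e.2.2) y else 0)

theorem gram_fam {I Y : Type} [Fintype I] [Fintype Y] {n w : ℕ} (eI : I ≃ Fin n)
    (eY : Y ≃ Fin w) (i0 : Fin n) (p : Y → Y → ℝ) (m m' : I → Y → Y → ℝ) (y y' : Y) :
    ∑ e, fam eI eY i0 p m y e * fam eI eY i0 p m' y' e =
      ∑ z, p z y * p z y' + ∑ i, ∑ z, m i z y * m' i z y' := by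
  classical
  have hs : Real.sqrt (1 / 2) * Real.sqrt (1 / 2) = 1 / 2 :=
    Real.mul_self_sqrt (by norm_num)
  rw [Fintype.sum_prod_type]
  simp only [Fintype.sum_prod_type, Fintype.sum_bool, fam]
  have e1 : ∀ (i : Fin n), (∑ z : Fin w,
      Real.sqrt (1 / 2) * (sg true * m (eI.symm i) (eY.symm z) y +
        if i = i0 then p (eY.symm z) y else 0) *
      (Real.sqrt (1 / 2) * (sg true * m' (eI.symm i) (eY.symm z) y' +
        if i = i0 then p (eY.symm z) y' else 0))) +
      (∑ z : Fin w, Real.sqrt (1 / 2) * (sg false * m (eI.symm i) (eY.symm z) y +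
        if i = i0 then p (eY.symm z) y else 0) *
      (Real.sqrt (1 / 2) * (sg false * m' (eI.symm i) (eY.symm z) y' +
        if i = i0 then p (eY.symm z) y' else 0))) =
      (∑ z : Fin w, m (eI.symm i) (eY.symm z) y * m' (eI.symm i) (eY.symm z) y') +
      ∑ z : Fin w, if i = i0 then p (eY.symm z) y * p (eY.symm z) y' else 0 := by
    intro i
    rw [← Finset.sum_add_distrib, ← Finset.sum_add_distrib]
    refine Finset.sum_congr rfl fun z _ => ?_
    by_cases hi : i = i0
    · simp only [hi, if_true, sg_true, sg_false]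
      linear_combination (2 * m (eI.symm i0) (eY.symm z) y * m' (eI.symm i0) (eY.symm z) y' +
        2 * p (eY.symm z) y * p (eY.symm z) y') * hs
    · simp only [hi, if_false, sg_true, sg_false]
      linear_combination (2 * m (eI.symm i) (eY.symm z) y * m' (eI.symm i) (eY.symm z) y') * hs
  rw [Finset.sum_congr rfl fun i _ => e1 i, Finset.sum_add_distrib, add_comm]
  congr 1
  · rw [Finset.sum_comm]
    simp only [Finset.sum_ite_eq', Finset.mem_univ, if_true]
    exact Equiv.sum_comp eY.symm fun z => p z y * p z y'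
  · rw [← Equiv.sum_comp eI.symm fun i => ∑ z, m i z y * m' i z y']
    refine Finset.sum_congr rfl fun i _ => ?_
    exact Equiv.sum_comp eY.symm fun z => m (eI.symm i) z y * m' (eI.symm i) z y'

theorem orR_fam {I Y : Type} [Fintype I] [Fintype Y] {n w : ℕ} (eI : I ≃ Fin n)
    (eY : Y ≃ Fin w) (i0 : Fin n) (π : Y → I → Bool) (p : Y → Y → ℝ) (m : I → Y → Y → ℝ)
    (y : Y) :
    orR (fun i => π y (eI.symm i)) (fam eI eY i0 p m y) =
      fam eI eY i0 p (fun i z y => sg (π y i) * m i z y) y := by
  funext e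
  simp only [orR, fam]
  have : sg (xor e.2.1 (π y (eI.symm e.1))) = sg e.2.1 * sg (π y (eI.symm e.1)) := by
    cases e.2.1 <;> cases π y (eI.symm e.1) <;> simp [sg]
  rw [this, mul_assoc (sg e.2.1)]

theorem run {I Y : Type} [Fintype I] [Fintype Y] {n w : ℕ} (eI : I ≃ Fin n)
    (eY : Y ≃ Fin w) (i0 : Fin n) (π : Y → I → Bool) {q : ℕ} {G G' : Matrix Y Y ℝ}
    (h : KStep π q G G') (φ : Y → QIdx n w → ℝ) (hφ : ∀ y y', ∑ e, φ y e * φ y' e = G y y') :
    ∀ φ' : Y → QIdx n w → ℝ, (∀ y y', ∑ e, φ' y e * φ' y' e = G' y y') →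
    ∃ U : ℕ → Matrix (QIdx n w) (QIdx n w) ℝ, (∀ t, (U t)ᵀ * U t = 1) ∧
      ∀ y, stR U (fun i => π y (eI.symm i)) (φ y) q = φ' y := by
  classical
  induction h with
  | refl hG =>
    intro φ' hφ'
    obtain ⟨A, hA, hAv⟩ := exists_orth φ φ' (fun y y' => by rw [hφ, hφ'])
    exact ⟨fun _ => A, fun _ => hA, fun y => by simp [stR, hAv]⟩
  | @step q G P M hP hM h ih =>
    intro φ' hφ'
    obtain ⟨p, hp⟩ := exists_gram hP
    choose m hm using fun i => exists_gram (hM i)
    obtain ⟨U, hU, hUv⟩ := ih hφ (fam eI eY i0 p m) (by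
      intro y y'
      rw [gram_fam, hp]
      simp only [hm, Matrix.add_apply, Matrix.sum_apply])
    obtain ⟨A, hA, hAv⟩ := exists_orth
      (fun y => orR (fun i => π y (eI.symm i)) (fam eI eY i0 p m y)) φ' (by
        intro y y'
        simp only [orR_fam]
        have e1 : ∑ e, fam eI eY i0 p (fun i z y => sg (π y i) * m i z y) y e *
            fam eI eY i0 p (fun i z y => sg (π y i) * m i z y) y' e =
            ∑ z, p z y * p z y' + ∑ i, ∑ z, (sg (π y i) * m i z y) * (sg (π y' i) * m i z y') :=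
          gram_fam eI eY i0 p _ _ y y'
        rw [e1, hφ', hp]
        simp only [Matrix.add_apply, Matrix.sum_apply, Matrix.of_apply]
        congr 1
        refine Finset.sum_congr rfl fun i _ => ?_
        rw [← hm i, Finset.mul_sum]
        refine Finset.sum_congr rfl fun z _ => ?_
        ring)
    refine ⟨fun t => if t ≤ q then U t else A, fun t => ?_, fun y => ?_⟩
    · by_cases ht : t ≤ q
      · simp only [ht, if_true]; exact hU t
      · simp only [ht, if_false]; exact hA
    · simp only [stR]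
      rw [if_neg (by omega : ¬ q + 1 ≤ q)]
      rw [stR_congr (U' := U) _ _ q (fun t ht => by simp [ht]), hUv]
      exact hAv y

theorem state_cast {n w : ℕ} (U : ℕ → Matrix (QIdx n w) (QIdx n w) ℝ) (x : Fin n → Bool)
    (ψ₀ : QIdx n w → ℝ) (t : ℕ) :
    stateAfter (fun t => (U t).map Complex.ofReal) x (fun e => (ψ₀ e : ℂ)) t =
      fun e => ((stR U x ψ₀ t e : ℝ) : ℂ) := by
  induction t with
  | zero =>
    funext e
    simp [stateAfter, stR, Matrix.mulVec, dotProduct]
  | succ t ih =>
    funext e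
    simp [stateAfter, stR, Matrix.mulVec, dotProduct, ih, oracle, orR]

end Realize

open Realize in
theorem realize {I : Type} [Fintype I] [Nonempty I] (F₀ : (I → Bool) → Bool) (q : ℕ)
    (D : (I → Bool) → Bool → ℝ) (h : QProc I q D) (hD : ∀ x, 2 / 3 ≤ D x (F₀ x)) :
    QuantumComputes
      (fun x : Fin (Fintype.card I) → Bool => F₀ (fun i => x (Fintype.equivFin I i))) q := by
  classical
  obtain ⟨G, hG, hs, hDG⟩ := h
  set eI := Fintype.equivFin I with heI
  set eY := Fintype.equivFin (I → Bool) with heY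
  let i0 : Fin (Fintype.card I) := eI (Classical.arbitrary I)
  let w0 : Fin (Fintype.card (I → Bool)) := eY fun _ => false
  choose g hg using fun b => exists_gram (hG b)
  let φ : (I → Bool) → QIdx (Fintype.card I) (Fintype.card (I → Bool)) → ℝ :=
    fun _ => Pi.single (i0, false, w0) 1
  let φ' : (I → Bool) → QIdx (Fintype.card I) (Fintype.card (I → Bool)) → ℝ :=
    fun y e => if e.1 = i0 then g e.2.1 (eY.symm e.2.2) y else 0
  obtain ⟨U, hU, hUv⟩ := run eI eY i0 (fun x : I → Bool => x) hs φ (by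
      intro y y'
      simp [φ, Pi.single_apply]) φ' (by
      intro y y'
      simp only [φ']
      rw [Fintype.sum_prod_type, Finset.sum_eq_single i0]
      · simp only [if_true]
        rw [Fintype.sum_prod_type]
        simp only [Matrix.sum_apply]
        refine Finset.sum_congr rfl fun b _ => ?_
        rw [← hg b]
        exact Equiv.sum_comp eY.symm fun z => g b z y * g b z y'
      · intro i _ hi
        simp [hi]
      · simp)
  refine ⟨Fintype.card (I → Bool), fun t => (U t).map Complex.ofReal, fun e =>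
    (((Pi.single (i0, false, w0) 1 : QIdx (Fintype.card I) (Fintype.card (I → Bool)) → ℝ) e : ℝ) : ℂ),
    fun e => e.2.1, fun t => ?_, ?_, fun x => ?_⟩
  · rw [Matrix.mem_unitaryGroup_iff']
    have h1 : star ((U t).map Complex.ofReal) = ((U t)ᵀ).map Complex.ofReal := by
      ext i j
      simp [Matrix.star_apply]
    rw [h1]
    have h2 := congrArg (fun A : Matrix _ _ ℝ => A.map (Complex.ofRealHom : ℝ →+* ℂ)) (hU t)
    simp only [Matrix.map_mul] at h2
    rw [Matrix.map_one _ (map_zero _) (map_one _)] at h2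
    exact h2
  · rw [Finset.sum_eq_single (i0, false, w0)]
    · simp
    · intro e _ he
      simp [he]
    · simp
  · have hx : (fun i => (fun i : I => x (eI i)) (eI.symm i)) = x := by
      funext i; simp
    have h1 := hUv (fun i : I => x (eI i))
    simp only [Equiv.apply_symm_apply] at h1
    rw [state_cast]
    have h3 := hD (fun i : I => x (eI i))
    refine h3.trans (le_of_eq ?_)
    rw [show stR U x (Pi.single (i0, false, w0) 1) q = φ' (fun i : I => x (eI i)) from h1]
    rw [← hDG, ← hg]
    simp only [φ']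
    rw [Fintype.sum_prod_type, Finset.sum_eq_single i0]
    · simp only [if_true]
      rw [Fintype.sum_prod_type, Finset.sum_eq_single (F₀ fun i => x (eI i))]
      · simp only [if_true]
        rw [← Equiv.sum_comp eY.symm]
        refine Finset.sum_congr rfl fun z _ => ?_
        rw [Complex.norm_real, Real.norm_eq_abs, sq_abs, sq]
      · intro b _ hb
        simp [hb]
      · simp
    · intro i _ hi
      simp [hi]
    · simp

end Crest.Agent.QGap
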