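import Mathlib
import Crest.Agent.QGap.Defs
import Crest.Agent.QGap.Realize
import Crest.Agent.QGap.Tableau
import Crest.Agent.QGap.Upper
import Crest.Agent.QGap.Lower

/-!
# S0554: assembly (owner helper7)
-/

set_option autoImplicit false

namespace Crest.Agent.QGap

open Matrix BigOperators Crest.MathPhysics.Query MeasureTheory ProbabilityTheory

theorem final (k : ℕ) (hk : 2 ≤ k) :
    ∃ (c C b : ℝ), 0 < c ∧ 0 < C ∧ 0 < b ∧ ∃ m₀ : ℕ, ∀ m : ℕ, m₀ ≤ m → (∃ j : ℕ, m = 4 ^ j) →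
      ∃ (n : ℕ) (F : (Fin n → Bool) → Bool),
        (∃ q : ℕ, (q : ℝ) ≤ C * Real.sqrt m * Real.log m ^ b ∧ QuantumComputes F q) ∧
        (∀ r : ℕ, RandomizedComputes F r →
          c * (m : ℝ) ^ (2 - 1 / (k : ℝ)) / Real.log m ^ 2 ≤ r) := by
  obtain ⟨c₁, hc₁, hc₁', hlow⟩ := lower k hk
  obtain ⟨c₀, K, e, hc₀, hup⟩ := upper k c₁ hc₁ hc₁'
  obtain ⟨c, j₀, hc, hlow⟩ := hlow c₀ hc₀
  refine ⟨c, (K : ℝ) + 1, (e : ℝ) + 1, hc, by positivity, by positivity, 4 ^ (max j₀ 1),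
    fun m hm hmj => ?_⟩
  obtain ⟨j, rfl⟩ := hmj
  have hj : max j₀ 1 ≤ j := (Nat.pow_le_pow_iff_right (by norm_num)).1 hm
  have hj0 : j₀ ≤ j := (le_max_left _ _).trans hj
  have hj1 : 1 ≤ j := (le_max_right _ _).trans hj
  have hjr : (1 : ℝ) ≤ j := by exact_mod_cast hj1
  obtain ⟨C⟩ := codec_exists (2 * j) k
  change Codec (2 * j) k (ww k j) at C
  have hlog : (j : ℝ) ≤ Real.log ((4 ^ j : ℕ) : ℝ) := by
    push_cast
    rw [Real.log_pow]
    have h4 : 1 ≤ Real.log 4 := by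
      have := Real.log_two_gt_d9
      have h2 : Real.log 4 = 2 * Real.log 2 := by
        rw [show (4 : ℝ) = 2 ^ 2 by norm_num, Real.log_pow]; norm_num
      rw [h2]; linarith
    nlinarith
  have hlog1 : 1 ≤ Real.log ((4 ^ j : ℕ) : ℝ) := hjr.trans hlog
  refine ⟨Fintype.card (Ix (2 * j) k (5 * j) (ww k j)), fun x =>
    FF C (th1 k c₁ j) (th0 k c₀ j) (fun i => x (Fintype.equivFin _ i)), ?_, ?_⟩
  · obtain ⟨q, D, hq, hD1, hD2⟩ := hup j hj1 C
    have : Nonempty (Ix (2 * j) k (5 * j) (ww k j)) :=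
      ⟨Sum.inr (Sum.inl (fun _ => false, fun _ => false))⟩
    refine ⟨q, ?_, realize _ q D hD1 hD2⟩
    have hsqrt : Real.sqrt ((4 ^ j : ℕ) : ℝ) = 2 ^ j := by
      have : ((4 ^ j : ℕ) : ℝ) = (2 ^ j) ^ 2 := by
        push_cast
        rw [← pow_mul, mul_comm, pow_mul]
        norm_num
      rw [this, Real.sqrt_sq (by positivity)]
    rw [hsqrt]
    have h1 : (q : ℝ) ≤ K * 2 ^ j * j ^ e := by exact_mod_cast hq
    have h2 : (j : ℝ) ^ e ≤ Real.log ((4 ^ j : ℕ) : ℝ) ^ ((e : ℝ) + 1) := by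
      calc (j : ℝ) ^ e ≤ Real.log ((4 ^ j : ℕ) : ℝ) ^ e :=
            pow_le_pow_left₀ (by linarith) hlog e
        _ = Real.log ((4 ^ j : ℕ) : ℝ) ^ (e : ℝ) := (Real.rpow_natCast _ _).symm
        _ ≤ _ := Real.rpow_le_rpow_of_exponent_le hlog1 (by linarith)
    calc (q : ℝ) ≤ K * 2 ^ j * j ^ e := h1
      _ ≤ ((K : ℝ) + 1) * 2 ^ j * Real.log ((4 ^ j : ℕ) : ℝ) ^ ((e : ℝ) + 1) := by
          refine mul_le_mul ?_ h2 (by positivity) (by positivity)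
          refine mul_le_mul_of_nonneg_right (by linarith) (by positivity)
  · intro r hr
    refine le_trans ?_ (hlow j hj0 C r hr)
    have h3 : (((4 ^ j : ℕ) : ℝ)) = (4 : ℝ) ^ j := by push_cast; rfl
    rw [h3] at hlog1 ⊢
    rw [div_le_iff₀ (by positivity)]
    refine le_mul_of_one_le_right (by positivity) ?_
    exact one_le_pow₀ hlog1

end Crest.Agent.QGap
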