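import Crest.Agent.QGap.Defs

/-! # S0554: thresholds and word length (shared by U2 Upper and L8 Lower) -/

set_option autoImplicit false

namespace Crest.Agent.QGap

/-- thresholds -/
noncomputable def th1 (k : ℕ) (c₁ : ℝ) (j : ℕ) : ℝ := c₁ / (j : ℝ) ^ (2 * k)
noncomputable def th0 (k : ℕ) (c₀ : ℝ) (j : ℕ) : ℝ := c₀ / (j : ℝ) ^ (2 * k + 4)
/-- word length -/
def ww (k j : ℕ) : ℕ := 2 * j * (k + 2) + 3

end Crest.Agent.QGap
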